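import Mathlib

/-!
Signed measures on a monoid: norm, domination, and smoothing of powers of a lazy measure.
-/

namespace Vale.Agent.P321

open MonoidAlgebra Finset

variable {G : Type*} [Monoid G]

set_option linter.unusedSectionVars false

/-- Total mass. -/
noncomputable def mass : MonoidAlgebra ℝ G →ₐ[ℝ] ℝ := lift ℝ ℝ G (1 : G →* ℝ)

/-- Coefficientwise absolute value. -/
noncomputable def absM (D : MonoidAlgebra ℝ G) : MonoidAlgebra ℝ G :=
  ofCoeff (D.coeff.mapRange abs abs_zero)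

/-- The `l1` norm. -/
noncomputable def nrm (D : MonoidAlgebra ℝ G) : ℝ := mass (absM D)

/-- `|D| ≤ R` pointwise. -/
def AbsLE (D R : MonoidAlgebra ℝ G) : Prop := ∀ x, |D.coeff x| ≤ R.coeff x

/-- Probability measure. -/
def IsProb (R : MonoidAlgebra ℝ G) : Prop := AbsLE R R ∧ mass R = 1

/-- `D` is at most `η R` pointwise up to an error of norm at most `ε`. -/
def Dom (D R : MonoidAlgebra ℝ G) (η ε : ℝ) : Prop :=
  ∃ D₁, AbsLE D₁ (η • R) ∧ nrm (D - D₁) ≤ ε

@[simp] lemma absM_coeff (D : MonoidAlgebra ℝ G) (x : G) : (absM D).coeff x = |D.coeff x| := by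
  simp [absM]

lemma mass_eq (D : MonoidAlgebra ℝ G) {s : Finset G} (hs : D.coeff.support ⊆ s) :
    mass D = ∑ x ∈ s, D.coeff x := by
  rw [mass, lift_apply, Finsupp.sum_of_support_subset _ hs _ (by simp)]
  simp

@[simp] lemma mass_single (x : G) (r : ℝ) : mass (single x r) = r := by
  simp [mass]

lemma AbsLE.nonneg {D R : MonoidAlgebra ℝ G} (h : AbsLE D R) (x : G) : 0 ≤ R.coeff x :=
  (abs_nonneg _).trans (h x)

lemma AbsLE.pos {D R : MonoidAlgebra ℝ G} (h : AbsLE D R) : AbsLE R R :=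
  fun x => (abs_of_nonneg (h.nonneg x)).le

lemma absLE_abs (D : MonoidAlgebra ℝ G) : AbsLE D (absM D) := fun x => by simp

lemma AbsLE.trans {D R S : MonoidAlgebra ℝ G} (h : AbsLE D R) (h' : AbsLE R S) : AbsLE D S :=
  fun x => (h x).trans ((le_abs_self _).trans (h' x))

lemma AbsLE.abs_mass_le {D R : MonoidAlgebra ℝ G} (h : AbsLE D R) : |mass D| ≤ mass R := by
  classical
  rw [mass_eq D (s := D.coeff.support ∪ R.coeff.support) subset_union_left,
    mass_eq R (s := D.coeff.support ∪ R.coeff.support) subset_union_right]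
  exact (abs_sum_le_sum_abs _ _).trans (sum_le_sum fun x _ => h x)

lemma AbsLE.mass_nonneg {D R : MonoidAlgebra ℝ G} (h : AbsLE D R) : 0 ≤ mass R :=
  (abs_nonneg _).trans h.abs_mass_le

lemma AbsLE.nrm_le {D R : MonoidAlgebra ℝ G} (h : AbsLE D R) : nrm D ≤ mass R :=
  (le_abs_self _).trans (AbsLE.abs_mass_le (fun x => by simpa using h x))

lemma nrm_nonneg (D : MonoidAlgebra ℝ G) : 0 ≤ nrm D := (absLE_abs D).mass_nonneg

lemma nrm_eq_mass {D : MonoidAlgebra ℝ G} (h : AbsLE D D) : nrm D = mass D := by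
  refine congrArg mass (coeff_injective (Finsupp.ext fun x => ?_))
  rw [absM_coeff, abs_of_nonneg (h.nonneg x)]

lemma nrm_eq_sum (D : MonoidAlgebra ℝ G) {s : Finset G} (hs : D.coeff.support ⊆ s) :
    nrm D = ∑ x ∈ s, |D.coeff x| := by
  classical
  rw [nrm, mass_eq (absM D) (s := s)
    ((Finsupp.support_mapRange (hf := abs_zero)).trans hs)]
  simp

lemma abs_mass_le_nrm (D : MonoidAlgebra ℝ G) : |mass D| ≤ nrm D := (absLE_abs D).abs_mass_le

lemma AbsLE.add {D R E S : MonoidAlgebra ℝ G} (h : AbsLE D R) (h' : AbsLE E S) :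
    AbsLE (D + E) (R + S) := fun x => by
  simp only [coeff_add, Finsupp.add_apply]
  exact (abs_add_le _ _).trans (add_le_add (h x) (h' x))

lemma AbsLE.neg {D R : MonoidAlgebra ℝ G} (h : AbsLE D R) : AbsLE (-D) R := fun x => by
  simpa using h x

lemma AbsLE.smul {D R : MonoidAlgebra ℝ G} (h : AbsLE D R) (a : ℝ) :
    AbsLE (a • D) (|a| • R) := fun x => by
  simp only [coeff_smul, Finsupp.smul_apply, smul_eq_mul, abs_mul]
  exact mul_le_mul_of_nonneg_left (h x) (abs_nonneg a)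

lemma absLE_zero {R : MonoidAlgebra ℝ G} (h : AbsLE R R) : AbsLE 0 R := fun x => by
  simpa using h.nonneg x

lemma absLE_single (x : G) {r : ℝ} (hr : 0 ≤ r) : AbsLE (single x r) (single x r) := fun y => by
  classical
  rw [coeff_single, Finsupp.single_apply]
  split <;> simp [abs_of_nonneg, hr]

lemma AbsLE.mul {D R E S : MonoidAlgebra ℝ G} (h : AbsLE D R) (h' : AbsLE E S) :
    AbsLE (D * E) (R * S) := fun m => by
  classical
  have hsub : ∀ {A B : MonoidAlgebra ℝ G}, AbsLE A B → A.coeff.support ⊆ B.coeff.support := by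
    intro A B hAB x hx
    rw [Finsupp.mem_support_iff] at hx ⊢
    intro h0
    exact hx (abs_eq_zero.1 (le_antisymm ((hAB x).trans h0.le) (abs_nonneg _)))
  rw [coeff_mul, coeff_mul, Finsupp.sum_of_support_subset _ (hsub h) _ (by simp), Finsupp.sum]
  refine (abs_sum_le_sum_abs _ _).trans (sum_le_sum fun a _ => ?_)
  rw [Finsupp.sum_of_support_subset _ (hsub h') _ (by simp), Finsupp.sum]
  refine (abs_sum_le_sum_abs _ _).trans (sum_le_sum fun b _ => ?_)
  split
  · rw [abs_mul]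
    exact mul_le_mul (h a) (h' b) (abs_nonneg _) (h.nonneg a)
  · simp

lemma absLE_one : AbsLE (1 : MonoidAlgebra ℝ G) 1 := absLE_single 1 zero_le_one

lemma nrm_add_le (D E : MonoidAlgebra ℝ G) : nrm (D + E) ≤ nrm D + nrm E :=
  ((absLE_abs D).add (absLE_abs E)).nrm_le.trans (by rw [map_add]; rfl)

lemma nrm_neg (D : MonoidAlgebra ℝ G) : nrm (-D) = nrm D := by
  refine congrArg mass (coeff_injective (Finsupp.ext fun x => ?_))
  simp

lemma nrm_sub_comm (D E : MonoidAlgebra ℝ G) : nrm (D - E) = nrm (E - D) := by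
  rw [← nrm_neg, neg_sub]

lemma nrm_sub_le (D E : MonoidAlgebra ℝ G) : nrm (D - E) ≤ nrm D + nrm E := by
  rw [sub_eq_add_neg]; exact (nrm_add_le _ _).trans (by rw [nrm_neg])

lemma nrm_smul (a : ℝ) (D : MonoidAlgebra ℝ G) : nrm (a • D) = |a| * nrm D := by
  rw [nrm, nrm, ← smul_eq_mul, ← map_smul]
  refine congrArg mass (coeff_injective (Finsupp.ext fun x => ?_))
  simp [abs_mul]

lemma nrm_mul_le (D E : MonoidAlgebra ℝ G) : nrm (D * E) ≤ nrm D * nrm E :=
  ((absLE_abs D).mul (absLE_abs E)).nrm_le.trans (by rw [map_mul]; rfl)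

@[simp] lemma nrm_zero : nrm (0 : MonoidAlgebra ℝ G) = 0 := by
  rw [nrm_eq_mass (fun x => by simp), map_zero]

lemma nrm_one : nrm (1 : MonoidAlgebra ℝ G) = 1 := by
  rw [nrm_eq_mass absLE_one, map_one]

lemma nrm_sum_le {ι : Type*} (s : Finset ι) (f : ι → MonoidAlgebra ℝ G) :
    nrm (∑ i ∈ s, f i) ≤ ∑ i ∈ s, nrm (f i) := by
  classical
  induction s using Finset.induction with
  | empty => simp
  | insert i s hi ih =>
    rw [sum_insert hi, sum_insert hi]
    exact (nrm_add_le _ _).trans (by linarith)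

lemma nrm_pow_le (D : MonoidAlgebra ℝ G) : ∀ n : ℕ, nrm (D ^ n) ≤ nrm D ^ n
  | 0 => by simp [nrm_one]
  | n + 1 => by
    rw [pow_succ, pow_succ]
    exact (nrm_mul_le _ _).trans (mul_le_mul_of_nonneg_right (nrm_pow_le D n) (nrm_nonneg _))

lemma IsProb.one : IsProb (1 : MonoidAlgebra ℝ G) := ⟨absLE_one, map_one _⟩

lemma IsProb.mul {R S : MonoidAlgebra ℝ G} (h : IsProb R) (h' : IsProb S) : IsProb (R * S) :=
  ⟨h.1.mul h'.1, by rw [map_mul, h.2, h'.2, one_mul]⟩

lemma IsProb.pow {R : MonoidAlgebra ℝ G} (h : IsProb R) : ∀ n : ℕ, IsProb (R ^ n)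
  | 0 => by simpa using IsProb.one
  | n + 1 => by rw [pow_succ]; exact (h.pow n).mul h

lemma IsProb.nrm_eq {R : MonoidAlgebra ℝ G} (h : IsProb R) : nrm R = 1 := by
  rw [nrm_eq_mass h.1, h.2]

/-! ### Domination -/

lemma Dom.of_absLE {D R : MonoidAlgebra ℝ G} {η : ℝ} (h : AbsLE D (η • R)) : Dom D R η 0 :=
  ⟨D, h, by simp⟩

lemma Dom.mono {D R : MonoidAlgebra ℝ G} {η η' ε ε' : ℝ} (h : Dom D R η ε) (hR : AbsLE R R)
    (h1 : η ≤ η') (h2 : ε ≤ ε') : Dom D R η' ε' := by
  obtain ⟨D₁, hD, he⟩ := h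
  refine ⟨D₁, fun x => (hD x).trans ?_, he.trans h2⟩
  simpa using mul_le_mul_of_nonneg_right h1 (hR.nonneg x)

lemma Dom.eps_nonneg {D R : MonoidAlgebra ℝ G} {η ε : ℝ} (h : Dom D R η ε) : 0 ≤ ε := by
  obtain ⟨D₁, -, he⟩ := h
  exact (nrm_nonneg _).trans he

lemma Dom.nrm_le {D R : MonoidAlgebra ℝ G} {η ε : ℝ} (h : Dom D R η ε) (hR : IsProb R) :
    nrm D ≤ η + ε := by
  obtain ⟨D₁, hD, he⟩ := h
  have h1 := hD.nrm_le
  rw [map_smul, hR.2, smul_eq_mul, mul_one] at h1
  have h2 := nrm_add_le D₁ (D - D₁)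
  rw [add_sub_cancel] at h2
  linarith

lemma Dom.add {D E R : MonoidAlgebra ℝ G} {η η' ε ε' : ℝ} (h : Dom D R η ε)
    (h' : Dom E R η' ε') : Dom (D + E) R (η + η') (ε + ε') := by
  obtain ⟨D₁, hD, he⟩ := h
  obtain ⟨E₁, hE, he'⟩ := h'
  refine ⟨D₁ + E₁, by rw [add_smul]; exact hD.add hE, ?_⟩
  rw [add_sub_add_comm]
  exact (nrm_add_le _ _).trans (add_le_add he he')

lemma Dom.neg {D R : MonoidAlgebra ℝ G} {η ε : ℝ} (h : Dom D R η ε) : Dom (-D) R η ε := by
  obtain ⟨D₁, hD, he⟩ := h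
  exact ⟨-D₁, hD.neg, by rwa [← neg_sub', nrm_neg]⟩

lemma Dom.sub {D E R : MonoidAlgebra ℝ G} {η η' ε ε' : ℝ} (h : Dom D R η ε)
    (h' : Dom E R η' ε') : Dom (D - E) R (η + η') (ε + ε') := by
  rw [sub_eq_add_neg]; exact h.add h'.neg

lemma Dom.smul {D R : MonoidAlgebra ℝ G} {η ε : ℝ} (h : Dom D R η ε) (a : ℝ) :
    Dom (a • D) R (|a| * η) (|a| * ε) := by
  obtain ⟨D₁, hD, he⟩ := h
  refine ⟨a • D₁, by rw [← smul_smul]; exact hD.smul a, ?_⟩
  rw [← smul_sub, nrm_smul]
  exact mul_le_mul_of_nonneg_left he (abs_nonneg a)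

lemma Dom.of_nrm {D R : MonoidAlgebra ℝ G} (hR : AbsLE R R) : Dom D R 0 (nrm D) :=
  ⟨0, fun x => by simp, by simp⟩

lemma dom_sum {ι : Type*} (s : Finset ι) {f : ι → MonoidAlgebra ℝ G} {R : MonoidAlgebra ℝ G}
    {η ε : ι → ℝ} (hR : AbsLE R R) (h : ∀ i ∈ s, Dom (f i) R (η i) (ε i)) :
    Dom (∑ i ∈ s, f i) R (∑ i ∈ s, η i) (∑ i ∈ s, ε i) := by
  classical
  induction s using Finset.induction with
  | empty => simpa using Dom.of_nrm (D := (0 : MonoidAlgebra ℝ G)) hR
  | insert i s hi ih =>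
    rw [sum_insert hi, sum_insert hi, sum_insert hi]
    exact (h i (mem_insert_self _ _)).add (ih fun j hj => h j (mem_insert_of_mem hj))

lemma Dom.mul {D E R S : MonoidAlgebra ℝ G} {η η' ε ε' : ℝ} (hR : IsProb R) (hS : IsProb S)
    (hη : 0 ≤ η) (h : Dom D R η ε) (h' : Dom E S η' ε') :
    Dom (D * E) (R * S) (η * η') (ε * (η' + ε') + η * ε') := by
  have hn := h'.nrm_le hS
  have hε := h.eps_nonneg
  obtain ⟨D₁, hD, he⟩ := h
  obtain ⟨E₁, hE, he'⟩ := h'
  refine ⟨D₁ * E₁, ?_, ?_⟩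
  · have := hD.mul hE
    rwa [smul_mul_assoc, mul_smul_comm, smul_smul] at this
  · rw [show D * E - D₁ * E₁ = (D - D₁) * E + D₁ * (E - E₁) by noncomm_ring]
    refine (nrm_add_le _ _).trans (add_le_add ((nrm_mul_le _ _).trans
      (mul_le_mul he hn (nrm_nonneg _) hε)) ((nrm_mul_le _ _).trans
      (mul_le_mul ?_ he' (nrm_nonneg _) hη)))
    have := hD.nrm_le
    rwa [map_smul, hR.2, smul_eq_mul, mul_one] at this

/-- Changing the reference measure. -/
lemma Dom.change {D R R' : MonoidAlgebra ℝ G} {η c ε ε' : ℝ} (hη : 0 ≤ η)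
    (h : Dom D R η ε) (h' : Dom R R' c ε') : Dom D R' (η * c) (ε + η * ε') := by
  classical
  obtain ⟨D₁, hD, he⟩ := h
  obtain ⟨R₁, hR₁, he'⟩ := h'
  let cl : ℝ → ℝ → ℝ := fun d r => max (-|r|) (min d |r|)
  let D₂ : MonoidAlgebra ℝ G :=
    ofCoeff (Finsupp.zipWith cl (by simp [cl]) D₁.coeff ((η * c) • R').coeff)
  refine ⟨D₂, fun x => ?_, ?_⟩
  · have h0 : 0 ≤ ((η * c) • R').coeff x := by
      have h1 := hR₁.nonneg x
      simp only [coeff_smul, Finsupp.smul_apply, smul_eq_mul] at h1 ⊢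
      rw [mul_assoc]; exact mul_nonneg hη h1
    simp only [D₂, Finsupp.zipWith_apply, cl]
    rw [abs_le]
    constructor
    · exact le_trans (by rw [abs_of_nonneg h0]) (le_max_left _ _)
    · exact max_le (by rw [abs_of_nonneg h0]; linarith) ((min_le_right _ _).trans
        (abs_of_nonneg h0).le)
  · have key : AbsLE (D₁ - D₂) (η • absM (R - R₁)) := fun x => by
      have h1 := hD x
      have h2 := hR₁ x
      simp only [coeff_sub, Finsupp.sub_apply, coeff_smul, Finsupp.smul_apply, smul_eq_mul,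
        absM_coeff, D₂, Finsupp.zipWith_apply, cl] at h1 h2 ⊢
      have h3 : 0 ≤ c * R'.coeff x := (abs_nonneg _).trans h2
      have h4 : R.coeff x - c * R'.coeff x ≤ |R.coeff x - R₁.coeff x| :=
        le_trans (by linarith [le_abs_self (R₁.coeff x)]) (le_abs_self _)
      have h5 := mul_le_mul_of_nonneg_left h4 hη
      have h6 : 0 ≤ η * |R.coeff x - R₁.coeff x| := mul_nonneg hη (abs_nonneg _)
      have h7 : |η * c * R'.coeff x| = η * c * R'.coeff x :=
        abs_of_nonneg (by rw [mul_assoc]; exact mul_nonneg hη h3)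
      rw [h7, abs_le]
      rw [abs_le] at h1
      rcases le_total (D₁.coeff x) (η * c * R'.coeff x) with h8 | h8
      · rw [min_eq_left h8]
        rcases le_total (-(η * c * R'.coeff x)) (D₁.coeff x) with h9 | h9
        · rw [max_eq_right h9]; constructor <;> linarith
        · rw [max_eq_left h9]; constructor <;> linarith
      · rw [min_eq_right h8, max_eq_right (by linarith [mul_nonneg hη h3])]
        constructor <;> linarith
    have := key.nrm_le
    rw [map_smul, smul_eq_mul] at this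
    have h10 := nrm_add_le (D - D₁) (D₁ - D₂)
    rw [sub_add_sub_cancel] at h10
    have : η * nrm (R - R₁) ≤ η * ε' := mul_le_mul_of_nonneg_left he' hη
    rw [nrm] at this
    linarith

/-- A measure of mass zero has an approximant of mass zero. -/
lemma Dom.massZero {D R : MonoidAlgebra ℝ G} {η ε : ℝ} (hR : IsProb R) (hm : mass D = 0)
    (h : Dom D R η ε) :
    ∃ D₁, mass D₁ = 0 ∧ AbsLE D₁ ((η + ε) • R) ∧ nrm (D - D₁) ≤ 2 * ε := by
  obtain ⟨D₁, hD, he⟩ := h
  have hb : |mass D₁| ≤ ε := by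
    have := abs_mass_le_nrm (D - D₁)
    rw [map_sub, hm, zero_sub, abs_neg] at this
    linarith
  refine ⟨D₁ - mass D₁ • R, by simp [map_sub, map_smul, hR.2], fun x => ?_, ?_⟩
  · have h1 := hD x
    have h0 := hR.1.nonneg x
    simp only [coeff_smul, coeff_sub, Finsupp.sub_apply, Finsupp.smul_apply, smul_eq_mul] at h1 ⊢
    refine (abs_sub _ _).trans ?_
    rw [abs_mul, abs_of_nonneg h0]
    nlinarith
  · rw [sub_sub_eq_add_sub, add_sub_right_comm]
    refine (nrm_add_le _ _).trans ?_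
    rw [nrm_smul, hR.nrm_eq, mul_one]
    linarith

/-! ### Telescoping and smoothing -/

lemma nrm_pow_sub_one_mul_le {U Z : MonoidAlgebra ℝ G} (hU : IsProb U) (s : ℕ) :
    nrm ((U ^ s - 1) * Z) ≤ s * nrm ((U - 1) * Z) := by
  rw [← geom_sum_mul, mul_assoc]
  refine (nrm_mul_le _ _).trans (mul_le_mul_of_nonneg_right ?_ (nrm_nonneg _))
  refine (nrm_sum_le _ _).trans ?_
  simp [(hU.pow _).nrm_eq]

/-- Smoothing of the powers of a lazy measure. -/
lemma nrm_sub_one_mul_pow_le {μ : MonoidAlgebra ℝ G} (hμ : IsProb μ) {c : ℝ} (h0 : 0 < c)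
    (h1 : c < 1) (hc : c ≤ μ.coeff 1) (m : ℕ) :
    nrm ((μ - 1) * μ ^ m) ≤ 1 / √(c * (m + 1)) := by
  classical
  set θ : ℝ := 1 - c with hθdef
  have hθ : 0 < θ := by linarith
  set ν : MonoidAlgebra ℝ G := θ⁻¹ • (μ - c • 1) with hνdef
  have hν : IsProb ν := by
    refine ⟨fun x => le_of_eq (abs_of_nonneg ?_), ?_⟩
    · simp only [hνdef, coeff_smul, coeff_sub, Finsupp.smul_apply, Finsupp.sub_apply,
        smul_eq_mul, one_def, coeff_single, Finsupp.single_apply]
      refine mul_nonneg (inv_nonneg.2 hθ.le) ?_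
      split
      · subst x; simpa using hc
      · simpa using hμ.1.nonneg x
    · rw [hνdef, map_smul, map_sub, map_smul, hμ.2, map_one]
      simp only [smul_eq_mul, mul_one]
      field_simp
      exact hθdef.symm
  have hμeq : μ = c • 1 + θ • ν := by
    rw [hνdef, smul_smul, mul_inv_cancel₀ hθ.ne', one_smul, add_sub_cancel]
  clear_value ν
  clear hνdef
  set b : ℕ → ℝ := fun j => (m.choose j : ℝ) * θ ^ j * c ^ (m - j) with hb
  set B : ℕ → ℝ := fun j => ((m + 1).choose j : ℝ) * θ ^ j * c ^ (m + 1 - j) with hB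
  have hpow : μ ^ m = ∑ j ∈ range (m + 1), b j • ν ^ j := by
    have hc' : Commute (θ • ν) (c • (1 : MonoidAlgebra ℝ G)) :=
      ((Commute.one_right ν).smul_left θ).smul_right c
    rw [hμeq, add_comm, hc'.add_pow]
    refine sum_congr rfl fun j _ => ?_
    rw [_root_.smul_pow, _root_.smul_pow, one_pow, ← nsmul_eq_mul', ← Nat.cast_smul_eq_nsmul ℝ]
    simp only [hb, mul_smul_comm, mul_one, smul_smul]
    congr 1; ring
  have hsub : μ - 1 = θ • (ν - 1) := by
    rw [hμeq, hθdef, smul_sub, sub_smul, sub_smul, one_smul, one_smul]; abel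
  set b' : ℕ → ℝ := fun j => if j = 0 then 0 else b (j - 1) with hb'
  have hbm : b (m + 1) = 0 := by simp [hb]
  have hexp : (μ - 1) * μ ^ m = θ • ∑ j ∈ range (m + 2), (b' j - b j) • ν ^ j := by
    rw [hsub, hpow, smul_mul_assoc]
    congr 1
    simp_rw [sub_smul, sum_sub_distrib]
    rw [sum_range_succ' (fun j => b' j • ν ^ j), sum_range_succ (fun j => b j • ν ^ j) (m + 1),
      hbm, sub_mul, one_mul, mul_sum]
    simp [hb', pow_succ']
  have hbB : ∀ j ∈ range (m + 2), θ * (b' j - b j) = B j * ((j : ℝ) - (m + 1) * θ) / ((m + 1) * c) := by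
    intro j hj
    rw [mem_range] at hj
    have hm : ((m : ℝ) + 1) ≠ 0 := by positivity
    rcases Nat.eq_zero_or_pos j with rfl | hjpos
    · simp only [hb', hb, hB, if_pos rfl, Nat.choose_zero_right, Nat.cast_zero, tsub_zero,
        pow_succ]
      field_simp
      ring
    · obtain ⟨i, rfl⟩ : ∃ i, j = i + 1 := ⟨j - 1, by omega⟩
      have e1 : ((m : ℝ) + 1) * m.choose i = ((m + 1).choose (i + 1) : ℝ) * (i + 1) := by
        exact_mod_cast Nat.add_one_mul_choose_eq m i
      have e2 : ((m : ℝ) + 1) * m.choose (i + 1)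
          = ((m + 1).choose (i + 1) : ℝ) * ((m : ℝ) - i) := by
        have h := Nat.choose_succ_succ m i
        have h' : ((m + 1).choose (i + 1) : ℝ) = m.choose i + m.choose (i + 1) := by exact_mod_cast h
        rw [h'] at e1 ⊢
        linear_combination (-1 : ℝ) * e1
      simp only [hb', hb, hB, Nat.succ_ne_zero, if_false, Nat.add_sub_cancel,
        Nat.add_sub_add_right]
      rcases eq_or_lt_of_le (Nat.lt_succ_iff.1 (Nat.lt_of_succ_lt_succ hj : i < m + 1)) with rfl | him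
      · simp only [Nat.choose_succ_self, Nat.choose_self, Nat.sub_self]
        push_cast
        field_simp
        ring
      · obtain ⟨d, hd⟩ : ∃ d, m - i = d + 1 := ⟨m - i - 1, by omega⟩
        rw [hd, show m - (i + 1) = d by omega, pow_succ c d]
        push_cast
        field_simp
        linear_combination (θ ^ (i + 1) * c) * e1 - (θ ^ (i + 2)) * e2 +
          (((m + 1).choose (i + 1) : ℝ) * θ ^ (i + 1) * (i + 1)) * hθdef
  rw [hexp, smul_sum]
  refine (nrm_sum_le _ _).trans ?_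
  simp_rw [smul_smul, nrm_smul, (hν.pow _).nrm_eq, mul_one]
  rw [sum_congr rfl fun j hj => congrArg abs (hbB j hj)]
  -- variance of the binomial law
  have hB0 : ∀ j, 0 ≤ B j := fun j => by simp only [hB]; positivity
  have hsum : ∑ j ∈ range (m + 2), B j = 1 := by
    have := add_pow θ c (m + 1)
    rw [show θ + c = 1 by simp [hθdef], one_pow] at this
    rw [this]
    exact sum_congr rfl fun j _ => by simp only [hB]; ring
  have hvar : ∑ j ∈ range (m + 2), B j * ((j : ℝ) - (m + 1) * θ) ^ 2 = (m + 1) * θ * c := by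
    have h := congrArg (Polynomial.eval θ) (bernsteinPolynomial.variance ℝ (m + 1))
    simp only [Polynomial.eval_finsetSum, Polynomial.eval_mul, Polynomial.eval_pow,
      Polynomial.eval_sub, Polynomial.eval_X, Polynomial.eval_natCast,
      bernsteinPolynomial, nsmul_eq_mul, Polynomial.eval_one] at h
    push_cast at h
    rw [show (1 : ℝ) - θ = c by simp [hθdef]] at h
    rw [← h]
    exact sum_congr rfl fun j _ => by simp only [hB]; ring
  have hcs : (∑ j ∈ range (m + 2), B j * |(j : ℝ) - (m + 1) * θ|) ^ 2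
      ≤ (m + 1) * θ * c := by
    have h := sum_mul_sq_le_sq_mul_sq (range (m + 2)) (fun j => √(B j))
      (fun j => √(B j) * |(j : ℝ) - (m + 1) * θ|)
    simp only [← mul_assoc, Real.mul_self_sqrt (hB0 _), mul_pow, Real.sq_sqrt (hB0 _), sq_abs] at h
    rwa [hsum, hvar, one_mul] at h
  have hden : 0 < ((m : ℝ) + 1) * c := by positivity
  simp_rw [abs_div, abs_mul, abs_of_nonneg (hB0 _), ← sum_div]
  rw [abs_of_pos (by positivity : (0 : ℝ) < m + 1), abs_of_pos h0, div_le_iff₀ hden]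
  refine le_of_pow_le_pow_left₀ two_ne_zero (by positivity) (hcs.trans ?_)
  rw [mul_pow, div_pow, one_pow, Real.sq_sqrt (by positivity), div_mul_eq_mul_div,
    le_div_iff₀ (by positivity)]
  have hq : θ * c ≤ c := by nlinarith
  nlinarith [mul_le_mul_of_nonneg_left hq (by positivity : (0 : ℝ) ≤ ((m : ℝ) + 1) ^ 2 * c)]

end Vale.Agent.P321
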