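import Mathlib

/-!
Elementary bounds on binomial probabilities, uniform in the success probability.
-/

namespace Vale.Agent.P321

open Finset

/-- The binomial probability of `i` successes among `s` trials. -/
noncomputable def bn (r : ℝ) (s i : ℕ) : ℝ := (s.choose i : ℝ) * r ^ i * (1 - r) ^ (s - i)

/-- The expectation under the binomial law. -/
noncomputable def bE (r : ℝ) (s : ℕ) (φ : ℕ → ℝ) : ℝ := ∑ i ∈ range (s + 1), bn r s i * φ i

lemma bn_nonneg {r : ℝ} (h0 : 0 ≤ r) (h1 : r ≤ 1) (s i : ℕ) : 0 ≤ bn r s i := by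
  have : 0 ≤ 1 - r := by linarith
  unfold bn; positivity

lemma bn_eq_zero (r : ℝ) {s i : ℕ} (h : s < i) : bn r s i = 0 := by
  simp [bn, Nat.choose_eq_zero_of_lt h]

lemma bn_zero_right (r : ℝ) (s : ℕ) : bn r s 0 = (1 - r) ^ s := by simp [bn]

lemma bn_succ_zero (r : ℝ) (s : ℕ) : bn r (s + 1) 0 = (1 - r) * bn r s 0 := by
  rw [bn_zero_right, bn_zero_right, pow_succ]; ring

lemma bn_succ_succ (r : ℝ) (s i : ℕ) :
    bn r (s + 1) (i + 1) = r * bn r s i + (1 - r) * bn r s (i + 1) := by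
  rcases lt_or_ge i s with h | h
  · unfold bn
    obtain ⟨k, rfl⟩ := Nat.exists_eq_add_of_lt h
    rw [show i + k + 1 + 1 - (i + 1) = k + 1 by omega, show i + k + 1 - i = k + 1 by omega,
      show i + k + 1 - (i + 1) = k by omega, Nat.choose_succ_succ]
    push_cast; ring
  · rw [bn_eq_zero r (show s < i + 1 by omega)]
    rcases h.lt_or_eq with h' | h'
    · rw [bn_eq_zero r h', bn_eq_zero r (show s + 1 < i + 1 by omega)]; ring
    · subst h'; simp [bn]; ring

lemma bE_zero (r : ℝ) (φ : ℕ → ℝ) : bE r 0 φ = φ 0 := by simp [bE, bn]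

lemma bE_succ (r : ℝ) (s : ℕ) (φ : ℕ → ℝ) :
    bE r (s + 1) φ = r * bE r s (fun i => φ (i + 1)) + (1 - r) * bE r s φ := by
  unfold bE
  rw [sum_range_succ' _ (s + 1)]
  simp only [bn_succ_succ, bn_succ_zero, add_mul, sum_add_distrib, mul_sum]
  have h : ∑ i ∈ range (s + 1), (1 - r) * bn r s (i + 1) * φ (i + 1) + (1 - r) * bn r s 0 * φ 0
      = ∑ i ∈ range (s + 1), (1 - r) * (bn r s i * φ i) := by
    rw [sum_range_succ _ s, bn_eq_zero r (Nat.lt_succ_self s), sum_range_succ' (fun i =>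
      (1 - r) * (bn r s i * φ i)) s]
    simp only [mul_zero, zero_mul, add_zero, mul_assoc]
  rw [add_assoc, h]
  simp only [mul_assoc]

lemma bE_const (r : ℝ) (s : ℕ) (x : ℝ) : bE r s (fun _ => x) = x := by
  induction s with
  | zero => rw [bE_zero]
  | succ s ih => rw [bE_succ, ih]; ring

lemma bE_add (r : ℝ) (s : ℕ) (φ ψ : ℕ → ℝ) :
    bE r s (fun i => φ i + ψ i) = bE r s φ + bE r s ψ := by
  simp [bE, mul_add, sum_add_distrib]

lemma bE_smul (r : ℝ) (s : ℕ) (x : ℝ) (φ : ℕ → ℝ) :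
    bE r s (fun i => x * φ i) = x * bE r s φ := by
  simp only [bE, mul_sum]; exact sum_congr rfl fun i _ => by ring

lemma bE_mono {r : ℝ} (h0 : 0 ≤ r) (h1 : r ≤ 1) (s : ℕ) {φ ψ : ℕ → ℝ}
    (h : ∀ i, φ i ≤ ψ i) : bE r s φ ≤ bE r s ψ :=
  sum_le_sum fun i _ => mul_le_mul_of_nonneg_left (h i) (bn_nonneg h0 h1 s i)

lemma bE_mean (r : ℝ) (s : ℕ) (x : ℝ) :
    bE r s (fun i => (i : ℝ) - x) = r * s - x := by
  induction s generalizing x with
  | zero => simp [bE_zero]
  | succ s ih =>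
    rw [bE_succ, ih x]
    have : (fun i : ℕ => ((i + 1 : ℕ) : ℝ) - x) = fun i : ℕ => (i : ℝ) - (x - 1) := by
      funext i; push_cast; ring
    rw [this, ih]; push_cast; ring

lemma bE_sq (r : ℝ) (s : ℕ) (x : ℝ) :
    bE r s (fun i => ((i : ℝ) - x) ^ 2) = r * (1 - r) * s + (r * s - x) ^ 2 := by
  induction s generalizing x with
  | zero => simp [bE_zero]
  | succ s ih =>
    rw [bE_succ, ih x]
    have : (fun i : ℕ => (((i + 1 : ℕ) : ℝ) - x) ^ 2) = fun i : ℕ => ((i : ℝ) - (x - 1)) ^ 2 := by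
      funext i; push_cast; ring
    rw [this, ih]; push_cast; ring

lemma bE_exp (r l : ℝ) (s : ℕ) :
    bE r s (fun i => Real.exp (l * i)) = (1 - r + r * Real.exp l) ^ s := by
  induction s with
  | zero => simp [bE_zero]
  | succ s ih =>
    rw [bE_succ]
    have : (fun i : ℕ => Real.exp (l * ((i + 1 : ℕ) : ℝ)))
        = fun i : ℕ => Real.exp l * Real.exp (l * i) := by
      funext i; rw [← Real.exp_add]; push_cast; ring_nf
    rw [this, bE_smul, ih, pow_succ]; ring

lemma bn_sum (r : ℝ) (s : ℕ) : ∑ i ∈ range (s + 1), bn r s i = 1 := by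
  simpa [bE] using bE_const r s 1

lemma bn_sum_le {r : ℝ} (h0 : 0 ≤ r) (h1 : r ≤ 1) (s : ℕ) (S : Finset ℕ) :
    ∑ i ∈ S, bn r s i ≤ 1 := by
  classical
  rw [← bn_sum r s, ← sum_filter_add_sum_filter_not S (fun i => i ∈ range (s + 1))]
  have h : ∑ i ∈ S.filter (fun i => ¬ i ∈ range (s + 1)), bn r s i = 0 :=
    sum_eq_zero fun i hi => bn_eq_zero r (by simp at hi; omega)
  rw [h, add_zero]
  exact sum_le_sum_of_subset_of_nonneg (fun i hi => (mem_filter.1 hi).2)
    fun i _ _ => bn_nonneg h0 h1 s i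

lemma bn_le_one {r : ℝ} (h0 : 0 ≤ r) (h1 : r ≤ 1) (s i : ℕ) : bn r s i ≤ 1 := by
  simpa using bn_sum_le h0 h1 s {i}

lemma bn_succ_mul (r : ℝ) (s i : ℕ) :
    ((i : ℝ) + 1) * bn r (s + 1) (i + 1) = ((s : ℝ) + 1) * r * bn r s i := by
  unfold bn
  rw [show s + 1 - (i + 1) = s - i by omega, pow_succ]
  have h := congrArg (fun n : ℕ => (n : ℝ)) (Nat.add_one_mul_choose_eq s i)
  push_cast at h
  linear_combination -(r ^ i * r * (1 - r) ^ (s - i)) * h

lemma bn_inv_succ_le {r : ℝ} (h0 : 0 < r) (h1 : r ≤ 1) (s : ℕ) :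
    bE r s (fun i => ((i : ℝ) + 1)⁻¹) ≤ (r * (s + 1))⁻¹ := by
  have key : bE r s (fun i => ((i : ℝ) + 1)⁻¹) * (r * (s + 1)) ≤ 1 := by
    calc bE r s (fun i => ((i : ℝ) + 1)⁻¹) * (r * (s + 1))
        = ∑ i ∈ range (s + 1), bn r (s + 1) (i + 1) := by
          rw [bE, sum_mul]
          refine sum_congr rfl fun i _ => ?_
          field_simp
          linear_combination -(bn_succ_mul r s i)
      _ ≤ ∑ i ∈ range (s + 1 + 1), bn r (s + 1) i := by
          rw [sum_range_succ' _ (s + 1)]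
          exact le_add_of_nonneg_right (bn_nonneg h0.le h1 _ _)
      _ = 1 := bn_sum r (s + 1)
  rw [inv_eq_one_div (r * _), le_div_iff₀ (by positivity)]
  exact key

lemma bE_inv_sqrt_le {r : ℝ} (h0 : 0 < r) (h1 : r ≤ 1) (s : ℕ) :
    bE r s (fun i => (√((i : ℝ) + 1))⁻¹) ≤ (√(r * (s + 1)))⁻¹ := by
  set l := √(r * (s + 1)) with hl
  have hl0 : 0 < l := by rw [hl]; positivity
  have hl2 : l ^ 2 = r * (s + 1) := Real.sq_sqrt (by positivity)
  calc bE r s (fun i => (√((i : ℝ) + 1))⁻¹)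
      ≤ bE r s (fun i => l / 2 * ((i : ℝ) + 1)⁻¹ + l⁻¹ / 2) := by
        refine bE_mono h0.le h1 s fun i => ?_
        have hx : (0 : ℝ) < √((i : ℝ) + 1) := by positivity
        have h2 := Real.sq_sqrt (show (0 : ℝ) ≤ (i : ℝ) + 1 by positivity)
        rw [← sub_nonneg]
        nth_rewrite 1 [← h2]
        have : l / 2 * (√((i : ℝ) + 1) ^ 2)⁻¹ + l⁻¹ / 2 - (√((i : ℝ) + 1))⁻¹
            = (l - √((i : ℝ) + 1)) ^ 2 / (2 * l * √((i : ℝ) + 1) ^ 2) := by field_simp; ring
        rw [this]; positivity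
    _ = l / 2 * bE r s (fun i => ((i : ℝ) + 1)⁻¹) + l⁻¹ / 2 := by
        rw [bE_add, bE_smul, bE_const]
    _ ≤ l / 2 * (r * (s + 1))⁻¹ + l⁻¹ / 2 := by
        gcongr; exact bn_inv_succ_le h0 h1 s
    _ = l⁻¹ := by rw [← hl2]; field_simp; ring

/-- An exponential tail bound. -/
lemma bn_tail {r t : ℝ} (h0 : 0 ≤ r) (h1 : r ≤ 1) (ht : 0 ≤ t) (ht1 : t ≤ 1) (s : ℕ)
    (S : Finset ℕ) (hS : ∀ i ∈ S, t * s ≤ |(i : ℝ) - r * s|) :
    ∑ i ∈ S, bn r s i ≤ 2 * Real.exp (-(t ^ 2 * s / 4)) := by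
  classical
  have key : ∀ l : ℝ, |l| = t / 2 →
      bE r s (fun i => Real.exp (l * i)) * Real.exp (-(l * r * s) - t / 2 * (t * s))
        ≤ Real.exp (-(t ^ 2 * s / 4)) := by
    intro l hl
    rw [bE_exp]
    have he : 1 - r + r * Real.exp l ≤ Real.exp (r * (l + l ^ 2)) := by
      have h := Real.abs_exp_sub_one_sub_id_le (x := l) (by linarith)
      have := (abs_le.1 h).2
      nlinarith [Real.add_one_le_exp (r * (l + l ^ 2))]
    calc (1 - r + r * Real.exp l) ^ s * Real.exp (-(l * r * s) - t / 2 * (t * s))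
        ≤ Real.exp (r * (l + l ^ 2)) ^ s * Real.exp (-(l * r * s) - t / 2 * (t * s)) := by
          gcongr
      _ = Real.exp ((r * l ^ 2 - t ^ 2 / 2) * s) := by
          rw [← Real.exp_nat_mul, ← Real.exp_add]; ring_nf
      _ ≤ Real.exp (-(t ^ 2 * s / 4)) := by
          apply Real.exp_le_exp.2
          have hl2 : l ^ 2 = t ^ 2 / 4 := by rw [← sq_abs, hl]; ring
          rw [hl2]
          nlinarith [mul_nonneg (sub_nonneg.2 h1) (mul_nonneg (sq_nonneg t) s.cast_nonneg)]
  calc ∑ i ∈ S, bn r s i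
      ≤ ∑ i ∈ range (s + 1), bn r s i *
          (Real.exp (t / 2 * ((i : ℝ) - r * s - t * s)) +
           Real.exp (-(t / 2) * ((i : ℝ) - r * s + t * s))) := by
        rw [← sum_filter_add_sum_filter_not S (fun i => i ∈ range (s + 1))]
        have h : ∑ i ∈ S.filter (fun i => ¬ i ∈ range (s + 1)), bn r s i = 0 :=
          sum_eq_zero fun i hi => bn_eq_zero r (by simp at hi; omega)
        rw [h, add_zero]
        refine (sum_le_sum fun i hi => ?_).trans
          (sum_le_sum_of_subset_of_nonneg (fun i hi => (mem_filter.1 hi).2)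
            fun i _ _ => mul_nonneg (bn_nonneg h0 h1 s i) (by positivity))
        refine le_mul_of_one_le_right (bn_nonneg h0 h1 s i) ?_
        have hi' := hS i (mem_filter.1 hi).1
        rcases le_abs.1 hi' with h' | h'
        · exact le_add_of_le_of_nonneg (Real.one_le_exp (mul_nonneg (by linarith) (by linarith)))
            (Real.exp_nonneg _)
        · exact le_add_of_nonneg_of_le (Real.exp_nonneg _)
            (Real.one_le_exp (by nlinarith))
    _ = bE r s (fun i => Real.exp (t / 2 * i)) *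
            Real.exp (-(t / 2 * r * s) - t / 2 * (t * s)) +
        bE r s (fun i => Real.exp (-(t / 2) * i)) *
            Real.exp (-(-(t / 2) * r * s) - t / 2 * (t * s)) := by
        simp only [bE, sum_mul, ← sum_add_distrib, mul_add, mul_assoc, ← Real.exp_add]
        exact sum_congr rfl fun i _ => by ring_nf
    _ ≤ _ := by
        have h2 := key (-(t / 2)) (by rw [abs_neg, abs_of_nonneg]; linarith)
        have h3 := key (t / 2) (abs_of_nonneg (by linarith))
        linarith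

lemma bn_up_trials (r : ℝ) {s D : ℕ} (h : D ≤ s) :
    ((s : ℝ) + 1 - D) * bn r (s + 1) D = (1 - r) * ((s : ℝ) + 1) * bn r s D := by
  unfold bn
  rw [show s + 1 - D = (s - D) + 1 by omega, pow_succ]
  have h' := congrArg (fun n : ℕ => (n : ℝ)) (Nat.choose_mul_succ_eq s D)
  push_cast [Nat.cast_sub (show D ≤ s + 1 by omega)] at h'
  linear_combination -(r ^ D * (1 - r) ^ (s - D) * (1 - r)) * h'

lemma sum_bn_trials_le {r : ℝ} (h0 : 0 < r) (h1 : r ≤ 1) (D S : ℕ) :
    ∑ s ∈ range S, bn r s D ≤ r⁻¹ := by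
  induction D with
  | zero =>
    simp only [bn_zero_right]
    have h := geom_sum_mul_neg (1 - r) S
    rw [inv_eq_one_div, le_div_iff₀ h0]
    nlinarith [pow_nonneg (show (0 : ℝ) ≤ 1 - r by linarith) S]
  | succ D ih =>
    have h : bn r S (D + 1)
        = r * ∑ s ∈ range S, bn r s D - r * ∑ s ∈ range S, bn r s (D + 1) := by
      clear ih
      induction S with
      | zero => simp [bn]
      | succ S ihS =>
        rw [bn_succ_succ, sum_range_succ, sum_range_succ]
        linear_combination ihS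
    have := bn_nonneg h0.le h1 S (D + 1)
    nlinarith

/-- The most likely number of trials given `D` successes. -/
noncomputable def modeTrials (r : ℝ) (D : ℕ) : ℕ := ⌊(D : ℝ) / r⌋₊

lemma modeTrials_ge {r : ℝ} (h0 : 0 < r) (h1 : r ≤ 1) (D : ℕ) : D ≤ modeTrials r D :=
  Nat.le_floor ((le_div_iff₀ h0).2 (mul_le_of_le_one_right D.cast_nonneg h1))

lemma bn_step_up {r : ℝ} (h0 : 0 < r) (h1 : r < 1) {D s : ℕ} (hs : s < modeTrials r D) :
    bn r s D ≤ bn r (s + 1) D := by
  rcases lt_or_ge s D with h | h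
  · rw [bn_eq_zero r h]; exact bn_nonneg h0.le h1.le _ _
  · have hm : ((s + 1 : ℕ) : ℝ) ≤ (D : ℝ) / r :=
      (Nat.le_floor_iff (by positivity)).1 hs
    push_cast at hm
    rw [le_div_iff₀ h0] at hm
    have hs' : (D : ℝ) ≤ s := Nat.cast_le.2 h
    have e := bn_up_trials r h
    have := bn_nonneg h0.le h1.le s D
    have := bn_nonneg h0.le h1.le (s + 1) D
    nlinarith

lemma bn_step_down {r : ℝ} (h0 : 0 < r) (h1 : r < 1) {D s : ℕ} (hs : modeTrials r D ≤ s) :
    bn r (s + 1) D ≤ bn r s D := by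
  have h : D ≤ s := (modeTrials_ge h0 h1.le D).trans hs
  have hm : (D : ℝ) / r < (s : ℝ) + 1 :=
    (Nat.lt_floor_add_one _).trans_le (by exact_mod_cast Nat.add_le_add_right hs 1)
  rw [div_lt_iff₀ h0] at hm
  have hs' : (D : ℝ) ≤ s := Nat.cast_le.2 h
  have e := bn_up_trials r h
  have := bn_nonneg h0.le h1.le s D
  have := bn_nonneg h0.le h1.le (s + 1) D
  nlinarith

lemma bn_le_mode {r : ℝ} (h0 : 0 < r) (h1 : r < 1) (D s : ℕ) :
    bn r s D ≤ bn r (modeTrials r D) D := by
  rcases le_total (modeTrials r D) s with h | h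
  · obtain ⟨t, rfl⟩ := Nat.exists_eq_add_of_le h
    induction t with
    | zero => simp
    | succ t ih => exact (bn_step_down h0 h1 (Nat.le_add_right _ _)).trans (ih (Nat.le_add_right _ _))
  · obtain ⟨t, ht⟩ := Nat.exists_eq_add_of_le h
    induction t generalizing s with
    | zero => rw [ht, add_zero]
    | succ t ih => exact (bn_step_up h0 h1 (by omega)).trans (ih (s + 1) (by omega) (by omega))

/-- The uniform constant in the local bound. -/
noncomputable def cmax (lo hi : ℝ) : ℝ := 4 / (lo * √(1 - hi))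

lemma bn_le_cmax {lo hi r : ℝ} (hlo : 0 < lo) (hr : lo ≤ r) (hr' : r ≤ hi) (hhi : hi < 1)
    (D s : ℕ) : bn r s D ≤ cmax lo hi / √((D : ℝ) + 1) := by
  have h0 : 0 < r := hlo.trans_le hr
  have h1 : r < 1 := hr'.trans_lt hhi
  have h2 : 0 < 1 - hi := by linarith
  refine (bn_le_mode h0 h1 D s).trans ?_
  rcases D.eq_zero_or_pos with rfl | hD
  · refine (bn_le_one h0.le h1.le _ _).trans ?_
    rw [Nat.cast_zero, zero_add, Real.sqrt_one, div_one, cmax, one_le_div (by positivity)]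
    have : √(1 - hi) ≤ 1 := Real.sqrt_le_one.2 (by linarith)
    nlinarith [hr.trans h1.le, Real.sqrt_nonneg (1 - hi)]
  set m := modeTrials r D with hm
  set f0 := bn r m D with hf0
  set Q : ℝ := (1 - hi) * D with hQ
  have hD' : (1 : ℝ) ≤ D := Nat.one_le_cast.2 hD
  have hQ0 : 0 < Q := by rw [hQ]; positivity
  have hf00 : 0 ≤ f0 := bn_nonneg h0.le h1.le _ _
  have hflat : ∀ t : ℕ, f0 * (1 - (t : ℝ) ^ 2 / Q) ≤ bn r (m + t) D := by
    intro t
    induction t with
    | zero => simp [hf0]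
    | succ t ih =>
      have hDs : D ≤ m + t := (modeTrials_ge h0 h1.le D).trans (Nat.le_add_right _ _)
      have e := bn_up_trials r hDs
      push_cast at e
      have hm1 : (m : ℝ) ≤ (D : ℝ) / r := Nat.floor_le (by positivity)
      have hm2 : (D : ℝ) / r < (m : ℝ) + 1 := Nat.lt_floor_add_one _
      rw [le_div_iff₀ h0] at hm1
      rw [div_lt_iff₀ h0] at hm2
      set x : ℝ := (m : ℝ) + t + 1 - D with hx
      have hx0 : r * x ≥ (1 - hi) * D := by
        rw [hx]; nlinarith [mul_nonneg h0.le (t.cast_nonneg (α := ℝ)), mul_nonneg (sub_nonneg.2 hr') D.cast_nonneg]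
      have hxpos : 0 < x := pos_of_mul_pos_right (lt_of_lt_of_le (by positivity) hx0) h0.le
      have hstep : bn r (m + t) D - bn r (m + (t + 1)) D ≤ f0 * (((t : ℝ) + 1) / Q) := by
        have hb := bn_le_mode h0 h1 D (m + t)
        have hb0 := bn_nonneg h0.le h1.le (m + t) D
        have he : bn r (m + t) D - bn r (m + (t + 1)) D
            = bn r (m + t) D * ((r * ((m : ℝ) + t + 1) - D) / x) := by
          rw [← add_assoc]; field_simp; rw [hx] at *; linarith
        rw [he]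
        refine (mul_le_mul_of_nonneg_left ?_ hb0).trans
          (mul_le_mul_of_nonneg_right hb (by positivity))
        rw [div_le_div_iff₀ hxpos hQ0]
        have hnum : r * ((m : ℝ) + t + 1) - D ≤ r * ((t : ℝ) + 1) := by nlinarith
        calc (r * ((m : ℝ) + t + 1) - D) * Q ≤ r * ((t : ℝ) + 1) * Q :=
              mul_le_mul_of_nonneg_right hnum hQ0.le
          _ ≤ r * ((t : ℝ) + 1) * (r * x) := by gcongr
          _ ≤ 1 * ((t : ℝ) + 1) * (1 * x) := by gcongr
          _ = _ := by ring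
      have : ((t : ℝ) ^ 2 + ((t : ℝ) + 1)) / Q ≤ ((t + 1 : ℕ) : ℝ) ^ 2 / Q := by
        gcongr; push_cast; nlinarith
      rw [add_div] at this
      nlinarith [mul_le_mul_of_nonneg_left this hf00]
  set T := ⌊√(Q / 2)⌋₊ with hT
  have hT1 : (T : ℝ) ≤ √(Q / 2) := Nat.floor_le (Real.sqrt_nonneg _)
  have hT2 : √(Q / 2) < (T : ℝ) + 1 := Nat.lt_floor_add_one _
  have hbig : ((T : ℝ) + 1) * (f0 / 2) ≤ r⁻¹ := by
    calc ((T : ℝ) + 1) * (f0 / 2) = ∑ t ∈ range (T + 1), f0 / 2 := by simp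
      _ ≤ ∑ t ∈ range (T + 1), bn r (m + t) D := by
          refine sum_le_sum fun t ht => le_trans ?_ (hflat t)
          have ht' : (t : ℝ) ≤ √(Q / 2) :=
            (Nat.cast_le.2 (Nat.lt_succ_iff.1 (mem_range.1 ht))).trans hT1
          have h3 : (t : ℝ) ^ 2 ≤ Q / 2 := by
            have := pow_le_pow_left₀ t.cast_nonneg ht' 2
            rwa [Real.sq_sqrt (by positivity)] at this
          have : (t : ℝ) ^ 2 / Q ≤ 1 / 2 := by rw [div_le_iff₀ hQ0]; linarith
          nlinarith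
      _ ≤ ∑ s ∈ range (m + (T + 1)), bn r s D := by
          rw [sum_range_add _ m (T + 1)]
          exact le_add_of_nonneg_left (sum_nonneg fun _ _ => bn_nonneg h0.le h1.le _ _)
      _ ≤ r⁻¹ := sum_bn_trials_le h0 h1.le _ _
  have hsq : √((D : ℝ) + 1) * √(1 - hi) ≤ 2 * √(Q / 2) := by
    rw [← Real.sqrt_mul (by positivity), show (2 : ℝ) * √(Q / 2) = √(2 ^ 2 * (Q / 2)) by
      rw [Real.sqrt_mul (by norm_num), Real.sqrt_sq (by norm_num)]]
    apply Real.sqrt_le_sqrt
    rw [hQ]; nlinarith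
  rw [le_div_iff₀ (by positivity), cmax, le_div_iff₀ (by positivity)]
  have h4 : f0 * √(Q / 2) ≤ 2 / r := by
    rw [div_eq_mul_inv (2 : ℝ)]; nlinarith
  rw [le_div_iff₀ h0] at h4
  calc f0 * √((D : ℝ) + 1) * (lo * √(1 - hi)) = f0 * lo * (√((D : ℝ) + 1) * √(1 - hi)) := by ring
    _ ≤ f0 * r * (2 * √(Q / 2)) := by gcongr
    _ ≤ 4 := by linarith

/-- Sampling a sequence along an arithmetic progression. -/
lemma sum_progression_le {f : ℕ → ℝ} (hf : ∀ s, 0 ≤ f s) {g : ℕ} (hg : 0 < g) (c D : ℕ) :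
    ∑ d ∈ range D, f (c + d * g) ≤ (∑ s ∈ range (c + D * g), f s) / g +
      ∑ s ∈ range (c + D * g), max 0 (f s - f (s + 1)) := by
  have hblock : ∀ φ : ℕ → ℝ, (∀ s, 0 ≤ φ s) →
      ∑ d ∈ range D, ∑ j ∈ range g, φ (c + d * g + j) ≤ ∑ s ∈ range (c + D * g), φ s := by
    intro φ hφ
    induction D with
    | zero => exact le_of_le_of_eq (le_of_eq (by simp)) rfl |>.trans (sum_nonneg fun s _ => hφ s)
    | succ D ih =>
      rw [sum_range_succ, show c + (D + 1) * g = c + D * g + g by ring,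
        sum_range_add _ (c + D * g) g]
      linarith
  set v : ℕ → ℝ := fun s => max 0 (f s - f (s + 1)) with hv
  have hchain : ∀ x j, f x ≤ f (x + j) + ∑ i ∈ range j, v (x + i) := by
    intro x j
    induction j with
    | zero => simp
    | succ j ih =>
      rw [sum_range_succ, ← add_assoc x j 1]
      have : f (x + j) - f (x + j + 1) ≤ v (x + j) := le_max_right _ _
      linarith
  have hone : ∀ x, (g : ℝ) * f x
      ≤ ∑ j ∈ range g, f (x + j) + g * ∑ j ∈ range g, v (x + j) := by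
    intro x
    calc (g : ℝ) * f x = ∑ j ∈ range g, f x := by simp
      _ ≤ ∑ j ∈ range g, (f (x + j) + ∑ i ∈ range g, v (x + i)) := by
          refine sum_le_sum fun j hj => (hchain x j).trans (add_le_add le_rfl ?_)
          exact sum_le_sum_of_subset_of_nonneg (range_mono (mem_range.1 hj).le)
            fun i _ _ => le_max_left _ _
      _ = _ := by rw [sum_add_distrib]; simp
  have h1 := hblock f hf
  have h2 := hblock v fun s => le_max_left _ _
  have hg' : (0 : ℝ) < g := Nat.cast_pos.2 hg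
  calc ∑ d ∈ range D, f (c + d * g)
      ≤ ∑ d ∈ range D, ((∑ j ∈ range g, f (c + d * g + j)) / g +
          ∑ j ∈ range g, v (c + d * g + j)) := by
        refine sum_le_sum fun d _ => ?_
        rw [div_add' _ _ _ hg'.ne', le_div_iff₀ hg']
        linarith [hone (c + d * g)]
    _ ≤ _ := by
        rw [sum_add_distrib, ← Finset.sum_div]
        exact add_le_add (div_le_div_of_nonneg_right h1 hg'.le) h2

lemma sum_drop_le {r : ℝ} (h0 : 0 < r) (h1 : r < 1) (D S : ℕ) :
    ∑ s ∈ range S, max 0 (bn r s D - bn r (s + 1) D) ≤ bn r (modeTrials r D) D := by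
  have : ∀ S, ∑ s ∈ range S, max 0 (bn r s D - bn r (s + 1) D)
      ≤ bn r (modeTrials r D) D - bn r (max S (modeTrials r D)) D := by
    intro S
    induction S with
    | zero => simp
    | succ S ih =>
      rw [sum_range_succ]
      rcases lt_or_ge S (modeTrials r D) with h | h
      · rw [max_eq_left (sub_nonpos.2 (bn_step_up h0 h1 h)), add_zero,
          max_eq_right (Nat.succ_le_of_lt h)]
        rwa [max_eq_right h.le] at ih
      · rw [max_eq_right (sub_nonneg.2 (bn_step_down h0 h1 h)), max_eq_left (by omega)]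
        rw [max_eq_left h] at ih
        linarith
  exact (this S).trans (sub_le_self _ (bn_nonneg h0.le h1.le _ _))

/-- The expected number of lattice points at a given number of successes. -/
lemma sum_lattice_le {lo hi r : ℝ} (hlo : 0 < lo) (hr : lo ≤ r) (hr' : r ≤ hi) (hhi : hi < 1)
    {g : ℕ} (hg : 0 < g) (c N D : ℕ) :
    ∑ d ∈ range N, bn r (c + d * g) D ≤ (lo * g)⁻¹ + cmax lo hi / √((D : ℝ) + 1) := by
  have h0 : 0 < r := hlo.trans_le hr
  have h1 : r < 1 := hr'.trans_lt hhi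
  refine (sum_progression_le (f := fun s => bn r s D) (fun s => bn_nonneg h0.le h1.le s D) hg c N).trans
    (add_le_add ?_ ((sum_drop_le h0 h1 D _).trans (bn_le_cmax hlo hr hr' hhi D _)))
  rw [mul_inv, ← div_eq_mul_inv]
  refine div_le_div_of_nonneg_right ((sum_bn_trials_le h0 h1.le D _).trans ?_) g.cast_nonneg
  gcongr

lemma bn_ratio (r : ℝ) (s i : ℕ) :
    ((i : ℝ) + 1) * (1 - r) * bn r s (i + 1) = ((s : ℝ) - i) * r * bn r s i := by
  have h1 := bn_succ_mul r s i
  have h2 := bn_succ_succ r s i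
  linear_combination h1 - ((i : ℝ) + 1) * h2

lemma bn_symm (r : ℝ) {s i : ℕ} (h : i ≤ s) : bn r s i = bn (1 - r) s (s - i) := by
  unfold bn
  rw [Nat.choose_symm h, sub_sub_cancel, Nat.sub_sub_self h]; ring

/-- The most likely number of successes. -/
noncomputable def mode (r : ℝ) (s : ℕ) : ℕ := ⌊r * ((s : ℝ) + 1)⌋₊

lemma mode_le {r : ℝ} (h0 : 0 < r) (h1 : r < 1) (s : ℕ) : mode r s ≤ s := by
  have : mode r s < s + 1 := by
    rw [mode, Nat.floor_lt (by positivity)]; push_cast; nlinarith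
  omega

lemma bn_le_bn_mode {r : ℝ} (h0 : 0 < r) (h1 : r < 1) (s i : ℕ) :
    bn r s i ≤ bn r s (mode r s) := by
  have hup : ∀ i, i < mode r s → bn r s i ≤ bn r s (i + 1) := by
    intro i hi
    have h := (Nat.le_floor_iff (show 0 ≤ r * ((s : ℝ) + 1) by positivity)).1 hi
    push_cast at h
    have e := bn_ratio r s i
    have := bn_nonneg h0.le h1.le s i
    have hp : 0 < ((i : ℝ) + 1) * (1 - r) := mul_pos (by positivity) (by linarith)
    nlinarith
  have hdown : ∀ i, mode r s ≤ i → bn r s (i + 1) ≤ bn r s i := by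
    intro i hi
    rcases lt_or_ge i s with h | h
    · have hi' : (mode r s : ℝ) ≤ i := Nat.cast_le.2 hi
      have hm : r * ((s : ℝ) + 1) < (mode r s : ℝ) + 1 := Nat.lt_floor_add_one _
      replace hm : r * ((s : ℝ) + 1) < (i : ℝ) + 1 := by linarith
      have e := bn_ratio r s i
      have := bn_nonneg h0.le h1.le s i
      have hp : 0 < ((i : ℝ) + 1) * (1 - r) := mul_pos (by positivity) (by linarith)
      nlinarith
    · rw [bn_eq_zero r (by omega)]; exact bn_nonneg h0.le h1.le _ _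
  rcases le_total (mode r s) i with h | h
  · obtain ⟨t, rfl⟩ := Nat.exists_eq_add_of_le h
    induction t with
    | zero => simp
    | succ t ih => exact (hdown _ (Nat.le_add_right _ _)).trans (ih (Nat.le_add_right _ _))
  · obtain ⟨t, ht⟩ := Nat.exists_eq_add_of_le h
    induction t generalizing i with
    | zero => rw [ht, add_zero]
    | succ t ih => exact (hup i (by omega)).trans (ih (i + 1) (by omega) (by omega))

/-- The largest binomial probability. -/
lemma bn_le_sup {lo hi r : ℝ} (hlo : 0 < lo) (hr : lo ≤ r) (hr' : r ≤ hi) (hhi : hi < 1)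
    (s i : ℕ) : bn r s i ≤ cmax lo hi / √(lo * ((s : ℝ) + 1)) := by
  have h0 : 0 < r := hlo.trans_le hr
  have h1 : r < 1 := hr'.trans_lt hhi
  refine (bn_le_bn_mode h0 h1 s i).trans ((bn_le_cmax hlo hr hr' hhi _ _).trans ?_)
  refine div_le_div_of_nonneg_left ?_ (by positivity) (Real.sqrt_le_sqrt ?_)
  · unfold cmax; have : 0 < 1 - hi := by linarith
    positivity
  · calc lo * ((s : ℝ) + 1) ≤ r * ((s : ℝ) + 1) := by gcongr
      _ ≤ _ := (Nat.lt_floor_add_one _).le

lemma bn_mode_ge {r : ℝ} (h0 : 0 < r) (h1 : r < 1) (s : ℕ) :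
    (4 * √((s : ℝ) + 1))⁻¹ ≤ bn r s (mode r s) := by
  classical
  set w := √((s : ℝ) + 1) with hw
  have hw0 : 0 < w := by rw [hw]; positivity
  have hw1 : 1 ≤ w := by rw [hw, Real.one_le_sqrt]; simp
  have hw2 : w ^ 2 = (s : ℝ) + 1 := Real.sq_sqrt (by positivity)
  set near := (range (s + 1)).filter (fun i : ℕ => |(i : ℝ) - r * s| ≤ w) with hnear
  have hfar : ∑ i ∈ (range (s + 1)).filter (fun i : ℕ => ¬|(i : ℝ) - r * s| ≤ w), bn r s i ≤ 1 / 4 := by
    calc ∑ i ∈ (range (s + 1)).filter (fun i : ℕ => ¬|(i : ℝ) - r * s| ≤ w), bn r s i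
        ≤ ∑ i ∈ (range (s + 1)).filter (fun i : ℕ => ¬|(i : ℝ) - r * s| ≤ w),
            bn r s i * (((i : ℝ) - r * s) ^ 2 / w ^ 2) := by
          refine sum_le_sum fun i hi => le_mul_of_one_le_right (bn_nonneg h0.le h1.le _ _) ?_
          rw [one_le_div (by positivity)]
          have := not_le.1 (mem_filter.1 hi).2
          rw [← sq_abs ((i : ℝ) - _)]
          exact pow_le_pow_left₀ hw0.le this.le 2
      _ ≤ bE r s (fun i => ((i : ℝ) - r * s) ^ 2 / w ^ 2) :=
          sum_le_sum_of_subset_of_nonneg (filter_subset _ _) fun i _ _ =>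
            mul_nonneg (bn_nonneg h0.le h1.le _ _) (by positivity)
      _ = r * (1 - r) * s / w ^ 2 := by
          have : (fun i : ℕ => ((i : ℝ) - r * s) ^ 2 / w ^ 2)
              = fun i : ℕ => (w ^ 2)⁻¹ * ((i : ℝ) - r * s) ^ 2 := by funext i; ring
          rw [this, bE_smul, bE_sq]; ring
      _ ≤ 1 / 4 := by
          rw [div_le_iff₀ (by positivity), hw2]
          nlinarith [mul_nonneg (sq_nonneg (r - 1 / 2)) (s.cast_nonneg (α := ℝ))]
  have hsum : 3 / 4 ≤ ∑ i ∈ near, bn r s i := by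
    have := bn_sum r s
    rw [← sum_filter_add_sum_filter_not (range (s + 1)) (fun i : ℕ => |(i : ℝ) - r * s| ≤ w),
      ← hnear] at this
    linarith
  have hcard : (near.card : ℝ) ≤ 3 * w := by
    rcases near.eq_empty_or_nonempty with h | h
    · rw [h]; simp; positivity
    · have hsub : near ⊆ Icc (near.min' h) (near.max' h) := fun i hi =>
        mem_Icc.2 ⟨near.min'_le i hi, near.le_max' i hi⟩
      have hc := card_le_card hsub
      rw [Nat.card_Icc] at hc
      have a1 := abs_le.1 (mem_filter.1 (near.min'_mem h)).2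
      have a2 := abs_le.1 (mem_filter.1 (near.max'_mem h)).2
      have hle : near.min' h ≤ near.max' h := near.min'_le _ (near.max'_mem h)
      have hc' : (near.card : ℝ) ≤ ((near.max' h + 1 - near.min' h : ℕ) : ℝ) := Nat.cast_le.2 hc
      rw [Nat.cast_sub (by omega)] at hc'
      push_cast at hc'
      linarith [a1.1, a2.2]
  have h2 : ∑ i ∈ near, bn r s i ≤ near.card * bn r s (mode r s) := by
    rw [← nsmul_eq_mul]; exact sum_le_card_nsmul _ _ _ fun i _ => bn_le_bn_mode h0 h1 s i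
  rw [inv_eq_one_div, div_le_iff₀ (by positivity)]
  nlinarith [bn_nonneg h0.le h1.le s (mode r s)]

lemma bn_ge_above {lo hi r : ℝ} (hlo : 0 < lo) (hr : lo ≤ r) (hr' : r ≤ hi) (hhi : hi < 1)
    (s t : ℕ) (ht : 2 * (t : ℝ) ≤ lo * (1 - hi) * ((s : ℝ) + 1)) :
    (4 * √((s : ℝ) + 1))⁻¹ * Real.exp (-(2 * (t : ℝ) ^ 2 / (lo * (1 - hi) * ((s : ℝ) + 1))))
      ≤ bn r s (mode r s + t) := by
  have h0 : 0 < r := hlo.trans_le hr
  have h1 : r < 1 := hr'.trans_lt hhi
  have h2 : 0 < 1 - hi := by linarith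
  set Q := lo * (1 - hi) * ((s : ℝ) + 1) with hQ
  have hQ0 : 0 < Q := by rw [hQ]; positivity
  induction t with
  | zero => simpa using bn_mode_ge h0 h1 s
  | succ t ih =>
    push_cast at ht
    have ih := ih (by linarith)
    set i := mode r s + t with hi'
    have hm : r * ((s : ℝ) + 1) < (mode r s : ℝ) + 1 := Nat.lt_floor_add_one _
    have hm' : (mode r s : ℝ) ≤ r * ((s : ℝ) + 1) := Nat.floor_le (by positivity)
    have hden : Q ≤ ((i : ℝ) + 1) * (1 - r) := by
      rw [hQ, hi']; push_cast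
      calc lo * (1 - hi) * ((s : ℝ) + 1) = lo * ((s : ℝ) + 1) * (1 - hi) := by ring
        _ ≤ _ := by
          refine mul_le_mul ?_ (by linarith) h2.le (by positivity)
          nlinarith [mul_le_mul_of_nonneg_right hr (show (0 : ℝ) ≤ (s : ℝ) + 1 by positivity)]
    have e := bn_ratio r s i
    set ε := ((t : ℝ) + 1) / Q with hε
    have hε1 : ε ≤ 1 / 2 := by rw [hε, div_le_iff₀ hQ0]; linarith
    have hstep : (1 - ε) * bn r s i ≤ bn r s (i + 1) := by
      have hp : 0 < ((i : ℝ) + 1) * (1 - r) := lt_of_lt_of_le hQ0 hden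
      have hb := bn_nonneg h0.le h1.le s i
      have hnum : ((i : ℝ) + 1) * (1 - r) - ((s : ℝ) - i) * r ≤ (t : ℝ) + 1 := by
        rw [hi']; push_cast; linarith
      have : (1 - ε) * (((i : ℝ) + 1) * (1 - r)) ≤ ((s : ℝ) - i) * r := by
        have : ε * Q ≤ ε * (((i : ℝ) + 1) * (1 - r)) :=
          mul_le_mul_of_nonneg_left hden (by positivity)
        rw [hε, div_mul_cancel₀ _ hQ0.ne'] at this
        rw [← hε] at this
        linarith
      nlinarith [mul_le_mul_of_nonneg_right this hb]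
    have hexp : Real.exp (-(2 * ε)) ≤ 1 - ε := by
      rw [Real.exp_neg, inv_eq_one_div, div_le_iff₀ (Real.exp_pos _)]
      calc 1 ≤ (1 - ε) * (2 * ε + 1) := by
            nlinarith [show (0 : ℝ) ≤ ε by positivity]
        _ ≤ _ := mul_le_mul_of_nonneg_left (Real.add_one_le_exp _) (by linarith)
    rw [← add_assoc, ← hi']
    refine le_trans ?_ ((mul_le_mul hexp ih (by positivity) (by linarith)).trans hstep)
    rw [← mul_assoc, mul_comm (Real.exp _) _, mul_assoc, ← Real.exp_add, ← neg_add]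
    gcongr
    rw [hε, mul_div_assoc', ← add_div]
    gcongr
    push_cast
    nlinarith

/-- A lower bound near the mean. -/
lemma bn_ge_near {lo hi r t : ℝ} (hlo : 0 < lo) (hr : lo ≤ r) (hr' : r ≤ hi) (hhi : hi < 1)
    (s n : ℕ) (hn : n ≤ s) (htn : |(n : ℝ) - r * s| ≤ t)
    (ht : 2 * (t + 1) ≤ lo * (1 - hi) * ((s : ℝ) + 1)) :
    (4 * √((s : ℝ) + 1))⁻¹ * Real.exp (-(2 * (t + 1) ^ 2 / (lo * (1 - hi) * ((s : ℝ) + 1))))
      ≤ bn r s n := by
  have h0 : 0 < r := hlo.trans_le hr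
  have h1 : r < 1 := hr'.trans_lt hhi
  have h2 : 0 < 1 - hi := by linarith
  have main : ∀ {lo hi r : ℝ} (n : ℕ), 0 < lo → lo ≤ r → r ≤ hi → hi < 1 →
      |(n : ℝ) - r * s| ≤ t → mode r s ≤ n → 2 * (t + 1) ≤ lo * (1 - hi) * ((s : ℝ) + 1) →
      (4 * √((s : ℝ) + 1))⁻¹ * Real.exp (-(2 * (t + 1) ^ 2 / (lo * (1 - hi) * ((s : ℝ) + 1))))
        ≤ bn r s n := by
    intro lo hi r n hlo hr hr' hhi htn hmn ht
    have h0 : 0 < r := hlo.trans_le hr
    have h2 : 0 < 1 - hi := by linarith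
    obtain ⟨u, rfl⟩ := Nat.exists_eq_add_of_le hmn
    have hm : r * ((s : ℝ) + 1) < (mode r s : ℝ) + 1 := Nat.lt_floor_add_one _
    have hu : (u : ℝ) ≤ t + 1 := by
      have := (abs_le.1 htn).2; push_cast at this; linarith
    refine le_trans ?_ (bn_ge_above hlo hr hr' hhi s u (by linarith))
    gcongr
  rcases le_or_gt (mode r s) n with h | h
  · exact main n hlo hr hr' hhi htn h ht
  · rw [bn_symm r hn]
    have hlo' : lo * (1 - hi) = (1 - hi) * (1 - (1 - lo)) := by ring
    rw [hlo'] at ht ⊢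
    refine main (s - n) h2 (by linarith) (by linarith) (by linarith) ?_ ?_ ht
    · rw [Nat.cast_sub hn, ← abs_neg]; convert htn using 2; ring
    · have h' : ((n : ℝ) + 1) ≤ r * ((s : ℝ) + 1) := by
        have := (Nat.le_floor_iff (show 0 ≤ r * ((s : ℝ) + 1) by positivity)).1 h
        push_cast at this; exact this
      refine Nat.le_of_lt_succ ((Nat.floor_lt ?_).2 ?_)
      · have : 0 ≤ 1 - r := by linarith
        positivity
      · rw [Nat.cast_succ, Nat.cast_sub hn]; nlinarith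

end Vale.Agent.P321
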