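import Vale.Agent.P321.Alg
import Vale.Agent.P321.Bino

/-!
Amplification: if `U ^ K` and `U ^ (K + 1)` overlap then high powers of `U` are smooth.
-/

namespace Vale.Agent.P321

open MonoidAlgebra Finset

set_option linter.unusedSectionVars false

variable {G : Type*} [Monoid G]

lemma nrm_pow_mul_le_bE {β : ℝ} {W h R σ X : MonoidAlgebra ℝ G} (hW : W = R * h + σ)
    (hc : Commute W h) (hR : nrm R = β) (hσ : nrm σ = 1 - β) (k : ℕ) :
    ∀ (v : ℕ → ℝ), (∀ j, nrm (h ^ j * X) ≤ v j) → nrm (W ^ k * X) ≤ bE β k v := by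
  induction k generalizing X with
  | zero =>
    intro v hv
    simpa [bE_zero] using hv 0
  | succ k ih =>
    intro v hv
    have e : W ^ (k + 1) * X = R * (W ^ k * (h * X)) + σ * (W ^ k * X) := by
      rw [pow_succ', ← mul_assoc (W ^ k) h X, (hc.pow_left k).eq, mul_assoc h, mul_assoc W,
        ← mul_assoc R h, ← add_mul, ← hW]
    have h1 := ih (fun j => v (j + 1)) (X := h * X) fun j => by
      have := hv (j + 1)
      rwa [pow_succ, mul_assoc] at this
    have h2 := ih v hv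
    rw [e, bE_succ]
    refine (nrm_add_le _ _).trans (add_le_add ?_ ?_)
    · refine (nrm_mul_le _ _).trans ?_
      rw [hR]
      exact mul_le_mul_of_nonneg_left h1 (hR ▸ nrm_nonneg R)
    · refine (nrm_mul_le _ _).trans ?_
      rw [hσ]
      exact mul_le_mul_of_nonneg_left h2 (hσ ▸ nrm_nonneg σ)

/-- A common part of the laws of `K` and `K + 1` copies of `U` makes the powers of `U` smooth. -/
theorem nrm_sub_one_mul_pow_of_overlap {U R : MonoidAlgebra ℝ G} {K : ℕ} {β : ℝ} (hU : IsProb U)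
    (hR : AbsLE R R) (h1 : AbsLE R (U ^ K)) (h2 : AbsLE R (U ^ (K + 1))) (hβ : 0 < β)
    (hmass : β ≤ mass R) (m : ℕ) :
    nrm ((U - 1) * U ^ m) ≤ 4 * √(((K : ℝ) + 1) / (β * ((m : ℝ) + 1))) := by
  classical
  set h : MonoidAlgebra ℝ G := (1 / 2 : ℝ) • 1 + (1 / 2 : ℝ) • U with hh
  set W := U ^ (K + 1) with hW
  set b := mass R with hb
  have hhp : IsProb h := by
    constructor
    · have := ((absLE_one (G := G)).smul (1 / 2)).add (hU.1.smul (1 / 2))
      simpa [hh] using this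
    · simp [hh, hU.2]; norm_num
  have hRU : AbsLE (R * U) W := by rw [hW, pow_succ]; exact h1.mul hU.1
  have hRh : AbsLE (R * h) (R * h) := hR.mul hhp.1
  have hσ : AbsLE (W - R * h) (W - R * h) := fun x => le_of_eq (abs_of_nonneg (by
    have a := h2 x
    have c := hRU x
    have e : R * h = (1 / 2 : ℝ) • R + (1 / 2 : ℝ) • (R * U) := by
      rw [hh, mul_add, mul_smul_comm, mul_smul_comm, mul_one]
    rw [e]
    simp only [coeff_sub, coeff_add, coeff_smul, Finsupp.sub_apply, Finsupp.add_apply,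
      Finsupp.smul_apply, smul_eq_mul]
    rw [abs_le] at a c
    linarith [a.2, c.2]))
  have hWp : IsProb W := hU.pow _
  have hb1 : b ≤ 1 := by
    have := h2.abs_mass_le
    rw [hWp.2] at this
    exact (abs_le.1 this).2
  have hc : Commute W h := by
    rw [hW, hh]
    exact ((Commute.one_right _).smul_right _).add_right ((Commute.pow_self U _).smul_right _)
  have hnh : ∀ j : ℕ, nrm (h ^ j * (U - 1)) ≤ 2 * √2 * (√((j : ℝ) + 1))⁻¹ := by
    intro j
    have e : h ^ j * (U - 1) = (2 : ℝ) • ((h - 1) * h ^ j) := by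
      have hcm : Commute (h ^ j) (h - 1) := (Commute.self_pow h j).symm.sub_right (Commute.one_right _)
      have : h - 1 = (1 / 2 : ℝ) • (U - 1) := by
        rw [hh, smul_sub]
        have : (1 : MonoidAlgebra ℝ G) = (1 / 2 : ℝ) • 1 + (1 / 2 : ℝ) • 1 := by
          rw [← add_smul]; norm_num
        nth_rewrite 2 [this]
        abel
      rw [← hcm.eq, this, mul_smul_comm, smul_smul]
      norm_num
    have hcoef : (1 / 2 : ℝ) ≤ h.coeff 1 := by
      simp [hh]; exact hU.1.nonneg 1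
    rw [e, nrm_smul, abs_of_nonneg (by norm_num : (0 : ℝ) ≤ 2)]
    refine (mul_le_mul_of_nonneg_left
      (nrm_sub_one_mul_pow_le hhp (by norm_num) (by norm_num) hcoef j) (by norm_num)).trans_eq ?_
    rw [Real.sqrt_mul (by norm_num), one_div, mul_inv, mul_assoc, one_div, Real.sqrt_inv, inv_inv]
  set k := m / (K + 1) with hk
  have main := nrm_pow_mul_le_bE (W := W) (h := h) (R := R) (σ := W - R * h) (β := b)
    (X := U - 1) (by abel) hc (nrm_eq_mass hR)
    (by rw [nrm_eq_mass hσ, map_sub, map_mul, hWp.2, hhp.2, mul_one]) k _ hnh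
  have e : (U - 1) * U ^ m = W ^ k * (U - 1) * U ^ (m % (K + 1)) := by
    have hcm : Commute (W ^ k) (U - 1) := by
      rw [hW, ← pow_mul]
      exact (Commute.pow_self U _).sub_right (Commute.one_right _)
    rw [hcm.eq, mul_assoc, hW, ← pow_mul, ← pow_add, hk, Nat.div_add_mod]
  rw [e]
  refine (nrm_mul_le _ _).trans ?_
  rw [(hU.pow _).nrm_eq, mul_one]
  refine main.trans ?_
  rw [bE_smul]
  refine (mul_le_mul_of_nonneg_left (bE_inv_sqrt_le (hβ.trans_le hmass) hb1 k)
    (by positivity)).trans ?_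
  have hkm : (m : ℝ) + 1 ≤ ((K : ℝ) + 1) * ((k : ℝ) + 1) := by
    have := Nat.lt_mul_div_succ m (show 0 < K + 1 by omega)
    rw [← hk] at this
    exact_mod_cast this
  have h8 : 2 * √2 ≤ (4 : ℝ) := by
    nlinarith [Real.sq_sqrt (show (0 : ℝ) ≤ 2 by norm_num), Real.sqrt_nonneg 2]
  refine mul_le_mul h8 ?_ (by positivity) (by norm_num)
  rw [← Real.sqrt_inv]
  apply Real.sqrt_le_sqrt
  rw [inv_eq_one_div, div_le_div_iff₀ (mul_pos (hβ.trans_le hmass) (by positivity)) (by positivity),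
    one_mul]
  calc β * ((m : ℝ) + 1) ≤ b * (((K : ℝ) + 1) * ((k : ℝ) + 1)) :=
        mul_le_mul hmass hkm (by positivity) (hβ.le.trans hmass)
    _ = _ := by ring

/-- If `U ^ K` and `U ^ (K + 1)` are within distance one, the powers of `U` are smooth. -/
theorem nrm_sub_one_mul_pow_of_close {U : MonoidAlgebra ℝ G} {K : ℕ} (hU : IsProb U)
    (hd : nrm (U ^ K - U ^ (K + 1)) ≤ 1) (m : ℕ) :
    nrm ((U - 1) * U ^ m) ≤ 6 * √(((K : ℝ) + 1) / ((m : ℝ) + 1)) := by
  set R : MonoidAlgebra ℝ G :=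
    (1 / 2 : ℝ) • (U ^ K + U ^ (K + 1) - absM (U ^ K - U ^ (K + 1))) with hR
  have key : ∀ x, 0 ≤ R.coeff x ∧ R.coeff x ≤ (U ^ K).coeff x ∧
      R.coeff x ≤ (U ^ (K + 1)).coeff x := by
    intro x
    have a := (hU.pow K).1.nonneg x
    have b := (hU.pow (K + 1)).1.nonneg x
    simp only [hR, coeff_smul, coeff_sub, coeff_add, Finsupp.smul_apply, Finsupp.sub_apply,
      Finsupp.add_apply, absM_coeff, smul_eq_mul]
    rcases abs_cases ((U ^ K).coeff x - (U ^ (K + 1)).coeff x) with ⟨e, _⟩ | ⟨e, _⟩ <;>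
      rw [e] <;> refine ⟨?_, ?_, ?_⟩ <;> linarith
  have hm : (1 / 2 : ℝ) ≤ mass R := by
    rw [hR, map_smul, map_sub, map_add, (hU.pow K).2, (hU.pow (K + 1)).2, smul_eq_mul]
    change (1 / 2 : ℝ) ≤ 1 / 2 * (1 + 1 - nrm _)
    linarith
  refine (nrm_sub_one_mul_pow_of_overlap hU
    (fun x => (abs_of_nonneg (key x).1).le)
    (fun x => (abs_of_nonneg (key x).1).trans_le (key x).2.1)
    (fun x => (abs_of_nonneg (key x).1).trans_le (key x).2.2) (by norm_num) hm m).trans ?_
  rw [show ((K : ℝ) + 1) / (1 / 2 * ((m : ℝ) + 1)) = 2 * (((K : ℝ) + 1) / ((m : ℝ) + 1)) by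
    field_simp, Real.sqrt_mul (by norm_num), ← mul_assoc]
  refine mul_le_mul_of_nonneg_right ?_ (Real.sqrt_nonneg _)
  nlinarith [Real.sq_sqrt (show (0 : ℝ) ≤ 2 by norm_num), Real.sqrt_nonneg 2]

end Vale.Agent.P321
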