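import Vale.Agent.P321.Expand

/-!
One level of the hierarchy at fixed parameters, third part: a pair of slots carrying `p - r`,
averaged over joint translations inside the flattened segment.
-/

namespace Vale.Agent.P321

open MonoidAlgebra Finset

variable {G : Type*} [Monoid G]

set_option linter.unusedSectionVars false

/-- A product of three environments and twice the same centred slot. -/
lemma chain_dom {A B C D Ra Rb Rc H : MonoidAlgebra ℝ G} {α β γ η E : ℝ} (hRa : IsProb Ra)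
    (hRb : IsProb Rb) (hRc : IsProb Rc) (hH : IsProb H) (hα : 0 ≤ α) (hα2 : α ≤ 2) (hβ : 0 ≤ β)
    (hβ2 : β ≤ 2) (hγ : 0 ≤ γ) (hγ2 : γ ≤ 2) (hη : 0 ≤ η) (hη4 : η ≤ 1 / 4) (hE : E ≤ 1 / 50)
    (hA : Dom A Ra α E) (hB : Dom B Rb β E) (hC : Dom C Rc γ E) (hD : Dom D H η E) :
    Dom (A * D * B * D * C) (Ra * H * Rb * H * Rc) (α * η * β * η * γ) (300 * E) := by
  have hE0 := hA.eps_nonneg
  have e1 : α * η ≤ 1 / 2 := by nlinarith
  have e2 : α * η * β ≤ 1 := by nlinarith [mul_nonneg hα hη]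
  have e3 : α * η * β * η ≤ 1 / 4 := by nlinarith [mul_nonneg (mul_nonneg hα hη) hβ]
  have s1 := hA.mul' hRa hH hα hα2 (by linarith) (by linarith) hD
  have s2 := s1.mul' (hRa.mul hH) hRb (by positivity) (by linarith) hβ2 (by linarith) hB
  have s3 := s2.mul' ((hRa.mul hH).mul hRb) hH (by positivity) (by linarith) (by linarith)
    (by linarith) hD
  have s4 := s3.mul' (((hRa.mul hH).mul hRb).mul hH) hRc (by positivity) (by linarith) hγ2
    (by linarith) hC
  exact s4.mono ((((hRa.mul hH).mul hRb).mul hH).mul hRc).1 le_rfl (by linarith)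

namespace Stage

variable {S : Stage G}

/-- `p - r` is a centred window inside `W ^ M`, up to `S.ε`. -/
structure Window (S : Stage G) (h : MonoidAlgebra ℝ G) (x₀ w y₀ : ℕ) : Prop where
  len : x₀ + w + y₀ = S.M
  le : AbsLE h (S.η • S.W ^ w)
  mass_zero : mass h = 0
  close : nrm (S.p - S.r - S.W ^ x₀ * h * S.W ^ y₀) ≤ S.ε

/-- The main lemma of a smearing level: a pair term inside a segment gains from translations. -/
lemma pair_smear (hok : S.Ok) {h : MonoidAlgebra ℝ G} {x₀ w y₀ : ℕ} (hw : S.Window h x₀ w y₀)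
    {n : ℕ} {t E : ℝ} (hS : S.FlatUpTo n t E) (ht : 0 ≤ t) (ht' : t ≤ 1 / 20) (hE : E ≤ 1 / 50)
    (hεE : S.ε ≤ E) (hη : S.η ≤ 1 / 4) {k N Δ m : ℕ} {C t₂ : ℝ} (hk : 0 < k) (hN : 0 < N)
    (hC : 0 < C) (v : ℤ → ℝ) (hv : ∀ r, |v r| ≤ C / N)
    (hker : ∀ (T : ℕ → MonoidAlgebra ℝ G) (B : ℝ),
      (∀ j < 3 * k * N, nrm ((fdiff^[k] T) j) ≤ B) →
        nrm (T 0 - ∑ r ∈ range (3 * k * N), v (r : ℤ) • T r) ≤ C * (N : ℝ) ^ k * B)
    (hΔ : w ≤ Δ) (hgap : 3 * k * N * Δ ≤ x₀ + y₀) (ht₂ : 0 < t₂)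
    (x y z : List Bool) (hn : x.length + y.length + z.length + 2 ≤ n)
    (hX : k * m ≤ S.M * x.length) (hZ : k * m + Δ * (3 * k * N + k) ≤ S.M * z.length) :
    Dom (wval S.p S.r x * (S.p - S.r) * wval S.p S.r y * (S.p - S.r) * wval S.p S.r z)
      ((S.W ^ S.M) ^ (x.length + 1 + y.length + 1 + z.length))
      (120 * t * S.η ^ 2 + t₂)
      (1000 * E + C * (N : ℝ) ^ k * (2 * Δ * nrm ((S.W - 1) * S.W ^ m)) ^ k
        + 2 * (S.η ^ 2 * (3 * k * C))
          * Real.exp (-(t₂ ^ 2 / (2 * S.η ^ 2 * S.η ^ 2 * (3 * k * C ^ 2 / N))))) := by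
  set d := S.p - S.r with hd
  set D := S.W ^ x₀ * h * S.W ^ y₀ with hD
  have hH := hok.isProb_H
  have hW := hok.isProb_W
  have hη0 := hok.η_pos
  have hE0 : 0 ≤ E := hok.eps_nonneg.trans hεE
  set a := x.length
  set b := y.length
  set c := z.length
  set len := a + 1 + b + 1 + c with hlen
  -- the window replaces `d`
  have hDdom : Dom D (S.W ^ S.M) S.η E := by
    refine (Dom.of_absLE ?_).mono hH.1 le_rfl hE0
    have := ((hW.pow x₀).1.mul hw.le).mul (hW.pow y₀).1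
    rwa [mul_smul_comm, smul_mul_assoc, ← pow_add, ← pow_add, hw.len] at this
  have hDn : nrm D ≤ 2 := (hDdom.nrm_le hH).trans (by linarith)
  have hdn : nrm d ≤ 2 :=
    (nrm_sub_le _ _).trans (by rw [hok.isProb_p.nrm_eq, hok.isProb_r.nrm_eq]; norm_num)
  have hdd : nrm (d - D) ≤ E := hw.close.trans hεE
  obtain ⟨a1, a2, -⟩ := hS x (by omega)
  obtain ⟨b1, b2, -⟩ := hS y (by omega)
  obtain ⟨c1, c2, -⟩ := hS z (by omega)
  have hX' := wval_isProb hok.isProb_p hok.isProb_r x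
  have hY' := wval_isProb hok.isProb_p hok.isProb_r y
  have hZ' := wval_isProb hok.isProb_p hok.isProb_r z
  have hrep : nrm (wval S.p S.r x * d * wval S.p S.r y * d * wval S.p S.r z
      - wval S.p S.r x * D * wval S.p S.r y * D * wval S.p S.r z) ≤ 4 * E := by
    rw [show wval S.p S.r x * d * wval S.p S.r y * d * wval S.p S.r z
        - wval S.p S.r x * D * wval S.p S.r y * D * wval S.p S.r z
      = wval S.p S.r x * (d - D) * wval S.p S.r y * d * wval S.p S.r z
        + wval S.p S.r x * D * wval S.p S.r y * (d - D) * wval S.p S.r z by noncomm_ring]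
    have key : ∀ u v : MonoidAlgebra ℝ G, nrm (wval S.p S.r x * u * wval S.p S.r y * v
        * wval S.p S.r z) ≤ nrm u * nrm v := by
      intro u v
      refine (nrm_mul_le _ _).trans ?_
      rw [hZ'.nrm_eq, mul_one]
      refine (nrm_mul_le _ _).trans (mul_le_mul_of_nonneg_right ?_ (nrm_nonneg _))
      refine (nrm_mul_le _ _).trans ?_
      rw [hY'.nrm_eq, mul_one]
      refine (nrm_mul_le _ _).trans ?_
      rw [hX'.nrm_eq, one_mul]
    refine (nrm_add_le _ _).trans ((add_le_add (key _ _) (key _ _)).trans ?_)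
    nlinarith [nrm_nonneg d, nrm_nonneg D, nrm_nonneg (d - D)]
  -- the environment is flattened
  have hη2 : S.η ^ 2 ≤ 1 / 16 := by nlinarith
  have ht2 : 10 * t ≤ 2 := by linarith
  have hsa := (Dom.self (hH.pow a).1).mono (hH.pow a).1 le_rfl hE0
  have hsb := (Dom.self (hH.pow b).1).mono (hH.pow b).1 le_rfl hE0
  have q1 := chain_dom (hH.pow a) (hH.pow b) (hH.pow c) hH (by linarith) ht2 zero_le_two le_rfl
    zero_le_two le_rfl hη0.le hη hE a1 b2 c2 hDdom
  have q2 := chain_dom (hH.pow a) (hH.pow b) (hH.pow c) hH zero_le_one one_le_two (by linarith)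
    ht2 zero_le_two le_rfl hη0.le hη hE hsa b1 c2 hDdom
  have q3 := chain_dom (hH.pow a) (hH.pow b) (hH.pow c) hH zero_le_one one_le_two zero_le_one
    one_le_two (by linarith) ht2 hη0.le hη hE hsa hsb c1 hDdom
  -- translations
  set X := S.M * a + x₀ with hXdef
  set Γ := y₀ + S.M * b + x₀ with hΓ
  set Yt := y₀ + S.M * c with hYt
  set T : ℕ → MonoidAlgebra ℝ G :=
    fun r => S.W ^ (X + Δ * r) * (h * S.W ^ Γ * h) * S.W ^ (Yt - Δ * r) with hT
  have hT0 : (S.W ^ S.M) ^ a * D * (S.W ^ S.M) ^ b * D * (S.W ^ S.M) ^ c = T 0 := by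
    simp only [hT, hD, hXdef, hΓ, hYt, ← pow_mul, mul_zero, tsub_zero, pow_add]
    noncomm_ring
  have hhn : nrm (h * S.W ^ Γ * h) ≤ 1 := by
    have h1 : nrm h ≤ S.η := by
      have := hw.le.nrm_le
      rwa [map_smul, (hW.pow w).2, smul_eq_mul, mul_one] at this
    refine (nrm_mul_le _ _).trans ((mul_le_mul_of_nonneg_right (nrm_mul_le _ _)
      (nrm_nonneg _)).trans ?_)
    rw [(hW.pow Γ).nrm_eq, mul_one]
    nlinarith [nrm_nonneg h, hok.η_le]
  have hker' := hker T ((2 * Δ * nrm ((S.W - 1) * S.W ^ m)) ^ k) fun j hj => by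
    refine (nrm_fdiff_translate_le hW k Δ X Yt m j (by omega) ?_).trans
      (mul_le_of_le_one_right (pow_nonneg (mul_nonneg (by positivity) (nrm_nonneg _)) _) hhn)
    have : Δ * (j + k) ≤ Δ * (3 * k * N + k) := Nat.mul_le_mul_left _ (by omega)
    omega
  have hσ : (0 : ℝ) < 3 * k * C ^ 2 / N := by positivity
  have hsum : ∑ r ∈ range (3 * k * N), v (r : ℤ) ^ 2 ≤ 3 * k * C ^ 2 / N := by
    refine (sum_le_card_nsmul _ _ ((C / N) ^ 2) fun r _ => ?_).trans (le_of_eq ?_)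
    · rw [← sq_abs]
      exact pow_le_pow_left₀ (abs_nonneg _) (hv _) 2
    · simp only [card_range, nsmul_eq_mul, Nat.cast_mul, Nat.cast_ofNat]
      field_simp
  have habs : ∑ r ∈ range (3 * k * N), |v (r : ℤ)| ≤ 3 * k * C := by
    refine (sum_le_card_nsmul _ _ (C / N) fun r _ => hv _).trans (le_of_eq ?_)
    simp only [card_range, nsmul_eq_mul, Nat.cast_mul, Nat.cast_ofNat]
    field_simp
  have hmain := smear_two_dom (N := 3 * k * N) (X := X) (Γ := Γ) (Y := Yt - 3 * k * N * Δ)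
    (Δ := Δ) hW hw.le hw.mass_zero hη0 hw.le hw.mass_zero hη0 hΔ hΔ (by omega)
    (fun r => v r) hσ hsum ht₂
  have hcast : S.W ^ (X + 3 * k * N * Δ + w + Γ + w + (Yt - 3 * k * N * Δ))
      = (S.W ^ S.M) ^ len := by
    rw [← pow_mul]
    congr 1
    have h1 := hw.len
    have hle : 3 * k * N * Δ ≤ Yt := by
      have : Δ * (3 * k * N + k) = 3 * k * N * Δ + Δ * k := by ring
      omega
    have h2 : S.M * len = S.M * a + S.M * b + S.M * c + (S.M + S.M) := by simp only [hlen]; ring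
    omega
  have hterms : ∀ r ∈ range (3 * k * N),
      S.W ^ (X + r * Δ) * h * S.W ^ Γ * h
        * S.W ^ (Yt - 3 * k * N * Δ + (3 * k * N - r) * Δ) = T r := by
    intro r hr
    rw [mem_range] at hr
    have h3 : Yt - 3 * k * N * Δ + (3 * k * N - r) * Δ = Yt - Δ * r := by
      have h4 : r * Δ ≤ 3 * k * N * Δ := Nat.mul_le_mul_right _ hr.le
      have h5 : 3 * k * N * Δ ≤ Yt := by
        have : Δ * (3 * k * N + k) = 3 * k * N * Δ + Δ * k := by ring
        omega
      rw [Nat.sub_mul, mul_comm Δ r]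
      omega
    rw [h3]
    simp only [hT, mul_comm Δ r, mul_assoc]
  rw [sum_congr rfl fun r hr => congrArg _ (hterms r hr), hcast] at hmain
  -- assembling
  have h1 : Dom (T 0) ((S.W ^ S.M) ^ len) t₂ _ :=
    (((Dom.of_nrm (hH.pow len).1).mono (hH.pow len).1 le_rfl hker').add hmain).mono
      (hH.pow len).1 (by rw [zero_add]) le_rfl |> fun hh => by simpa only [sub_add_cancel] using hh
  have h2 := (q1.add q2).add q3
  rw [show (wval S.p S.r x - (S.W ^ S.M) ^ a) * D * wval S.p S.r y * D * wval S.p S.r z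
      + (S.W ^ S.M) ^ a * D * (wval S.p S.r y - (S.W ^ S.M) ^ b) * D * wval S.p S.r z
      + (S.W ^ S.M) ^ a * D * (S.W ^ S.M) ^ b * D * (wval S.p S.r z - (S.W ^ S.M) ^ c)
      = wval S.p S.r x * D * wval S.p S.r y * D * wval S.p S.r z - T 0 by
        rw [← hT0]; noncomm_ring] at h2
  simp only [pow_one, ← pow_succ, ← pow_add] at h2
  rw [show a + 1 + b + 1 + c = len from rfl] at h2
  have h3 := ((Dom.of_nrm (hH.pow len).1).mono (hH.pow len).1 le_rfl hrep).add (h2.add h1)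
  rw [sub_add_cancel, sub_add_cancel] at h3
  refine h3.mono (hH.pow len).1 ?_ ?_
  · nlinarith
  · have hexp : 2 * (S.η * S.η * ∑ r ∈ range (3 * k * N), |v (r : ℤ)|)
        * Real.exp (-(t₂ ^ 2 / (2 * S.η ^ 2 * S.η ^ 2 * (3 * k * C ^ 2 / N))))
        ≤ 2 * (S.η ^ 2 * (3 * k * C))
        * Real.exp (-(t₂ ^ 2 / (2 * S.η ^ 2 * S.η ^ 2 * (3 * k * C ^ 2 / N)))) := by
      rw [← pow_two]
      gcongr
    linarith

end Stage

end Vale.Agent.P321
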