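import Vale.Agent.P321.Chan
import Vale.Agent.P321.Smear

/-!
Families of levels indexed by the base parameter `b`, with exponents of `b`, and the bookkeeping
lemmas for the asymptotic estimates.
-/

namespace Vale.Agent.P321

open MonoidAlgebra Filter Finset

/-- A family of levels: two strings and the sub-cell for each value of the parameter. -/
structure Fam where
  /-- first string -/
  P : ℕ → List Bool
  /-- second string -/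
  R : ℕ → List Bool
  /-- sub-cell -/
  W : ℕ → Meas

/-- The exponents of a level. -/
structure Par where
  /-- `M = b ^ μ` -/
  μ : ℕ
  /-- smoothing exponent of the sub-cell -/
  σW : ℕ
  /-- smoothing exponent of the cell, and length exponent -/
  σ : ℕ
  /-- the letters differ by `b ^ (-β)` -/
  β : ℕ
  /-- the letters are within `b ^ (-g)` of the reference -/
  g : ℕ
  /-- errors are `b ^ (-Q)` -/
  Q : ℕ

/-- The stage at parameter `b`. -/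
noncomputable def Fam.stage (F : Fam) (q : ℝ) (π : Par) (b : ℕ) : Stage (FreeMonoid Bool) where
  p := traceM q (F.P b)
  r := traceM q (F.R b)
  W := F.W b
  M := b ^ π.μ
  g := 1 / (b : ℝ) ^ π.g
  η := 1 / (b : ℝ) ^ π.β
  ε := 1 / (b : ℝ) ^ π.Q

/-- What is known about a level at parameter `b`. -/
structure Fam.Good (F : Fam) (q : ℝ) (π : Par) (b : ℕ) : Prop where
  ok : (F.stage q π b).Ok
  smW : ∀ m : ℕ, nrm ((F.W b - 1) * F.W b ^ m) ≤ √((b : ℝ) ^ π.σW / ((m : ℝ) + 1))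
  smU : ∀ m : ℕ, nrm (((F.stage q π b).U - 1) * (F.stage q π b).U ^ m)
      ≤ √((b : ℝ) ^ π.σ / ((m : ℝ) + 1))
  len_eq : (F.P b).length = (F.R b).length
  len_ge : 0 < (F.P b).length
  len_le : (F.P b).length ≤ b ^ π.σ
  ne : F.P b ≠ F.R b

/-- The difference of the letters is a window of bounded width in the middle of `W ^ M`. -/
def Fam.HasWin (F : Fam) (q : ℝ) (π : Par) (K b : ℕ) : Prop :=
  ∃ h x w y, (F.stage q π b).Window h x w y ∧ w ≤ K ∧ b ^ π.μ ≤ 4 * x ∧ b ^ π.μ ≤ 4 * y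

lemma ev_ge (C : ℝ) : ∀ᶠ b : ℕ in atTop, C ≤ (b : ℝ) :=
  (tendsto_natCast_atTop_atTop.eventually_ge_atTop C)

lemma ev_nat_ge (C : ℕ) : ∀ᶠ b : ℕ in atTop, C ≤ b := eventually_ge_atTop C

lemma ev_exp (Q : ℕ) : ∀ᶠ b : ℕ in atTop, Real.exp (-(b : ℝ)) ≤ 1 / (b : ℝ) ^ Q := by
  have h := ((Real.tendsto_pow_mul_exp_neg_atTop_nhds_zero Q).comp
    tendsto_natCast_atTop_atTop).eventually (eventually_le_nhds zero_lt_one)
  filter_upwards [h, eventually_gt_atTop 0] with b hb hb0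
  rw [le_div_iff₀ (pow_pos (Nat.cast_pos.2 hb0) Q), mul_comm]
  exact hb

/-- Comparison of two monomials in `b` with a constant. -/
lemma mul_pow_div_le {b C : ℝ} (hb : 1 ≤ b) (hC : C ≤ b) {x y z : ℕ} (h : x + z + 1 ≤ y) :
    C * (b ^ x / b ^ y) ≤ 1 / b ^ z := by
  have hb0 : 0 < b := lt_of_lt_of_le zero_lt_one hb
  rw [mul_div_assoc', div_le_div_iff₀ (pow_pos hb0 _) (pow_pos hb0 _), one_mul]
  calc C * b ^ x * b ^ z ≤ b * b ^ x * b ^ z := by gcongr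
    _ = b ^ (x + z + 1) := by ring
    _ ≤ b ^ y := pow_le_pow_right₀ hb h

lemma const_div_pow_le {b C : ℝ} (hb : 1 ≤ b) (hC : C ≤ b) {y z : ℕ} (h : z + 1 ≤ y) :
    C * (1 / b ^ y) ≤ 1 / b ^ z := by
  simpa using mul_pow_div_le (x := 0) hb hC (by omega : 0 + z + 1 ≤ y)

lemma pow_inv_mono {b : ℝ} (hb : 1 ≤ b) {y z : ℕ} (h : z ≤ y) : 1 / b ^ y ≤ 1 / b ^ z :=
  one_div_le_one_div_of_le (pow_pos (lt_of_lt_of_le zero_lt_one hb) _) (pow_le_pow_right₀ hb h)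

/-- Squares of shifted smoothing quantities. -/
lemma sq_shift_le {N A m : ℝ} {s : ℝ} (hm : 0 < m) (hA : 0 ≤ A) (hN0 : 0 ≤ N)
    (hN : N ≤ √(A / m)) : (s * N) ^ 2 ≤ s ^ 2 * A / m := by
  rw [mul_pow, mul_div_assoc]
  refine mul_le_mul_of_nonneg_left ?_ (sq_nonneg s)
  exact (pow_le_pow_left₀ hN0 hN 2).trans_eq (Real.sq_sqrt (div_nonneg hA hm.le))

/-- A quantity with square `O(1/b)`, raised to a high even power. -/
lemma pow_small {x b D C : ℝ} {Q : ℕ} (hb : 1 ≤ b) (hC : 0 ≤ C) (hx : x ^ 2 ≤ D / b)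
    (hDb : C * D ^ (Q + 1) ≤ b) : C * x ^ (2 * (Q + 1)) ≤ 1 / b ^ Q := by
  have hb0 : 0 < b := lt_of_lt_of_le zero_lt_one hb
  rw [pow_mul]
  refine (mul_le_mul_of_nonneg_left (pow_le_pow_left₀ (sq_nonneg x) hx _) hC).trans ?_
  rw [div_pow, mul_div_assoc', div_le_div_iff₀ (pow_pos hb0 _) (pow_pos hb0 _), one_mul,
    pow_succ b, mul_comm (b ^ Q) b]
  exact mul_le_mul_of_nonneg_right hDb (pow_nonneg hb0.le _)

/-- The sub-Gaussian tail at threshold `b ^ (c+1) / b ^ g` over `n` slots of size `2 / b ^ g`. -/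
lemma tail_le {b n : ℕ} {c g : ℕ} {G : ℝ} (hn : 0 < n) (hn2 : n ≤ b ^ (2 * c + 1))
    (hG : 0 < G) (hG2 : G ≤ 2 / (b : ℝ) ^ g) (hb : 16 ≤ b) :
    Real.exp (-(((b : ℝ) ^ (c + 2) / (b : ℝ) ^ g) ^ 2 / (4 * n * G ^ 2)))
      ≤ Real.exp (-(b : ℝ)) := by
  have hb0 : (0 : ℝ) < b := by exact_mod_cast (by omega : 0 < b)
  have hn0 : (0 : ℝ) < n := by exact_mod_cast hn
  have hn2' : (n : ℝ) ≤ (b : ℝ) ^ (2 * c + 1) := by exact_mod_cast hn2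
  have hb16 : (16 : ℝ) ≤ b := by exact_mod_cast hb
  have hG2' : G ^ 2 ≤ (2 / (b : ℝ) ^ g) ^ 2 := pow_le_pow_left₀ hG.le hG2 2
  rw [Real.exp_le_exp, neg_le_neg_iff, le_div_iff₀ (by positivity)]
  calc (b : ℝ) * (4 * n * G ^ 2)
      ≤ (b : ℝ) * (4 * (b : ℝ) ^ (2 * c + 1) * (2 / (b : ℝ) ^ g) ^ 2) := by gcongr
    _ = 16 * ((b : ℝ) ^ (2 * c + 2) / ((b : ℝ) ^ g) ^ 2) := by ring
    _ ≤ (b : ℝ) * ((b : ℝ) ^ (2 * c + 2) / ((b : ℝ) ^ g) ^ 2) := by gcongr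
    _ ≤ (b : ℝ) ^ 2 * ((b : ℝ) ^ (2 * c + 2) / ((b : ℝ) ^ g) ^ 2) := by
      gcongr; nlinarith
    _ = ((b : ℝ) ^ (c + 2) / (b : ℝ) ^ g) ^ 2 := by ring

/-- A shift by `O(b ^ x)` cells, smoothed by `b ^ z` cells. -/
lemma shift_small {b N s D : ℝ} (hb : 1 ≤ b) {m x y z : ℕ} (hN0 : 0 ≤ N)
    (hN : N ≤ √(b ^ y / ((m : ℝ) + 1))) (hm : b ^ z ≤ (m : ℝ) + 1) (hs0 : 0 ≤ s)
    (hs : s ≤ D * b ^ x) (h : 2 * x + y + 1 ≤ z) : (s * N) ^ 2 ≤ D ^ 2 / b := by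
  have hb0 : 0 < b := lt_of_lt_of_le zero_lt_one hb
  refine (sq_shift_le (s := s) (by positivity) (pow_nonneg hb0.le y) hN0 hN).trans ?_
  rw [div_le_div_iff₀ (by positivity) hb0]
  calc s ^ 2 * b ^ y * b ≤ (D * b ^ x) ^ 2 * b ^ y * b := by gcongr
    _ = D ^ 2 * b ^ (2 * x + y + 1) := by ring
    _ ≤ D ^ 2 * b ^ z := by gcongr
    _ ≤ _ := by gcongr

/-- Thresholds for words of at most `b ^ (2c+1)` slots. -/
lemma thresh_asymp {g Q c : ℕ} (hg : c + 3 ≤ g) (hQ : g ≤ Q) :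
    ∀ᶠ b : ℕ in atTop, ∀ n : ℕ, 0 < n → n ≤ b ^ (2 * c + 1) →
      (b : ℝ) ^ (c + 2) / (b : ℝ) ^ g ≤ 1 / 200 ∧
      (n : ℝ) * (1 / (b : ℝ) ^ g + 1 / (b : ℝ) ^ Q) ^ 2 ≤ (b : ℝ) ^ (c + 2) / (b : ℝ) ^ g ∧
      (n : ℝ) * (2 * (1 / (b : ℝ) ^ Q))
        + 4 * Real.exp (-(((b : ℝ) ^ (c + 2) / (b : ℝ) ^ g) ^ 2
          / (4 * n * (1 / (b : ℝ) ^ g + 1 / (b : ℝ) ^ Q) ^ 2)))
        ≤ 10 * ((b : ℝ) ^ (2 * c + 1) / (b : ℝ) ^ Q) := by
  filter_upwards [ev_exp Q, ev_nat_ge 200] with b hexp hb n hn0 hn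
  have hb1 : (1 : ℝ) ≤ b := by exact_mod_cast (by omega : 1 ≤ b)
  have hn' : (n : ℝ) ≤ (b : ℝ) ^ (2 * c + 1) := by exact_mod_cast hn
  have hsum : 1 / (b : ℝ) ^ g + 1 / (b : ℝ) ^ Q ≤ 2 / (b : ℝ) ^ g := by
    have := pow_inv_mono hb1 hQ
    rw [show (2 : ℝ) / (b : ℝ) ^ g = 1 / (b : ℝ) ^ g + 1 / (b : ℝ) ^ g by ring]
    linarith
  have hpos : 0 < 1 / (b : ℝ) ^ g + 1 / (b : ℝ) ^ Q := by positivity
  refine ⟨?_, ?_, ?_⟩
  · have h1 := mul_pow_div_le (C := 200) hb1 (by exact_mod_cast hb)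
      (x := c + 2) (z := 0) (y := g) (by omega)
    simp only [pow_zero, div_one] at h1
    linarith
  · calc (n : ℝ) * (1 / (b : ℝ) ^ g + 1 / (b : ℝ) ^ Q) ^ 2
        ≤ (b : ℝ) ^ (2 * c + 1) * (2 / (b : ℝ) ^ g) ^ 2 := by gcongr
      _ = (4 * ((b : ℝ) ^ c / (b : ℝ) ^ g)) * ((b : ℝ) ^ (c + 1) / (b : ℝ) ^ g) := by ring
      _ ≤ 1 * ((b : ℝ) ^ (c + 2) / (b : ℝ) ^ g) := by
        refine mul_le_mul ?_ ?_ (by positivity) zero_le_one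
        · have := mul_pow_div_le (C := 4) hb1 (by exact_mod_cast (by omega : 4 ≤ b))
            (x := c) (z := 0) (y := g) (by omega)
          simpa using this
        · exact div_le_div_of_nonneg_right (pow_le_pow_right₀ hb1 (by omega)) (by positivity)
      _ = _ := one_mul _
  · have htail := (tail_le hn0 hn hpos hsum (by omega)).trans hexp
    have hone : 1 / (b : ℝ) ^ Q ≤ (b : ℝ) ^ (2 * c + 1) / (b : ℝ) ^ Q := by
      gcongr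
      exact one_le_pow₀ hb1
    have hε : (n : ℝ) * (2 * (1 / (b : ℝ) ^ Q))
        ≤ 2 * ((b : ℝ) ^ (2 * c + 1) / (b : ℝ) ^ Q) := by
      rw [show (2 : ℝ) * ((b : ℝ) ^ (2 * c + 1) / (b : ℝ) ^ Q)
        = (b : ℝ) ^ (2 * c + 1) * (2 * (1 / (b : ℝ) ^ Q)) by ring]
      gcongr
    have hX : 0 ≤ (b : ℝ) ^ (2 * c + 1) / (b : ℝ) ^ Q := by positivity
    linarith

/-- Flattening of words of at most `b ^ (2c+1)` slots. -/
lemma flat_asymp (q : ℝ) (π : Par) {c : ℕ} (hg : c + 3 ≤ π.g) (hQ : π.g ≤ π.Q) :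
    ∀ᶠ b : ℕ in atTop, ∀ F : Fam, (F.stage q π b).Ok →
      (F.stage q π b).FlatUpTo (b ^ (2 * c + 1)) ((b : ℝ) ^ (c + 2) / (b : ℝ) ^ π.g)
        (20 * ((b : ℝ) ^ (2 * c + 1) / (b : ℝ) ^ π.Q)) := by
  filter_upwards [thresh_asymp hg hQ, ev_nat_ge 1] with b h hb F hok
  obtain ⟨h1, h2, h3⟩ := h (b ^ (2 * c + 1)) (pow_pos hb _) le_rfl
  refine Stage.flatUpTo hok (by linarith) h2 ?_
  simp only [Fam.stage] at h3 ⊢
  linarith

end Vale.Agent.P321
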