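import Vale.Agent.P321.Flat

/-!
A block of slots `u + s_i O + s_i^2 V`: even part, odd part, and the part linear in `O`.
-/

namespace Vale.Agent.P321

open MonoidAlgebra Finset

variable {G : Type*} [Monoid G]

/-- Product of the first `n` slots. -/
noncomputable def blk (u O V : MonoidAlgebra ℝ G) (σ : ℕ → ℝ) : ℕ → MonoidAlgebra ℝ G
  | 0 => 1
  | n + 1 => blk u O V σ n * (u + σ n • O + (σ n) ^ 2 • V)

/-- The part linear in `O`. -/
noncomputable def blkLin (u O : MonoidAlgebra ℝ G) (σ : ℕ → ℝ) : ℕ → MonoidAlgebra ℝ G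
  | 0 => 0
  | n + 1 => blkLin u O σ n * u + u ^ n * (σ n • O)

/-- Even part minus the main term. -/
noncomputable def blkEven (u O V : MonoidAlgebra ℝ G) (σ : ℕ → ℝ) (n : ℕ) : MonoidAlgebra ℝ G :=
  (1 / 2 : ℝ) • (blk u O V σ n + blk u O V (-σ) n) - u ^ n

/-- Odd part minus the linear term. -/
noncomputable def blkOdd (u O V : MonoidAlgebra ℝ G) (σ : ℕ → ℝ) (n : ℕ) : MonoidAlgebra ℝ G :=
  (1 / 2 : ℝ) • (blk u O V σ n - blk u O V (-σ) n) - blkLin u O σ n

lemma blk_eq (u O V : MonoidAlgebra ℝ G) (σ : ℕ → ℝ) (n : ℕ) :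
    blk u O V σ n - u ^ n = blkEven u O V σ n + (blkOdd u O V σ n + blkLin u O σ n) ∧
      blk u O V (-σ) n - u ^ n
        = blkEven u O V σ n - (blkOdd u O V σ n + blkLin u O σ n) := by
  constructor <;> simp only [blkEven, blkOdd, smul_add, smul_sub] <;> module

lemma blkLin_eq (u O : MonoidAlgebra ℝ G) (σ : ℕ → ℝ) (n : ℕ) :
    blkLin u O σ n = ∑ i ∈ range n, σ i • (u ^ i * O * u ^ (n - 1 - i)) := by
  induction n with
  | zero => simp [blkLin]
  | succ n ih =>
    rw [blkLin, ih, sum_range_succ, Nat.add_sub_cancel, Nat.sub_self, pow_zero, mul_one,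
      sum_mul, mul_smul_comm]
    congr 1
    refine sum_congr rfl fun i hi => ?_
    rw [mem_range] at hi
    rw [smul_mul_assoc, mul_assoc (u ^ i * O), ← pow_succ, show n - 1 - i + 1 = n - i by omega]

/-- Sizes of the three parts. -/
theorem blk_bound (n : ℕ) : ∃ C : ℝ, 0 ≤ C ∧ ∀ (u O V : MonoidAlgebra ℝ G) (σ : ℕ → ℝ)
    (α γ ε : ℝ), IsProb u → (∀ i, |σ i| ≤ 1) → 0 ≤ α → α ≤ 1 / 2 → 0 ≤ γ → γ ≤ 1 / 2 → ε ≤ 1 →
    Dom O u α ε → Dom V u γ ε →
      Dom (blkEven u O V σ n) (u ^ n) (C * (γ + α ^ 2)) (C * ε) ∧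
      Dom (blkOdd u O V σ n) (u ^ n) (C * (α * (γ + α ^ 2))) (C * ε) ∧
      Dom (blkLin u O σ n) (u ^ n) (C * α) (C * ε) := by
  induction n with
  | zero =>
    refine ⟨0, le_rfl, fun u O V σ α γ ε hu hσ hα hα' hγ hγ' hε hO hV => ?_⟩
    have h1 : AbsLE (1 : MonoidAlgebra ℝ G) 1 := absLE_one
    have h0 : Dom (0 : MonoidAlgebra ℝ G) 1 0 0 := by
      simpa using Dom.of_nrm (D := (0 : MonoidAlgebra ℝ G)) h1
    have he : blkEven u O V σ 0 = 0 := by simp only [blkEven, blk, pow_zero]; module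
    have ho : blkOdd u O V σ 0 = 0 := by simp [blkOdd, blk, blkLin]
    rw [he, ho]
    simp only [pow_zero, zero_mul, blkLin]
    exact ⟨h0, h0, h0⟩
  | succ n ih =>
    obtain ⟨C, hC, ih⟩ := ih
    refine ⟨10 * C + 2, by linarith, fun u O V σ α γ ε hu hσ hα hα' hγ hγ' hε hO hV => ?_⟩
    obtain ⟨hS, hD, hL⟩ := ih u O V σ α γ ε hu hσ hα hα' hγ hγ' hε hO hV
    set δ := γ + α ^ 2 with hδdef
    have hδ : 0 ≤ δ := by positivity
    have hδ1 : δ ≤ 1 := by rw [hδdef]; nlinarith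
    have hε0 : 0 ≤ ε := hO.eps_nonneg
    have hun := hu.pow n
    have hY : Dom (σ n • O) u α ε := (hO.smul (σ n)).mono hu.1
      (mul_le_of_le_one_left hα (hσ n)) (mul_le_of_le_one_left hε0 (hσ n))
    have hc : |(σ n) ^ 2| ≤ 1 := by rw [abs_pow]; exact pow_le_one₀ (abs_nonneg _) (hσ n)
    have hcV : Dom ((σ n) ^ 2 • V) u γ ε := (hV.smul ((σ n) ^ 2)).mono hu.1
      (mul_le_of_le_one_left hγ hc) (mul_le_of_le_one_left hε0 hc)
    have hX : Dom (u + (σ n) ^ 2 • V) u (1 + γ) ε := by simpa using (Dom.self hu.1).add hcV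
    have hαδ : 0 ≤ α * δ := mul_nonneg hα hδ
    refine ⟨?_, ?_, ?_⟩
    · have key : blkEven u O V σ (n + 1) = blkEven u O V σ n * (u + (σ n) ^ 2 • V)
          + u ^ n * ((σ n) ^ 2 • V) + (blkOdd u O V σ n + blkLin u O σ n) * (σ n • O) := by
        simp only [blkEven, blkOdd, blk, Pi.neg_apply, neg_smul, neg_sq, pow_succ, smul_add,
          smul_sub, add_mul, mul_add, sub_mul, smul_mul_assoc, mul_smul_comm, mul_neg]
        module
      have t1 := hS.mul hun hu (mul_nonneg hC hδ) hX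
      have t2 := hcV.mulLeft hun hu
      have t3 := (hD.add hL).mul hun hu (by positivity) hY
      rw [key, pow_succ]
      refine ((t1.add t2).add t3).mono (hun.mul hu).1 ?_ ?_
      · nlinarith [mul_nonneg hC hδ, mul_le_mul_of_nonneg_left hδ1 (mul_nonneg hC (sq_nonneg α))]
      · nlinarith [mul_nonneg hC hε0, mul_le_mul_of_nonneg_left hε (mul_nonneg hC hε0),
          mul_le_mul_of_nonneg_left hδ1 (mul_nonneg hC hε0),
          mul_le_mul_of_nonneg_left hα' (mul_nonneg hC hε0),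
          mul_le_mul_of_nonneg_left hγ' (mul_nonneg hC hε0),
          mul_nonneg (mul_nonneg hC hε0) hα, mul_nonneg (mul_nonneg hC hε0) hδ,
          mul_le_mul_of_nonneg_left hδ1 (mul_nonneg (mul_nonneg hC hε0) hα)]
    · have key : blkOdd u O V σ (n + 1) = blkOdd u O V σ n * (u + (σ n) ^ 2 • V)
          + blkLin u O σ n * ((σ n) ^ 2 • V) + blkEven u O V σ n * (σ n • O) := by
        simp only [blkEven, blkOdd, blk, blkLin, Pi.neg_apply, neg_smul, neg_sq, smul_add,
          smul_sub, add_mul, mul_add, sub_mul, smul_mul_assoc, mul_smul_comm, mul_neg]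
        module
      have t1 := hD.mul hun hu (mul_nonneg hC hαδ) hX
      have t2 := hL.mul hun hu (mul_nonneg hC hα) hcV
      have t3 := hS.mul hun hu (mul_nonneg hC hδ) hY
      rw [key, pow_succ]
      refine ((t1.add t2).add t3).mono (hun.mul hu).1 ?_ ?_
      · have hγδ : γ ≤ δ := by rw [hδdef]; nlinarith
        nlinarith [mul_nonneg hC hαδ, mul_le_mul_of_nonneg_left hγδ (mul_nonneg hC hα),
          mul_le_mul_of_nonneg_left hγ' (mul_nonneg hC hαδ)]
      · nlinarith [mul_nonneg hC hε0, mul_le_mul_of_nonneg_left hε (mul_nonneg hC hε0),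
          mul_le_mul_of_nonneg_left hδ1 (mul_nonneg hC hε0),
          mul_le_mul_of_nonneg_left hα' (mul_nonneg hC hε0),
          mul_le_mul_of_nonneg_left hγ' (mul_nonneg hC hε0),
          mul_nonneg (mul_nonneg hC hε0) hα, mul_nonneg (mul_nonneg hC hε0) hδ,
          mul_le_mul_of_nonneg_left hδ1 (mul_nonneg (mul_nonneg hC hε0) hα)]
    · rw [blkLin, pow_succ]
      refine ((hL.mulRight hu hun (mul_nonneg hC hα)).add (hY.mulLeft hun hu)).mono (hun.mul hu).1
        ?_ ?_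
      · nlinarith [mul_nonneg hC hα]
      · nlinarith [mul_nonneg hC hε0]

end Vale.Agent.P321
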