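import Vale.Agent.P321.Alg

/-!
Concentration statements in the monoid algebra: products of nearly equal slots, and averages of
translates of centred windows. Everything is computed on the finite space of slot values, where the
law is a product, and pushed to the monoid by multiplication.
-/

namespace Vale.Agent.P321

open MonoidAlgebra Finset

variable {G : Type*} [Monoid G]

/-- The unit mass at a point. -/
noncomputable abbrev dirac (g : G) : MonoidAlgebra ℝ G := single g 1

/-- A weighted sum of point masses is dominated by the total weights, up to the bad points. -/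
lemma dom_of_weights {Ω : Type*} (s : Finset Ω) (φ : Ω → G) (p u : Ω → ℝ) {θ : ℝ} (hθ : 0 ≤ θ)
    (hp : ∀ x ∈ s, 0 ≤ p x) (b : Ω → ℝ) (hb0 : ∀ x ∈ s, 0 ≤ b x)
    (hb : ∀ x ∈ s, θ < |u x| → |u x| ≤ b x) :
    Dom (∑ x ∈ s, (p x * u x) • dirac (φ x)) (∑ x ∈ s, p x • dirac (φ x)) θ
      (∑ x ∈ s, p x * b x) := by
  classical
  refine ⟨∑ x ∈ s, (if θ < |u x| then 0 else p x * u x) • dirac (φ x), fun g => ?_, ?_⟩
  · simp only [coeff_sum, coeff_smul, Finsupp.finsetSum_apply, Finsupp.smul_apply, smul_eq_mul,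
      mul_sum, coeff_single, Finsupp.single_apply]
    refine (abs_sum_le_sum_abs _ _).trans (sum_le_sum fun x hx => ?_)
    split_ifs with h1 h2
    · simpa using mul_nonneg hθ (hp x hx)
    · simp
    · rw [mul_one, mul_one, abs_mul, abs_of_nonneg (hp x hx), mul_comm θ]
      exact mul_le_mul_of_nonneg_left (not_lt.1 h1) (hp x hx)
    · simp
  · rw [← sum_sub_distrib]
    refine (nrm_sum_le _ _).trans (sum_le_sum fun x hx => ?_)
    rw [← sub_smul, nrm_smul, nrm_eq_mass (absLE_single _ zero_le_one), mass_single, mul_one]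
    split_ifs with h
    · rw [sub_zero, abs_mul, abs_of_nonneg (hp x hx)]
      exact mul_le_mul_of_nonneg_left (hb x hx h) (hp x hx)
    · simpa using mul_nonneg (hp x hx) (hb0 x hx)

/-- Multiplying by probabilities on both sides keeps domination. -/
lemma Dom.sandwich {D R A B : MonoidAlgebra ℝ G} {θ ε : ℝ} (hA : IsProb A) (hB : IsProb B)
    (h : Dom D R θ ε) : Dom (A * D * B) (A * R * B) θ ε := by
  obtain ⟨D₁, hD, he⟩ := h
  refine ⟨A * D₁ * B, ?_, ?_⟩
  · have := (hA.1.mul hD).mul hB.1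
    rwa [mul_smul_comm, smul_mul_assoc] at this
  · rw [← sub_mul, ← mul_sub]
    refine (nrm_mul_le _ _).trans ((mul_le_mul_of_nonneg_right (nrm_mul_le _ _) (nrm_nonneg _)).trans ?_)
    rwa [hA.nrm_eq, hB.nrm_eq, one_mul, mul_one]

lemma eq_sum_dirac (A : MonoidAlgebra ℝ G) {s : Finset G} (hs : A.coeff.support ⊆ s) :
    A = ∑ x ∈ s, A.coeff x • dirac x := by
  classical
  refine coeff_injective (Finsupp.ext fun y => ?_)
  simp only [coeff_sum, coeff_smul, Finsupp.finsetSum_apply, Finsupp.smul_apply, coeff_single,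
    Finsupp.single_apply, smul_eq_mul, mul_ite, mul_one, mul_zero, sum_ite_eq']
  split_ifs with h
  · rfl
  · exact Finsupp.notMem_support_iff.1 fun h' => h (hs h')

/-- Expansion of an ordered product over the tuples of slot values. -/
lemma prod_expand : ∀ {n : ℕ} (A : Fin n → MonoidAlgebra ℝ G) (S : Fin n → Finset G),
    (∀ i, (A i).coeff.support ⊆ S i) →
    (List.ofFn A).prod =
      ∑ x ∈ Fintype.piFinset S, (∏ i, (A i).coeff (x i)) • dirac (List.ofFn x).prod := by
  classical
  intro n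
  induction n with
  | zero => intro A S _; simp [one_def]
  | succ n ih =>
    intro A S hS
    rw [List.ofFn_succ, List.prod_cons, ih _ (fun i => S i.succ) fun i => hS i.succ]
    conv_lhs => rw [eq_sum_dirac (A 0) (hS 0)]
    rw [sum_mul_sum, ← sum_product']
    refine sum_bij' (fun z _ => Fin.cons z.1 z.2) (fun x _ => (x 0, fun i => x i.succ)) ?_ ?_ ?_ ?_ ?_
    · intro z hz
      simp only [mem_product, Fintype.mem_piFinset] at hz
      exact Fintype.mem_piFinset.2 (Fin.cases (by simpa using hz.1) fun i => by simpa using hz.2 i)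
    · intro x hx
      simp only [Fintype.mem_piFinset] at hx
      simp [mem_product, hx]
    · intro z _; simp
    · intro x _; exact Fin.cons_self_tail x
    · intro z _
      simp [Fin.prod_univ_succ, List.ofFn_succ, single_mul_single, mul_comm]

section Slots

variable {ι : Type*}

/-- The density of `D` relative to `R`. -/
noncomputable def dens (D R : MonoidAlgebra ℝ G) (x : G) : ℝ := D.coeff x / R.coeff x

lemma coeff_eq_dens {D R : MonoidAlgebra ℝ G} {η : ℝ} (h : AbsLE D (η • R)) (x : G) :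
    D.coeff x = R.coeff x * dens D R x := by
  rcases eq_or_ne (R.coeff x) 0 with h0 | h0
  · have := h x
    simp only [coeff_smul, Finsupp.smul_apply, smul_eq_mul, h0, mul_zero, abs_nonpos_iff] at this
    simp [this, h0]
  · rw [dens, mul_div_cancel₀ _ h0]

lemma abs_dens_le {D R : MonoidAlgebra ℝ G} {η : ℝ} (hR : AbsLE R R) (hη : 0 ≤ η)
    (h : AbsLE D (η • R)) (x : G) : |dens D R x| ≤ η := by
  rcases eq_or_ne (R.coeff x) 0 with h0 | h0
  · simp [dens, h0, hη]
  · rw [dens, abs_div, abs_of_nonneg (hR.nonneg x),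
      div_le_iff₀ (lt_of_le_of_ne (hR.nonneg x) (Ne.symm h0))]
    simpa using h x

lemma support_sub_of_absLE {D R : MonoidAlgebra ℝ G} {η : ℝ} (h : AbsLE D (η • R)) :
    D.coeff.support ⊆ R.coeff.support := fun x hx => by
  rw [Finsupp.mem_support_iff] at hx ⊢
  intro h0
  rw [coeff_eq_dens h, h0, zero_mul] at hx
  exact hx rfl

end Slots

/-- Exponential moment of a centred variable bounded by `η`. -/
lemma mgf_le {κ : Type*} (s : Finset κ) (p f : κ → ℝ) {η : ℝ} (hη : 0 < η)
    (hp : ∀ a ∈ s, 0 ≤ p a) (h1 : ∑ a ∈ s, p a = 1) (hm : ∑ a ∈ s, p a * f a = 0)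
    (hf : ∀ a ∈ s, |f a| ≤ η) (c : ℝ) :
    ∑ a ∈ s, p a * Real.exp (c * f a) ≤ Real.exp (c ^ 2 * η ^ 2 / 2) := by
  calc ∑ a ∈ s, p a * Real.exp (c * f a)
      ≤ ∑ a ∈ s, p a * (Real.cosh (c * η) + f a / η * Real.sinh (c * η)) := by
        refine sum_le_sum fun a ha => mul_le_mul_of_nonneg_left ?_ (hp a ha)
        have h := Real.exp_mul_le_cosh_add_mul_sinh (t := f a / η)
          (by rw [abs_div, abs_of_pos hη, div_le_one hη]; exact hf a ha) (c * η)
        rwa [show f a / η * (c * η) = c * f a by field_simp] at h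
    _ = Real.cosh (c * η) * (∑ a ∈ s, p a) +
          Real.sinh (c * η) / η * ∑ a ∈ s, p a * f a := by
        rw [mul_sum, mul_sum, ← sum_add_distrib]
        exact sum_congr rfl fun a _ => by ring
    _ ≤ Real.exp (c ^ 2 * η ^ 2 / 2) := by
        rw [h1, hm, mul_one, mul_zero, add_zero, ← mul_pow]
        exact Real.cosh_le_exp_half_sq _

/-- Exponential moment of a weighted sum over independent slots. -/
lemma mgf_pi {n : ℕ} {κ : Type*} (S : Fin n → Finset κ) (p f : Fin n → κ → ℝ) {η : ℝ} (hη : 0 < η)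
    (hp : ∀ i, ∀ a ∈ S i, 0 ≤ p i a) (h1 : ∀ i, ∑ a ∈ S i, p i a = 1)
    (hm : ∀ i, ∑ a ∈ S i, p i a * f i a = 0) (hf : ∀ i, ∀ a ∈ S i, |f i a| ≤ η) (v : Fin n → ℝ)
    (lam : ℝ) :
    ∑ x ∈ Fintype.piFinset S, (∏ i, p i (x i)) * Real.exp (lam * ∑ i, v i * f i (x i)) ≤
      Real.exp (lam ^ 2 * η ^ 2 * (∑ i, v i ^ 2) / 2) := by
  classical
  calc ∑ x ∈ Fintype.piFinset S, (∏ i, p i (x i)) * Real.exp (lam * ∑ i, v i * f i (x i))
      = ∑ x ∈ Fintype.piFinset S, ∏ i, p i (x i) * Real.exp (lam * v i * f i (x i)) := by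
        refine sum_congr rfl fun x _ => ?_
        rw [mul_sum, Real.exp_sum, ← prod_mul_distrib]
        exact prod_congr rfl fun i _ => by rw [mul_assoc lam]
    _ = ∏ i, ∑ a ∈ S i, p i a * Real.exp (lam * v i * f i a) :=
        (prod_univ_sum S fun i a => p i a * Real.exp (lam * v i * f i a)).symm
    _ ≤ ∏ i, Real.exp ((lam * v i) ^ 2 * η ^ 2 / 2) :=
        prod_le_prod (fun i _ => sum_nonneg fun a ha => mul_nonneg (hp i a ha) (Real.exp_pos _).le)
          fun i _ => mgf_le _ _ _ hη (hp i) (h1 i) (hm i) (hf i) _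
    _ = _ := by
        rw [← Real.exp_sum, mul_sum, sum_div]
        congr 1
        exact sum_congr rfl fun i _ => by ring

/-- Two-sided tail, in the form used below. -/
lemma tail_two {n : ℕ} {κ : Type*} (S : Fin n → Finset κ) (p f : Fin n → κ → ℝ) {η : ℝ}
    (hη : 0 < η) (hp : ∀ i, ∀ a ∈ S i, 0 ≤ p i a) (h1 : ∀ i, ∑ a ∈ S i, p i a = 1)
    (hm : ∀ i, ∑ a ∈ S i, p i a * f i a = 0) (hf : ∀ i, ∀ a ∈ S i, |f i a| ≤ η) (v : Fin n → ℝ)
    {σ : ℝ} (hσ : 0 < σ) (hv : ∑ i, v i ^ 2 ≤ σ) (t : ℝ) :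
    ∑ x ∈ Fintype.piFinset S, (∏ i, p i (x i)) *
        (Real.exp (t / (η ^ 2 * σ) * ((∑ i, v i * f i (x i)) - t)) +
          Real.exp (t / (η ^ 2 * σ) * (-(∑ i, v i * f i (x i)) - t))) ≤
      2 * Real.exp (-(t ^ 2 / (2 * η ^ 2 * σ))) := by
  classical
  set lam := t / (η ^ 2 * σ) with hlam
  have key : ∀ l : ℝ, l ^ 2 = lam ^ 2 →
      ∑ x ∈ Fintype.piFinset S,
        (∏ i, p i (x i)) * Real.exp (l * (∑ i, v i * f i (x i)) - lam * t) ≤
        Real.exp (-(t ^ 2 / (2 * η ^ 2 * σ))) := by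
    intro l hl
    simp_rw [sub_eq_add_neg, Real.exp_add, ← mul_assoc, ← sum_mul]
    refine (mul_le_mul_of_nonneg_right (mgf_pi S p f hη hp h1 hm hf v l) (Real.exp_pos _).le).trans ?_
    rw [← Real.exp_add, Real.exp_le_exp, hl]
    have : lam ^ 2 * η ^ 2 * (∑ i, v i ^ 2) ≤ lam ^ 2 * η ^ 2 * σ := by gcongr
    have e : lam ^ 2 * η ^ 2 * σ / 2 + -(lam * t) = -(t ^ 2 / (2 * η ^ 2 * σ)) := by
      rw [hlam]; field_simp; ring
    linarith
  have a1 := key lam rfl
  have a2 := key (-lam) (by ring)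
  simp_rw [mul_add, sum_add_distrib, mul_sub, mul_neg, ← neg_mul]
  linarith

/-- The exponential is at most the geometric series, below one. -/
lemma exp_le_one_div {z : ℝ} (hz : z < 1) : Real.exp z ≤ 1 / (1 - z) := by
  have h := Real.add_one_le_exp (-z)
  have h' : (1 - z) * Real.exp z ≤ 1 := by
    rw [← le_div_iff₀ (Real.exp_pos z), one_div, ← Real.exp_neg]; linarith
  rw [le_div_iff₀ (by linarith)]; linarith

/-- A product of slots `R i + D i` is within relative `10 t` of `∏ R i` (ordered product), up to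
a sub-Gaussian error. -/
theorem prod_dom {n : ℕ} (R D : Fin n → MonoidAlgebra ℝ G) {η t : ℝ}
    (hR : ∀ i, IsProb (R i)) (hRD : ∀ i, IsProb (R i + D i))
    (hD : ∀ i, AbsLE (D i) (η • R i)) (hm : ∀ i, mass (D i) = 0)
    (hη : 0 < η) (hη1 : η ≤ 1 / 2) (hn : n * η ^ 2 ≤ t) (ht : t ≤ 1 / 4) :
    Dom ((List.ofFn fun i => R i + D i).prod - (List.ofFn R).prod) (List.ofFn R).prod
      (10 * t) (4 * Real.exp (-(t ^ 2 / (4 * n * η ^ 2)))) := by
  classical
  have ht0 : 0 ≤ t := le_trans (by positivity) hn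
  rcases Nat.eq_zero_or_pos n with rfl | hn0
  · simp only [List.ofFn_zero, List.prod_nil, sub_self]
    refine (Dom.of_nrm (D := (0 : MonoidAlgebra ℝ G)) IsProb.one.1).mono IsProb.one.1 (by linarith) ?_
    rw [nrm_zero]; positivity
  set S : Fin n → Finset G := fun i => (R i).coeff.support
  set f : Fin n → G → ℝ := fun i a => dens (D i) (R i) a
  set P : (Fin n → G) → ℝ := fun x => ∏ i, (R i).coeff (x i)
  set L : (Fin n → G) → ℝ := fun x => ∏ i, (1 + f i (x i))
  set Z : (Fin n → G) → ℝ := fun x => ∑ i, f i (x i)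
  have hP : ∀ x, 0 ≤ P x := fun x => prod_nonneg fun i _ => (hR i).1.nonneg _
  have hf : ∀ i a, |f i a| ≤ η := fun i a => abs_dens_le (hR i).1 hη.le (hD i) a
  have hsup : ∀ i, (R i + D i).coeff.support ⊆ S i := fun i => by
    rw [coeff_add]
    exact Finsupp.support_add.trans (union_subset subset_rfl (support_sub_of_absLE (hD i)))
  have e1 : (List.ofFn fun i => R i + D i).prod =
      ∑ x ∈ Fintype.piFinset S, (P x * L x) • dirac (List.ofFn x).prod := by
    rw [prod_expand _ S hsup]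
    refine sum_congr rfl fun x _ => ?_
    congr 1
    rw [← prod_mul_distrib]
    refine prod_congr rfl fun i _ => ?_
    rw [coeff_add, Finsupp.add_apply, coeff_eq_dens (hD i)]
    ring
  have e2 : (List.ofFn R).prod = ∑ x ∈ Fintype.piFinset S, P x • dirac (List.ofFn x).prod :=
    prod_expand _ S fun i => subset_rfl
  rw [e1, e2, ← sum_sub_distrib]
  simp_rw [← sub_smul]
  rw [sum_congr rfl fun x _ => show (P x * L x - P x) • dirac (List.ofFn x).prod =
    (P x * (L x - 1)) • dirac (List.ofFn x).prod by rw [mul_sub, mul_one]]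
  have hnη : 0 < (n : ℝ) * η ^ 2 := by positivity
  set lam := 2 * t / (η ^ 2 * n) with hlam
  have hlam2 : 2 ≤ lam := by
    rw [hlam, le_div_iff₀ (by positivity)]; nlinarith
  -- pointwise bound off the good event
  set b : (Fin n → G) → ℝ := fun x =>
    2 * (Real.exp (lam * (Z x - 2 * t)) + Real.exp (lam * (-Z x - 2 * t))) with hb
  refine (dom_of_weights _ _ P (fun x => L x - 1) (θ := 10 * t) (by linarith) (fun x _ => hP x) b
    (fun x _ => by simp only [hb]; positivity) ?_).mono ?_ le_rfl ?_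
  · intro x _ hbad
    have hL0 : 0 ≤ L x := prod_nonneg fun i _ => by linarith [(abs_le.1 (hf i (x i))).1]
    have hLe : L x ≤ Real.exp (Z x) := by
      rw [Real.exp_sum]
      exact prod_le_prod (fun i _ => by linarith [(abs_le.1 (hf i (x i))).1])
        fun i _ => by linarith [Real.add_one_le_exp (f i (x i))]
    have hLg : Real.exp (Z x - 2 * t) ≤ L x := by
      calc Real.exp (Z x - 2 * t) ≤ Real.exp (∑ i, (f i (x i) - 2 * η ^ 2)) := by
            rw [Real.exp_le_exp, sum_sub_distrib, sum_const, card_univ, Fintype.card_fin,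
              nsmul_eq_mul]
            simp only [Z]; nlinarith
        _ = ∏ i, Real.exp (f i (x i) - 2 * η ^ 2) := Real.exp_sum _ _
        _ ≤ L x := prod_le_prod (fun i _ => (Real.exp_pos _).le) fun i _ => by
            set y := f i (x i)
            obtain ⟨hy1, hy2⟩ := abs_le.1 (hf i (x i))
            have hsq : y ^ 2 ≤ η ^ 2 := sq_le_sq' hy1 hy2
            have hpos : 0 < 1 - (y - 2 * y ^ 2) := by nlinarith
            calc Real.exp (y - 2 * η ^ 2) ≤ Real.exp (y - 2 * y ^ 2) := by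
                  rw [Real.exp_le_exp]; linarith
              _ ≤ 1 / (1 - (y - 2 * y ^ 2)) :=
                  exp_le_one_div (by linarith)
              _ ≤ 1 + y := by
                  rw [div_le_iff₀ hpos]
                  nlinarith [mul_nonneg (sq_nonneg y) (show (0 : ℝ) ≤ 1 + 2 * y by linarith)]
    rcases le_or_gt (Z x) (2 * t) with hZ | hZ
    · rcases le_or_gt (-(2 * t)) (Z x) with hZ' | hZ'
      · exfalso
        have u1 : Real.exp (Z x) ≤ 1 + 4 * t := by
          refine (Real.exp_le_exp.2 hZ).trans ?_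
          refine (exp_le_one_div (z := 2 * t) (by linarith)).trans ?_
          rw [div_le_iff₀ (by linarith)]; nlinarith
        have u2 : 1 - 4 * t ≤ Real.exp (Z x - 2 * t) := by
          linarith [Real.add_one_le_exp (Z x - 2 * t)]
        have := abs_sub_le_iff.2 ⟨(show L x - 1 ≤ 4 * t by linarith), (show 1 - L x ≤ 4 * t by linarith)⟩
        linarith
      · simp only [hb]
        have h1 : L x ≤ 1 := hLe.trans (Real.exp_le_one_iff.2 (by linarith))
        have h2 : 1 ≤ Real.exp (lam * (-Z x - 2 * t)) := Real.one_le_exp (by nlinarith)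
        have h3 := Real.exp_pos (lam * (Z x - 2 * t))
        rw [abs_sub_le_iff]; constructor <;> linarith
    · simp only [hb]
      have h2 : 1 ≤ Real.exp (lam * (Z x - 2 * t)) := Real.one_le_exp (by nlinarith)
      have h3 : L x ≤ 2 * Real.exp (lam * (Z x - 2 * t)) := by
        refine hLe.trans ?_
        calc Real.exp (Z x) = Real.exp (2 * t) * Real.exp (Z x - 2 * t) := by
              rw [← Real.exp_add]; congr 1; ring
          _ ≤ 2 * Real.exp (lam * (Z x - 2 * t)) := by
              refine mul_le_mul ?_ (Real.exp_le_exp.2 (by nlinarith)) (Real.exp_pos _).le (by norm_num)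
              refine (Real.exp_le_exp.2 (show 2 * t ≤ 1 / 2 by linarith)).trans ?_
              refine (exp_le_one_div (z := (1 : ℝ) / 2) (by norm_num)).trans ?_
              norm_num
      have h4 := Real.exp_pos (lam * (-Z x - 2 * t))
      rw [abs_sub_le_iff]; constructor <;> linarith
  · rw [← e2]
    exact (List.prod_induction (fun A => IsProb A) (fun _ _ => IsProb.mul) IsProb.one (fun A hA => by
      obtain ⟨i, rfl⟩ := List.mem_ofFn.1 hA; exact hR i)).1
  · have h := tail_two S (fun i a => (R i).coeff a) f hη (fun i a _ => (hR i).1.nonneg a)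
      (fun i => by rw [← mass_eq (R i) subset_rfl, (hR i).2])
      (fun i => by
        rw [← hm i, mass_eq (D i) (support_sub_of_absLE (hD i))]
        exact sum_congr rfl fun a _ => (coeff_eq_dens (hD i) a).symm)
      (fun i a _ => hf i a) (fun _ => 1) (σ := n) (by positivity) (by simp) (2 * t)
    simp only [one_mul] at h
    calc ∑ x ∈ Fintype.piFinset S, P x * b x
        = 2 * ∑ x ∈ Fintype.piFinset S, P x *
            (Real.exp (lam * (Z x - 2 * t)) + Real.exp (lam * (-Z x - 2 * t))) := by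
          rw [mul_sum]; exact sum_congr rfl fun x _ => by simp only [hb]; ring
      _ ≤ 2 * (2 * Real.exp (-((2 * t) ^ 2 / (2 * η ^ 2 * n)))) :=
          mul_le_mul_of_nonneg_left h (by norm_num)
      _ ≤ 4 * Real.exp (-(t ^ 2 / (4 * n * η ^ 2))) := by
          have : t ^ 2 / (4 * n * η ^ 2) ≤ (2 * t) ^ 2 / (2 * η ^ 2 * n) := by
            rw [div_le_div_iff₀ (by positivity) (by positivity)]
            nlinarith [mul_nonneg (sq_nonneg t) hnη.le]
          have := Real.exp_le_exp.2 (neg_le_neg this)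
          linarith

/-- The mass-zero averaged translates are dominated, on any finite slot space. -/
lemma smear_core {κ Γ : Type*} {N : ℕ} (S : Finset κ) (p f : κ → ℝ) {η : ℝ} (hη : 0 < η)
    (hp : ∀ a ∈ S, 0 ≤ p a) (h1 : ∑ a ∈ S, p a = 1) (hm : ∑ a ∈ S, p a * f a = 0)
    (hf : ∀ a ∈ S, |f a| ≤ η) (C : Finset Γ) (q : Γ → ℝ) (hq : ∀ c ∈ C, 0 ≤ q c)
    (hq1 : ∑ c ∈ C, q c = 1) (φ : Γ × (Fin N → κ) → G) (v : Fin N → ℝ) {σ t : ℝ} (hσ : 0 < σ)
    (hv : ∑ i, v i ^ 2 ≤ σ) (ht : 0 < t) :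
    Dom (∑ z ∈ C ×ˢ Fintype.piFinset fun _ => S,
        (q z.1 * (∏ i, p (z.2 i)) * ∑ i, v i * f (z.2 i)) • dirac (φ z))
      (∑ z ∈ C ×ˢ Fintype.piFinset fun _ => S, (q z.1 * ∏ i, p (z.2 i)) • dirac (φ z)) t
      (2 * (η * ∑ i, |v i|) * Real.exp (-(t ^ 2 / (2 * η ^ 2 * σ)))) := by
  classical
  set M := η * ∑ i, |v i| with hM
  have hM0 : 0 ≤ M := mul_nonneg hη.le (sum_nonneg fun i _ => abs_nonneg _)
  set lam := t / (η ^ 2 * σ) with hlam
  have hl : 0 ≤ lam := by positivity
  set b : Γ × (Fin N → κ) → ℝ := fun z => M *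
    (Real.exp (lam * ((∑ i, v i * f (z.2 i)) - t)) +
      Real.exp (lam * (-(∑ i, v i * f (z.2 i)) - t))) with hb
  have hp' : ∀ z ∈ C ×ˢ Fintype.piFinset (fun _ : Fin N => S),
      0 ≤ q z.1 * ∏ i, p (z.2 i) := by
    intro z hz
    simp only [mem_product, Fintype.mem_piFinset] at hz
    exact mul_nonneg (hq _ hz.1) (prod_nonneg fun i _ => hp _ (hz.2 i))
  have h := dom_of_weights (θ := t) _ φ _ (fun z => ∑ i, v i * f (z.2 i)) ht.le hp' b
    (fun z _ => by simp only [hb]; positivity) (fun z hz hbad => ?_)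
  · refine h.mono (fun g => ?_) le_rfl (le_of_eq_of_le (b := M * ∑ x ∈ Fintype.piFinset (fun _ : Fin N => S),
      (∏ i, p (x i)) * (Real.exp (lam * ((∑ i, v i * f (x i)) - t)) +
        Real.exp (lam * (-(∑ i, v i * f (x i)) - t)))) ?_ ?_)
    · rw [abs_of_nonneg]
      simp only [coeff_sum, coeff_smul, Finsupp.finsetSum_apply, Finsupp.smul_apply, smul_eq_mul,
        coeff_single, Finsupp.single_apply]
      exact sum_nonneg fun z hz => mul_nonneg (hp' z hz) (by split_ifs <;> norm_num)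
    · simp only [hb, sum_product, mul_assoc, ← mul_sum]
      rw [← sum_mul, hq1, one_mul, mul_sum]
      exact sum_congr rfl fun x _ => mul_left_comm _ _ _
    · refine (mul_le_mul_of_nonneg_left (tail_two (fun _ => S) (fun _ => p) (fun _ => f) hη
        (fun _ => hp) (fun _ => h1) (fun _ => hm) (fun _ => hf) v hσ hv t) hM0).trans_eq ?_
      ring
  · simp only [mem_product, Fintype.mem_piFinset] at hz
    have hZ : |∑ i, v i * f (z.2 i)| ≤ M := by
      rw [hM, mul_sum]
      refine (abs_sum_le_sum_abs _ _).trans (sum_le_sum fun i _ => ?_)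
      rw [abs_mul, mul_comm η]
      exact mul_le_mul_of_nonneg_left (hf _ (hz.2 i)) (abs_nonneg _)
    simp only [hb]
    refine hZ.trans (le_mul_of_one_le_right hM0 ?_)
    rcases lt_abs.1 hbad with h | h
    · linarith [Real.one_le_exp (show 0 ≤ lam * ((∑ i, v i * f (z.2 i)) - t) by nlinarith),
        Real.exp_pos (lam * (-(∑ i, v i * f (z.2 i)) - t))]
    · linarith [Real.one_le_exp (show 0 ≤ lam * (-(∑ i, v i * f (z.2 i)) - t) by nlinarith),
        Real.exp_pos (lam * ((∑ i, v i * f (z.2 i)) - t))]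

/-- The product of constant slots, with one of them changed. -/
lemma prod_update {N : ℕ} (A B : MonoidAlgebra ℝ G) (r : Fin N) :
    (List.ofFn (Function.update (fun _ : Fin N => A) r B)).prod =
      A ^ (r : ℕ) * B * A ^ (N - r - 1) := by
  induction N with
  | zero => exact r.elim0
  | succ N ih =>
    rw [List.ofFn_succ, List.prod_cons]
    cases r using Fin.cases with
    | zero =>
      rw [Function.update_self]
      have : (fun i : Fin N => Function.update (fun _ => A) 0 B i.succ) = fun _ => A := by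
        funext i; simp [Fin.succ_ne_zero]
      rw [this]; simp [List.prod_replicate]
    | succ r =>
      have : (fun i : Fin N => Function.update (fun _ => A) r.succ B i.succ) =
          Function.update (fun _ => A) r B := by
        funext i
        simp [Function.update_apply, Fin.succ_inj]
      rw [this, ih, Function.update_of_ne (Fin.succ_ne_zero r).symm]
      simp [pow_succ', mul_assoc, Nat.add_sub_add_right]

/-- Slot expansion with one changed slot. -/
lemma expand_one {N : ℕ} {R D : MonoidAlgebra ℝ G} {η : ℝ} (hD : AbsLE D (η • R)) (r : Fin N) :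
    (List.ofFn (Function.update (fun _ : Fin N => R) r D)).prod =
      ∑ x ∈ Fintype.piFinset fun _ => R.coeff.support,
        ((∏ i, R.coeff (x i)) * dens D R (x r)) • dirac (List.ofFn x).prod := by
  classical
  rw [prod_expand _ (fun _ => R.coeff.support) fun i => ?_]
  · refine sum_congr rfl fun x _ => ?_
    congr 1
    have e : ∀ i, (Function.update (fun _ : Fin N => R) r D i).coeff (x i) =
        R.coeff (x i) * if i = r then dens D R (x r) else 1 := by
      intro i
      rcases eq_or_ne i r with rfl | h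
      · rw [Function.update_self, if_pos rfl, coeff_eq_dens hD]
      · rw [Function.update_of_ne h, if_neg h, mul_one]
    simp only [e, prod_mul_distrib, prod_ite_eq', mem_univ, if_true]
  · rcases eq_or_ne i r with rfl | h
    · rw [Function.update_self]; exact support_sub_of_absLE hD
    · rw [Function.update_of_ne h]

/-- A slot of length `Δ` containing a window of length `w`. -/
lemma slot_dens {W h : MonoidAlgebra ℝ G} (hW : IsProb W) {w Δ : ℕ} {η : ℝ} (hη : 0 ≤ η)
    (hh : AbsLE h (η • W ^ w)) (hm : mass h = 0) (hΔ : w ≤ Δ) :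
    AbsLE (h * W ^ (Δ - w)) (η • W ^ Δ) ∧
      (∀ a, |dens (h * W ^ (Δ - w)) (W ^ Δ) a| ≤ η) ∧
      ∑ a ∈ (W ^ Δ).coeff.support, (W ^ Δ).coeff a * dens (h * W ^ (Δ - w)) (W ^ Δ) a = 0 := by
  have h1 : AbsLE (h * W ^ (Δ - w)) (η • W ^ Δ) := by
    have := hh.mul (hW.pow (Δ - w)).1
    rwa [smul_mul_assoc, ← pow_add, Nat.add_sub_cancel' hΔ] at this
  refine ⟨h1, abs_dens_le (hW.pow Δ).1 hη h1, ?_⟩
  rw [sum_congr rfl fun a _ => (coeff_eq_dens h1 a).symm, ← mass_eq _ (support_sub_of_absLE h1),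
    map_mul, hm, zero_mul]

/-- Averaged translates of one centred window. -/
theorem smear_one_dom {W h : MonoidAlgebra ℝ G} (hW : IsProb W) {w : ℕ} {η : ℝ}
    (hh : AbsLE h (η • W ^ w)) (hm : mass h = 0) (hη : 0 < η)
    {X Y N Δ : ℕ} (hΔ : w ≤ Δ) (v : ℕ → ℝ) {σ t : ℝ} (hσ : 0 < σ)
    (hv : ∑ r ∈ range N, v r ^ 2 ≤ σ) (ht : 0 < t) :
    Dom (∑ r ∈ range N, v r • (W ^ (X + r * Δ) * h * W ^ (Y + (N - r) * Δ)))
      (W ^ (X + N * Δ + w + Y)) t
      (2 * (η * ∑ r ∈ range N, |v r|) * Real.exp (-(t ^ 2 / (2 * η ^ 2 * σ)))) := by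
  classical
  obtain ⟨hD, hf, hz⟩ := slot_dens hW hη.le hh hm hΔ
  set R := W ^ Δ
  set D := h * W ^ (Δ - w)
  have hR : IsProb R := hW.pow Δ
  have hmid : Dom (∑ r : Fin N, v r • (List.ofFn (Function.update (fun _ : Fin N => R) r D)).prod)
      (R ^ N) t (2 * (η * ∑ r : Fin N, |v r|) * Real.exp (-(t ^ 2 / (2 * η ^ 2 * σ)))) := by
    have h := smear_core (G := G) (N := N) R.coeff.support (fun a => R.coeff a) (dens D R) hη
      (fun a _ => hR.1.nonneg a) (by rw [← mass_eq R subset_rfl, hR.2]) hz (fun a _ => hf a)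
      ({()} : Finset Unit) (fun _ => 1) (by simp) (by simp) (fun z => (List.ofFn z.2).prod)
      (fun r => v r) hσ (by rw [Fin.sum_univ_eq_sum_range (fun r => v r ^ 2)]; exact hv) ht
    simp only [sum_product, sum_singleton, one_mul] at h
    have e0 : R ^ N = ∑ x ∈ Fintype.piFinset fun _ : Fin N => R.coeff.support,
        (∏ i, R.coeff (x i)) • dirac (List.ofFn x).prod := by
      have := prod_expand (fun _ : Fin N => R) (fun _ => R.coeff.support) fun i => subset_rfl
      rwa [List.ofFn_const, List.prod_replicate] at this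
    rw [e0]
    convert h using 1
    simp_rw [expand_one hD, smul_sum, smul_smul]
    rw [sum_comm]
    refine sum_congr rfl fun x _ => ?_
    rw [← sum_smul, mul_sum]
    congr 1
    exact sum_congr rfl fun r _ => by ring
  have := hmid.sandwich (hW.pow X) (hW.pow (Y + w))
  rw [show W ^ X * R ^ N * W ^ (Y + w) = W ^ (X + N * Δ + w + Y) by
    rw [show R ^ N = W ^ (N * Δ) by rw [← pow_mul, mul_comm], ← pow_add, ← pow_add]; congr 1; omega] at this
  rw [Fin.sum_univ_eq_sum_range (fun r => |v r|)] at this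
  convert this using 1
  rw [mul_sum, sum_mul, ← Fin.sum_univ_eq_sum_range]
  refine sum_congr rfl fun r _ => ?_
  rw [mul_smul_comm, smul_mul_assoc, prod_update]
  congr 1
  obtain ⟨d, hd⟩ : ∃ d, N = r + 1 + d := ⟨N - (r + 1), by omega⟩
  simp only [R, D, ← pow_mul]
  rw [show N - r - 1 = d by omega, show N - (r : ℕ) = d + 1 by omega,
    show Y + (d + 1) * Δ = (Δ - w) + Δ * d + (Y + w) by rw [add_mul, one_mul, mul_comm d]; omega,
    mul_comm (r : ℕ) Δ, pow_add, pow_add, pow_add]
  simp only [mul_assoc]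

/-- Averaged joint translates of two centred windows. -/
theorem smear_two_dom {W h₁ h₂ : MonoidAlgebra ℝ G} (hW : IsProb W) {w₁ w₂ : ℕ} {η₁ η₂ : ℝ}
    (hh₁ : AbsLE h₁ (η₁ • W ^ w₁)) (hm₁ : mass h₁ = 0) (hη₁ : 0 < η₁)
    (hh₂ : AbsLE h₂ (η₂ • W ^ w₂)) (hm₂ : mass h₂ = 0) (hη₂ : 0 < η₂)
    {X Γ Y N Δ : ℕ} (hΔ₁ : w₁ ≤ Δ) (hΔ₂ : w₂ ≤ Δ) (hΓ : N * Δ ≤ Γ) (v : ℕ → ℝ) {σ t : ℝ}
    (hσ : 0 < σ) (hv : ∑ r ∈ range N, v r ^ 2 ≤ σ) (ht : 0 < t) :
    Dom (∑ r ∈ range N,
        v r • (W ^ (X + r * Δ) * h₁ * W ^ Γ * h₂ * W ^ (Y + (N - r) * Δ)))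
      (W ^ (X + N * Δ + w₁ + Γ + w₂ + Y)) t
      (2 * (η₁ * η₂ * ∑ r ∈ range N, |v r|) *
        Real.exp (-(t ^ 2 / (2 * η₁ ^ 2 * η₂ ^ 2 * σ)))) := by
  classical
  obtain ⟨hD₁, hf₁, hz₁⟩ := slot_dens hW hη₁.le hh₁ hm₁ hΔ₁
  obtain ⟨hD₂, hf₂, hz₂⟩ := slot_dens hW hη₂.le hh₂ hm₂ hΔ₂
  set R := W ^ Δ
  set D₁ := h₁ * W ^ (Δ - w₁)
  set D₂ := h₂ * W ^ (Δ - w₂)
  have hR : IsProb R := hW.pow Δ
  set Q := W ^ (w₁ + Γ - N * Δ)
  have hQ : IsProb Q := hW.pow _
  set S := R.coeff.support
  have hS1 : ∑ a ∈ S, R.coeff a = 1 := by rw [← mass_eq R subset_rfl, hR.2]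
  -- the middle word, as a sum over the gap and the pairs of slot values
  have mid : ∀ (A B : (Fin N → G) → ℝ),
      (∑ x ∈ Fintype.piFinset (fun _ : Fin N => S), A x • dirac (List.ofFn x).prod) * Q *
        (∑ y ∈ Fintype.piFinset (fun _ : Fin N => S), B y • dirac (List.ofFn y).prod) =
      ∑ z ∈ Q.coeff.support ×ˢ Fintype.piFinset (fun _ : Fin N => S ×ˢ S),
        (Q.coeff z.1 * (A fun i => (z.2 i).1) * B fun i => (z.2 i).2) •
          dirac ((List.ofFn fun i => (z.2 i).1).prod * z.1 * (List.ofFn fun i => (z.2 i).2).prod) := by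
    intro A B
    conv_lhs => rw [eq_sum_dirac Q (s := Q.coeff.support) subset_rfl]
    simp only [sum_mul, mul_sum]
    simp only [← sum_product']
    refine sum_bij' (fun z _ => (z.2.1, fun i => (z.2.2 i, z.1 i)))
      (fun z _ => (fun i => (z.2 i).2, z.1, fun i => (z.2 i).1)) ?_ ?_ ?_ ?_ ?_
    · intro z hz
      simp only [mem_product, Fintype.mem_piFinset] at hz ⊢
      exact ⟨hz.2.1, fun i => ⟨hz.2.2 i, hz.1 i⟩⟩
    · intro z hz
      simp only [mem_product, Fintype.mem_piFinset] at hz ⊢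
      exact ⟨fun i => (hz.2 i).2, hz.1, fun i => (hz.2 i).1⟩
    · intro z _; rfl
    · intro z _; rfl
    · intro z _
      simp only [smul_mul_smul_comm, single_mul_single, one_mul]
      congr 1
      ring
  have hmid : Dom (∑ r : Fin N, v r •
        ((List.ofFn (Function.update (fun _ : Fin N => R) r D₁)).prod * Q *
          (List.ofFn (Function.update (fun _ : Fin N => R) r D₂)).prod))
      (R ^ N * Q * R ^ N) t
      (2 * (η₁ * η₂ * ∑ r : Fin N, |v r|) *
        Real.exp (-(t ^ 2 / (2 * η₁ ^ 2 * η₂ ^ 2 * σ)))) := by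
    have h := smear_core (G := G) (N := N) (S ×ˢ S) (fun a => R.coeff a.1 * R.coeff a.2)
      (fun a => dens D₁ R a.1 * dens D₂ R a.2) (η := η₁ * η₂) (by positivity)
      (fun a _ => mul_nonneg (hR.1.nonneg _) (hR.1.nonneg _))
      (by simp only [sum_product, ← mul_sum, hS1, mul_one])
      (by
        simp only [sum_product, mul_mul_mul_comm (R.coeff _), ← mul_sum, ← sum_mul]
        rw [hz₁, zero_mul])
      (fun a _ => by
        rw [abs_mul]
        exact mul_le_mul (hf₁ _) (hf₂ _) (abs_nonneg _) hη₁.le)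
      Q.coeff.support (fun c => Q.coeff c) (fun c _ => hQ.1.nonneg c)
      (by rw [← mass_eq Q subset_rfl, hQ.2])
      (fun z => (List.ofFn fun i => (z.2 i).1).prod * z.1 * (List.ofFn fun i => (z.2 i).2).prod)
      (fun r => v r) hσ (by rw [Fin.sum_univ_eq_sum_range (fun r => v r ^ 2)]; exact hv) ht
    have e0 : R ^ N = ∑ x ∈ Fintype.piFinset (fun _ : Fin N => S),
        (∏ i, R.coeff (x i)) • dirac (List.ofFn x).prod := by
      have := prod_expand (fun _ : Fin N => R) (fun _ => S) fun i => subset_rfl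
      rwa [List.ofFn_const, List.prod_replicate] at this
    rw [e0, mid]
    convert h using 1
    · conv_lhs =>
        enter [2, r]
        rw [expand_one hD₁ r, expand_one hD₂ r, mid, smul_sum]
      simp_rw [smul_smul]
      rw [sum_comm]
      refine sum_congr rfl fun z _ => ?_
      rw [← sum_smul, mul_sum, prod_mul_distrib]
      congr 1
      exact sum_congr rfl fun r _ => by ring
    · refine sum_congr rfl fun z _ => ?_
      rw [prod_mul_distrib, mul_assoc]
    · ring_nf
  have := hmid.sandwich (hW.pow X) (hW.pow (Y + w₂))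
  rw [show W ^ X * (R ^ N * Q * R ^ N) * W ^ (Y + w₂) = W ^ (X + N * Δ + w₁ + Γ + w₂ + Y) by
    simp only [Q, R, ← pow_mul, ← pow_add]; congr 1; rw [mul_comm Δ N]; omega] at this
  rw [Fin.sum_univ_eq_sum_range (fun r => |v r|)] at this
  convert this using 1
  rw [mul_sum, sum_mul, ← Fin.sum_univ_eq_sum_range]
  refine sum_congr rfl fun r _ => ?_
  rw [mul_smul_comm, smul_mul_assoc, prod_update, prod_update]
  congr 1
  obtain ⟨d, hd⟩ : ∃ d, N = r + 1 + d := ⟨N - (r + 1), by omega⟩
  have hNΔ : N * Δ = Δ * r + Δ + Δ * d := by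
    calc N * Δ = ((r : ℕ) + 1 + d) * Δ := congrArg (· * Δ) hd
      _ = _ := by ring
  simp only [R, D₁, D₂, Q, ← pow_mul]
  rw [show N - r - 1 = d by omega, show N - (r : ℕ) = d + 1 by omega,
    show X + (r : ℕ) * Δ = X + Δ * r by rw [mul_comm],
    show Γ = (Δ - w₁) + Δ * d + ((w₁ + Γ - N * Δ) + Δ * r) by omega,
    show Y + (d + 1) * Δ = (Δ - w₂) + Δ * d + (Y + w₂) by rw [add_mul, one_mul, mul_comm d]; omega]
  simp only [pow_add, mul_assoc]
  rw [show (Δ - w₁) + Δ * d + (w₁ + Γ - N * Δ + Δ * r) = Γ by omega]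

end Vale.Agent.P321
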