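import Vale.Agent.P321.Alg

/-!
Averaging kernels with vanishing moments, and finite differences of translates.
-/

namespace Vale.Agent.P321

open MonoidAlgebra Finset

variable {G : Type*} [Monoid G]

/-- Forward difference. -/
def fdiff {A : Type*} [AddCommGroup A] (T : ℕ → A) : ℕ → A := fun i => T (i + 1) - T i

lemma fdiff_iterate_succ {A : Type*} [AddCommGroup A] (T : ℕ → A) (k j : ℕ) :
    (fdiff^[k + 1] T) j = (fdiff^[k] T) (j + 1) - (fdiff^[k] T) j := by
  rw [Function.iterate_succ_apply']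
  rfl

/-- The `k`-fold commutator with `W ^ s`. -/
private noncomputable def comm' (W : MonoidAlgebra ℝ G) (s : ℕ) (Z : MonoidAlgebra ℝ G) :
    ℕ → MonoidAlgebra ℝ G
  | 0 => Z
  | k + 1 => (W ^ s - 1) * comm' W s Z k - comm' W s Z k * (W ^ s - 1)

private lemma comm_step {A : Type*} [Ring A] {u m a b c : A} (hm : Commute u m)
    (ha : Commute u a) (hb : Commute u b) :
    (m * a) * (u * c - c * u) * (b * m)
      = (u * m) * (a * c * (b * m)) - ((m * a) * c * b) * (u * m) := by
  rw [mul_sub, sub_mul]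
  refine congrArg₂ (· - ·) ?_ ?_
  · calc (m * a) * (u * c) * (b * m) = m * (a * u) * (c * (b * m)) := by simp only [mul_assoc]
      _ = m * (u * a) * (c * (b * m)) := by rw [ha.eq]
      _ = (m * u) * (a * c * (b * m)) := by simp only [mul_assoc]
      _ = _ := by rw [hm.eq]
  · calc (m * a) * (c * u) * (b * m) = (m * a) * c * (u * b) * m := by simp only [mul_assoc]
      _ = (m * a) * c * (b * u) * m := by rw [hb.eq]
      _ = _ := by simp only [mul_assoc]

/-- The `k`-th difference of translates is small when powers of `W` are smoothed. -/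
theorem nrm_fdiff_translate_le {W Z : MonoidAlgebra ℝ G} (hW : IsProb W) (k s X Y m j : ℕ)
    (hX : k * m ≤ X + s * j) (hY : k * m + s * (j + k) ≤ Y) :
    nrm ((fdiff^[k] fun i => W ^ (X + s * i) * Z * W ^ (Y - s * i)) j)
      ≤ (2 * s * nrm ((W - 1) * W ^ m)) ^ k * nrm Z := by
  have heq : ∀ (k j : ℕ), s * (j + k) ≤ Y →
      (fdiff^[k] fun i => W ^ (X + s * i) * Z * W ^ (Y - s * i)) j
        = W ^ (X + s * j) * comm' W s Z k * W ^ (Y - s * (j + k)) := by
    intro k
    induction k with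
    | zero => intro j _; simp [comm']
    | succ k ih =>
      intro j hj
      have h1 : s * (j + k) + s = s * (j + (k + 1)) := by ring
      rw [fdiff_iterate_succ, ih (j + 1) (by rwa [add_right_comm, add_assoc]), ih j (by omega),
        show X + s * (j + 1) = X + s * j + s by ring, pow_add W (X + s * j) s,
        show j + 1 + k = j + (k + 1) by ring,
        show Y - s * (j + k) = s + (Y - s * (j + (k + 1))) by omega,
        pow_add W s (Y - s * (j + (k + 1))), comm']
      simp only [mul_sub, sub_mul, mul_one, one_mul, mul_assoc]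
      abel
  have hle : ∀ (k a b : ℕ), k * m ≤ a → k * m ≤ b →
      nrm (W ^ a * comm' W s Z k * W ^ b) ≤ (2 * s * nrm ((W - 1) * W ^ m)) ^ k * nrm Z := by
    intro k
    induction k with
    | zero =>
      intro a b _ _
      simp only [comm', pow_zero, one_mul]
      refine (nrm_mul_le _ _).trans ?_
      rw [(hW.pow b).nrm_eq, mul_one]
      refine (nrm_mul_le _ _).trans ?_
      rw [(hW.pow a).nrm_eq, one_mul]
    | succ k ih =>
      intro a b ha hb
      rw [Nat.succ_mul] at ha hb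
      obtain ⟨a', rfl⟩ : ∃ a', a = m + a' := ⟨a - m, by omega⟩
      obtain ⟨b', rfl⟩ : ∃ b', b = b' + m := ⟨b - m, by omega⟩
      have hc : Commute (W ^ s - 1) (W ^ m) :=
        ((Commute.refl W).pow_pow s m).sub_left (Commute.one_left _)
      have hc' : Commute (W ^ s - 1) (W ^ a') :=
        ((Commute.refl W).pow_pow s a').sub_left (Commute.one_left _)
      have hc'' : Commute (W ^ s - 1) (W ^ b') :=
        ((Commute.refl W).pow_pow s b').sub_left (Commute.one_left _)
      have e : W ^ (m + a') * comm' W s Z (k + 1) * W ^ (b' + m)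
          = ((W ^ s - 1) * W ^ m) * (W ^ a' * comm' W s Z k * W ^ (b' + m))
            - (W ^ (m + a') * comm' W s Z k * W ^ b') * ((W ^ s - 1) * W ^ m) := by
        rw [comm', pow_add W m a', pow_add W b' m]
        exact comm_step hc hc' hc''
      rw [e]
      have hs := nrm_pow_sub_one_mul_le (Z := W ^ m) hW s
      have i1 := ih a' (b' + m) (by omega) (by omega)
      have i2 := ih (m + a') b' (by omega) (by omega)
      have hn : 0 ≤ (s : ℝ) * nrm ((W - 1) * W ^ m) :=
        mul_nonneg (Nat.cast_nonneg _) (nrm_nonneg _)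
      refine (nrm_sub_le _ _).trans ?_
      calc _ ≤ (s * nrm ((W - 1) * W ^ m)) * ((2 * s * nrm ((W - 1) * W ^ m)) ^ k * nrm Z)
            + ((2 * s * nrm ((W - 1) * W ^ m)) ^ k * nrm Z) * (s * nrm ((W - 1) * W ^ m)) :=
          add_le_add ((nrm_mul_le _ _).trans (mul_le_mul hs i1 (nrm_nonneg _) hn))
            ((nrm_mul_le _ _).trans (mul_le_mul i2 hs (nrm_nonneg _)
              ((nrm_nonneg _).trans i2)))
        _ = _ := by ring
  rw [heq k j (by omega)]
  exact hle k _ _ hX (by omega)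

/-! ### The shift operator -/

section Shift

open Polynomial

variable {A : Type*} [AddCommGroup A] [Module ℝ A]

/-- The shift of sequences. -/
noncomputable def shiftEnd (A : Type*) [AddCommGroup A] [Module ℝ A] :
    Module.End ℝ (ℕ → A) :=
  LinearMap.funLeft ℝ A (fun i => i + 1)

lemma shiftEnd_pow_apply (T : ℕ → A) : ∀ n j : ℕ, (shiftEnd A ^ n) T j = T (j + n)
  | 0, j => by simp
  | n + 1, j => by
    rw [pow_succ', Module.End.mul_apply, shiftEnd, LinearMap.funLeft_apply, ← shiftEnd,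
      shiftEnd_pow_apply T n, add_right_comm, add_assoc]

lemma aeval_shift_apply (Q : ℝ[X]) {n : ℕ} (hn : Q.natDegree < n) (T : ℕ → A) (j : ℕ) :
    aeval (shiftEnd A) Q T j = ∑ r ∈ range n, Q.coeff r • T (j + r) := by
  rw [aeval_eq_sum_range' hn, LinearMap.sum_apply, Finset.sum_apply]
  simp [shiftEnd_pow_apply]

lemma aeval_X_sub_one_pow (T : ℕ → A) (k : ℕ) :
    aeval (shiftEnd A) ((X - 1) ^ k : ℝ[X]) T = fdiff^[k] T := by
  rw [map_pow, Module.End.pow_apply]
  congr 1
  funext T' j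
  rw [map_sub, aeval_X, map_one, LinearMap.sub_apply, Pi.sub_apply, Module.End.one_apply]
  rfl

end Shift

section Maj

open Polynomial

/-- Coefficientwise majorant. -/
def Maj (F H : ℝ[X]) : Prop := ∀ n, |F.coeff n| ≤ H.coeff n

lemma Maj.self {F H : ℝ[X]} (h : Maj F H) : Maj H H := fun n =>
  (abs_of_nonneg ((abs_nonneg _).trans (h n))).le

lemma maj_one : Maj (1 : ℝ[X]) 1 := fun n => by
  rw [coeff_one]; split <;> simp

lemma maj_X_pow (r : ℕ) : Maj (X ^ r : ℝ[X]) (X ^ r) := fun n => by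
  rw [coeff_X_pow]; split <;> simp

lemma Maj.add {F H F' H' : ℝ[X]} (h : Maj F H) (h' : Maj F' H') : Maj (F + F') (H + H') :=
  fun n => by rw [Polynomial.coeff_add, Polynomial.coeff_add]; exact (abs_add_le _ _).trans (add_le_add (h n) (h' n))

lemma Maj.neg {F H : ℝ[X]} (h : Maj F H) : Maj (-F) H := fun n => by
  rw [Polynomial.coeff_neg, abs_neg]; exact h n

lemma Maj.mul {F H F' H' : ℝ[X]} (h : Maj F H) (h' : Maj F' H') : Maj (F * F') (H * H') :=
  fun n => by
  rw [Polynomial.coeff_mul, Polynomial.coeff_mul]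
  refine (abs_sum_le_sum_abs _ _).trans (sum_le_sum fun x _ => ?_)
  rw [abs_mul]
  exact mul_le_mul (h _) (h' _) (abs_nonneg _) ((abs_nonneg _).trans (h _))

lemma Maj.pow {F H : ℝ[X]} (h : Maj F H) : ∀ i : ℕ, Maj (F ^ i) (H ^ i)
  | 0 => by simpa using maj_one
  | i + 1 => by rw [pow_succ, pow_succ]; exact (h.pow i).mul h

lemma maj_sum {ι : Type*} (s : Finset ι) {F H : ι → ℝ[X]} (h : ∀ i ∈ s, Maj (F i) (H i)) :
    Maj (∑ i ∈ s, F i) (∑ i ∈ s, H i) := fun n => by
  rw [finsetSum_coeff, finsetSum_coeff]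
  exact (abs_sum_le_sum_abs _ _).trans (sum_le_sum fun i hi => h i hi n)

lemma maj_C_mul {c : ℝ} (hc : 0 ≤ c) {F H : ℝ[X]} (h : Maj F H) :
    Maj (Polynomial.C c * F) (Polynomial.C c * H) := fun n => by
  rw [coeff_C_mul, coeff_C_mul, abs_mul, abs_of_nonneg hc]
  exact mul_le_mul_of_nonneg_left (h n) hc

lemma sum_range_coeff_le {H : ℝ[X]} (h : Maj H H) (n : ℕ) :
    ∑ i ∈ range n, H.coeff i ≤ H.eval 1 := by
  rw [eval_eq_sum_range' (n := n + (H.natDegree + 1)) (by omega)]
  simp only [one_pow, mul_one]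
  exact sum_le_sum_of_subset_of_nonneg (range_subset_range.2 (by omega))
    fun i _ _ => (abs_nonneg _).trans (h i)

variable {G : Type*} [Monoid G]

/-- A polynomial in the shift times `(X - 1) ^ k` is controlled by the `k`-th differences. -/
lemma nrm_aeval_shift_le {R H : ℝ[X]} (hR : Maj R H) {n : ℕ} (hn : R.natDegree < n) (k : ℕ)
    (T : ℕ → MonoidAlgebra ℝ G) (j : ℕ) {D : ℝ} (hD0 : 0 ≤ D)
    (hD : ∀ i < n, nrm ((fdiff^[k] T) (j + i)) ≤ D) :
    nrm (aeval (shiftEnd _) (R * (X - 1) ^ k) T j) ≤ H.eval 1 * D := by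
  rw [map_mul, Module.End.mul_apply, aeval_X_sub_one_pow, aeval_shift_apply R hn]
  refine (nrm_sum_le _ _).trans ?_
  refine (sum_le_sum (g := fun r => H.coeff r * D) fun r hr => ?_).trans ?_
  · rw [nrm_smul]
    exact mul_le_mul (hR r) (hD r (mem_range.1 hr)) (nrm_nonneg _)
      ((abs_nonneg _).trans (hR r))
  · rw [← sum_mul]
    exact mul_le_mul_of_nonneg_right (sum_range_coeff_le hR.self n) hD0

/-- Coefficients indexed by the integers. -/
noncomputable def zcoeff (F : ℝ[X]) (r : ℤ) : ℝ := if r < 0 then 0 else F.coeff r.toNat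

lemma zcoeff_one_sub_X_pow (F : ℝ[X]) (n : ℕ) (r : ℤ) :
    zcoeff ((1 - X ^ n) * F) r = zcoeff F r - zcoeff F (r - n) := by
  unfold zcoeff
  by_cases hr : r < 0
  · rw [if_pos hr, if_pos hr, if_pos (by omega)]; simp
  · rw [if_neg hr, if_neg hr, sub_mul, one_mul, Polynomial.coeff_sub, coeff_X_pow_mul']
    by_cases hn : n ≤ r.toNat
    · rw [if_pos hn, if_neg (by omega), show (r - n).toNat = r.toNat - n by omega]
    · rw [if_neg hn, if_pos (by omega)]

lemma zcoeff_C_mul (c : ℝ) (F : ℝ[X]) (r : ℤ) :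
    zcoeff (Polynomial.C c * F) r = c * zcoeff F r := by
  unfold zcoeff; split <;> simp

/-- The uniform law on `[0, N)`. -/
noncomputable def boxPoly (N : ℕ) : ℝ[X] := Polynomial.C (1 / (N : ℝ)) * ∑ r ∈ range N, X ^ r

lemma maj_boxPoly (N : ℕ) : Maj (boxPoly N) (boxPoly N) :=
  maj_C_mul (by positivity) (maj_sum _ fun r _ => maj_X_pow r)

lemma boxPoly_coeff_le (N b : ℕ) : |(boxPoly N).coeff b| ≤ 1 / N := by
  rw [boxPoly, coeff_C_mul, finsetSum_coeff]
  simp only [coeff_X_pow, Finset.sum_ite_eq]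
  split <;> simp

lemma abs_zcoeff_box_mul_le {F H : ℝ[X]} (h : Maj F H) (N : ℕ) (r : ℤ) :
    |zcoeff (boxPoly N * F) r| ≤ H.eval 1 / N := by
  have h0 : 0 ≤ H.eval 1 := le_trans (by simp) (sum_range_coeff_le h.self 0)
  unfold zcoeff
  split
  · rw [abs_zero]; positivity
  · rw [mul_comm, Polynomial.coeff_mul, Nat.sum_antidiagonal_eq_sum_range_succ_mk]
    refine (abs_sum_le_sum_abs _ _).trans ?_
    refine (sum_le_sum (g := fun i => H.coeff i * (1 / N)) fun i _ => ?_).trans ?_
    · rw [abs_mul]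
      exact mul_le_mul (h i) (boxPoly_coeff_le N _) (abs_nonneg _) ((abs_nonneg _).trans (h i))
    · rw [← sum_mul, mul_one_div]
      gcongr
      exact sum_range_coeff_le h.self _

/-- Kernels on `[0, 3kN)` with `k` vanishing moments and smooth profile. -/
theorem exists_kernel (k : ℕ) (hk : 0 < k) :
    ∃ C : ℝ, 0 < C ∧ ∀ N : ℕ, 0 < N → ∃ v : ℤ → ℝ,
      (∀ r, r < 0 ∨ (3 * k * N : ℤ) ≤ r → v r = 0) ∧
      (∀ r, |v r| ≤ C / N) ∧ (∀ r, |v (r + 1) - v r| ≤ C / N ^ 2) ∧
      (∀ r, |v (r + 2) - 2 * v (r + 1) + v r| ≤ C / N ^ 3) ∧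
      ∀ (T : ℕ → MonoidAlgebra ℝ G) (B : ℝ),
        (∀ j < 3 * k * N, nrm ((fdiff^[k] T) j) ≤ B) →
          nrm (T 0 - ∑ r ∈ range (3 * k * N), v (r : ℤ) • T r) ≤ C * (N : ℝ) ^ k * B := by
  set g : ℝ := ∑ i ∈ range k, (2 : ℝ) ^ i with hg
  have hg0 : 0 ≤ g := by positivity
  refine ⟨4 * g + 3 ^ k, by positivity, fun N hN => ?_⟩
  have hN' : (0 : ℝ) < N := by exact_mod_cast hN
  set Q : ℝ[X] := boxPoly N with hQ
  set P : ℝ[X] := Q ^ 3 with hP
  set S : ℝ[X] := ∑ i ∈ range k, (1 - P) ^ i with hS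
  set S' : ℝ[X] := ∑ i ∈ range k, (1 + P) ^ i with hS'
  set V : ℝ[X] := P * S with hV
  have hQ1 : Q.eval 1 = 1 := by
    simp [hQ, boxPoly, eval_finsetSum, hN'.ne']
  have hmajQ : Maj Q Q := maj_boxPoly N
  have hmajS : Maj S S' :=
    maj_sum _ fun i _ => by
      rw [sub_eq_add_neg]; exact (maj_one.add (hmajQ.pow 3).neg).pow i
  have hS'1 : S'.eval 1 = g := by
    simp [hS', hg, hP, eval_finsetSum, hQ1, one_add_one_eq_two]
  have hbig : ∀ {a : ℝ}, a ≤ 4 * g → a ≤ 4 * g + 3 ^ k := fun h =>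
    h.trans (le_add_of_nonneg_right (by positivity))
  have hQX : (1 - X) * Q = Polynomial.C (1 / (N : ℝ)) * (1 - X ^ N) := by
    rw [hQ, boxPoly, mul_left_comm, mul_neg_geom_sum]
  -- degrees
  have hdQ : Q.natDegree ≤ N - 1 := by
    rw [hQ, boxPoly]
    refine (natDegree_C_mul_le _ _).trans (natDegree_sum_le_of_forall_le _ _ fun r hr => ?_)
    rw [natDegree_X_pow]
    have := mem_range.1 hr; omega
  have hdP : P.natDegree ≤ 3 * (N - 1) :=
    natDegree_pow_le.trans (Nat.mul_le_mul_left 3 hdQ)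
  have hd1P : (1 - P).natDegree ≤ 3 * (N - 1) :=
    (natDegree_sub_le _ _).trans (by simp [hdP])
  have hdV : V.natDegree < 3 * k * N := by
    refine lt_of_le_of_lt natDegree_mul_le ?_
    have h1 : S.natDegree ≤ (k - 1) * (3 * (N - 1)) :=
      natDegree_sum_le_of_forall_le _ _ fun i hi => natDegree_pow_le.trans
        (Nat.mul_le_mul (by have := mem_range.1 hi; omega) hd1P)
    obtain ⟨k', rfl⟩ : ∃ k', k = k' + 1 := ⟨k - 1, by omega⟩
    obtain ⟨N', rfl⟩ : ∃ N', N = N' + 1 := ⟨N - 1, by omega⟩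
    simp only [Nat.add_sub_cancel] at h1 hdP
    nlinarith
  refine ⟨zcoeff V, ?_, ?_, ?_, ?_, ?_⟩
  · intro r hr
    unfold zcoeff
    split
    · rfl
    · refine coeff_eq_zero_of_natDegree_lt (hdV.trans_le ?_)
      rcases hr with hr | hr
      · omega
      · have : ((3 * k * N : ℕ) : ℤ) ≤ r := by push_cast; exact hr
        omega
  · intro r
    have h := abs_zcoeff_box_mul_le ((hmajQ.pow 2).mul hmajS) N r
    rw [← mul_assoc, ← pow_succ'] at h
    simp only [eval_mul, eval_pow, ← hQ, hQ1, hS'1, one_pow, one_mul] at h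
    refine h.trans ?_
    gcongr
    exact hbig (by linarith)
  · intro r
    have h := fun r => abs_zcoeff_box_mul_le (hmajQ.mul hmajS) N r
    simp only [eval_mul, ← hQ, hQ1, hS'1, one_mul] at h
    have e : (1 - X ^ 1) * V = Polynomial.C (1 / (N : ℝ)) * ((1 - X ^ N) * (Q * (Q * S))) := by
      have h2 : (1 - X ^ 1) * V = ((1 - X) * Q) * (Q * (Q * S)) := by rw [hV, hP]; ring
      rw [h2, hQX, mul_assoc]
    have := congrArg (fun F => zcoeff F (r + 1)) e
    simp only [zcoeff_one_sub_X_pow, zcoeff_C_mul, Nat.cast_one, add_sub_cancel_right] at this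
    rw [this, abs_mul, abs_of_pos (by positivity : (0 : ℝ) < 1 / N)]
    calc 1 / (N : ℝ) * |zcoeff (Q * (Q * S)) (r + 1) - zcoeff (Q * (Q * S)) (r + 1 - N)|
        ≤ 1 / (N : ℝ) * (g / N + g / N) :=
          mul_le_mul_of_nonneg_left ((abs_sub _ _).trans (add_le_add (h _) (h _))) (by positivity)
      _ = 2 * g / N ^ 2 := by ring
      _ ≤ _ := by gcongr; exact hbig (by linarith)
  · intro r
    have h := fun r => abs_zcoeff_box_mul_le hmajS N r
    simp only [← hQ, hS'1] at h
    have e : (1 - X ^ 1) * ((1 - X ^ 1) * V) = Polynomial.C (1 / (N : ℝ)) *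
        (Polynomial.C (1 / (N : ℝ)) * ((1 - X ^ N) * ((1 - X ^ N) * (Q * S)))) := by
      have h2 : (1 - X ^ 1) * ((1 - X ^ 1) * V) = ((1 - X) * Q) * ((1 - X) * Q) * (Q * S) := by
        rw [hV, hP]; ring
      rw [h2, hQX]; ring
    have := congrArg (fun F => zcoeff F (r + 2)) e
    simp only [zcoeff_one_sub_X_pow, zcoeff_C_mul, Nat.cast_one] at this
    rw [show r + 2 - 1 = r + 1 by ring, show r + 1 - 1 = r by ring] at this
    rw [show zcoeff V (r + 2) - 2 * zcoeff V (r + 1) + zcoeff V r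
      = zcoeff V (r + 2) - zcoeff V (r + 1) - (zcoeff V (r + 1) - zcoeff V r) by ring, this,
      abs_mul, abs_mul, abs_of_pos (by positivity : (0 : ℝ) < 1 / N)]
    calc _ ≤ 1 / (N : ℝ) * (1 / N * ((g / N + g / N) + (g / N + g / N))) :=
          mul_le_mul_of_nonneg_left (mul_le_mul_of_nonneg_left ((abs_sub _ _).trans (add_le_add
            ((abs_sub _ _).trans (add_le_add (h _) (h _)))
            ((abs_sub _ _).trans (add_le_add (h _) (h _))))) (by positivity)) (by positivity)
      _ = 4 * g / N ^ 3 := by ring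
      _ ≤ _ := by gcongr; exact hbig le_rfl
  · intro T B hB
    have hB0 : 0 ≤ B := (nrm_nonneg _).trans (hB 0 (by positivity))
    set R0 : ℝ[X] := Polynomial.C (1 / (N : ℝ)) * ∑ r ∈ range N, ∑ t ∈ range r, X ^ t with hR0
    set R : ℝ[X] := R0 * (Q ^ 2 + Q + 1) with hR
    have hmajR : Maj R R :=
      (maj_C_mul (by positivity) (maj_sum _ fun r _ => maj_sum _ fun t _ => maj_X_pow t)).mul
        (((hmajQ.pow 2).add hmajQ).add maj_one)
    have hR1 : R.eval 1 ≤ 3 * N := by
      simp only [hR, hR0, eval_mul, eval_C, eval_add, eval_pow, eval_one, hQ1, eval_finsetSum,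
        eval_X, one_pow, sum_const, card_range, nsmul_eq_mul, mul_one]
      have : ∑ r ∈ range N, (r : ℝ) ≤ N * N :=
        (sum_le_sum (g := fun _ => (N : ℝ)) fun r hr => Nat.cast_le.2 (mem_range.1 hr).le).trans
          (by simp)
      rw [one_div, inv_mul_eq_div, div_mul_eq_mul_div, div_le_iff₀ hN']
      linarith
    have hdR : R.natDegree ≤ 3 * (N - 1) := by
      have h1 : R0.natDegree ≤ N - 1 := by
        rw [hR0]
        refine (natDegree_C_mul_le _ _).trans (natDegree_sum_le_of_forall_le _ _ fun r hr =>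
          natDegree_sum_le_of_forall_le _ _ fun t ht => ?_)
        rw [natDegree_X_pow]
        have := mem_range.1 hr; have := mem_range.1 ht; omega
      have h2 : (Q ^ 2 + Q + 1).natDegree ≤ 2 * (N - 1) :=
        natDegree_add_le_of_degree_le (natDegree_add_le_of_degree_le
          (natDegree_pow_le.trans (Nat.mul_le_mul_left 2 hdQ)) (hdQ.trans (by omega))) (by simp)
      have := natDegree_mul_le_of_le h1 h2
      rw [hR]; omega
    have hPR : P - 1 = R * (X - 1) := by
      have h1 : R0 * (X - 1) = Q - 1 := by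
        rw [hR0, hQ, boxPoly, mul_assoc, sum_mul]
        simp_rw [geom_sum_mul]
        rw [sum_sub_distrib, mul_sub, sum_const, card_range, nsmul_eq_mul, mul_one,
          ← Polynomial.C_eq_natCast, ← Polynomial.C_mul, one_div_mul_cancel hN'.ne',
          Polynomial.C_1]
      rw [hR, hP, mul_right_comm, h1]; ring
    have hVeq : (1 : ℝ[X]) - V = Polynomial.C ((-1) ^ k) * (R ^ k * (X - 1) ^ k) := by
      rw [hV, hS, show P * ∑ i ∈ range k, (1 - P) ^ i
        = 1 - (1 - P) ^ k by rw [← mul_neg_geom_sum (1 - P) k, sub_sub_cancel], sub_sub_cancel,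
        ← mul_pow, ← hPR, map_pow, map_neg, Polynomial.C_1, ← mul_pow]
      ring
    have hsum : ∑ r ∈ range (3 * k * N), zcoeff V (r : ℤ) • T r
        = aeval (shiftEnd _) V T 0 := by
      rw [aeval_shift_apply V hdV]
      refine sum_congr rfl fun r _ => ?_
      rw [zcoeff, if_neg (by omega), Int.toNat_natCast, zero_add]
    have hlhs : T 0 - aeval (shiftEnd _) V T 0
        = ((-1 : ℝ) ^ k) • aeval (shiftEnd _) (R ^ k * (X - 1) ^ k) T 0 := by
      have := congrArg (fun F => aeval (shiftEnd (MonoidAlgebra ℝ G)) F T 0) hVeq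
      simp only [map_sub, map_one, map_mul, aeval_C, LinearMap.sub_apply, Pi.sub_apply,
        Module.End.one_apply, Module.End.mul_apply, Module.algebraMap_end_apply,
        Pi.smul_apply] at this ⊢
      exact this
    rw [hsum, hlhs, nrm_smul, abs_pow, abs_neg, abs_one, one_pow, one_mul]
    have hdk : (R ^ k).natDegree < 3 * k * N := by
      refine lt_of_le_of_lt (natDegree_pow_le.trans (Nat.mul_le_mul_left k hdR)) ?_
      obtain ⟨N', rfl⟩ : ∃ N', N = N' + 1 := ⟨N - 1, by omega⟩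
      simp only [Nat.add_sub_cancel]
      nlinarith
    refine (nrm_aeval_shift_le (hmajR.pow k) hdk k T 0 hB0 fun i hi => by
      simpa using hB i hi).trans ?_
    refine mul_le_mul_of_nonneg_right ?_ hB0
    rw [eval_pow]
    refine (pow_le_pow_left₀ (le_trans (by simp) (sum_range_coeff_le hmajR 0)) hR1 k).trans ?_
    rw [mul_pow]
    exact mul_le_mul_of_nonneg_right (le_add_of_nonneg_left (by positivity)) (by positivity)

end Maj

end Vale.Agent.P321
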