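import Vale.Agent.P321.Chan
import Vale.Agent.P321.Hoeff
import Vale.Agent.P321.Kernel

/-!
The marker cell against the plain lattice, its first and its second displacement, at `a = b^(4e)`.
The exact translate is replaced by a smooth average of translates (`exists_kernel`), and the average
is dominated by concentration over independent slots (`smear_one_dom`).
-/

namespace Vale.Agent.P321

open MonoidAlgebra Filter Finset

/-- Translates of the centred window `D` inside `2a+1` slots. -/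
noncomputable def cellT (W D : Meas) (a i : ℕ) : Meas := W ^ (a - 1 + i) * D * W ^ (a + 1 - i)

/-- A combination of three neighbouring translates, through smoothed weights. -/
lemma comb_dom {W D : Meas} (hW : IsProb W) {η : ℝ} (hη : 0 < η) (hD : AbsLE D (η • W))
    (hm : mass D = 0) {a L : ℕ} (hL : L + 1 ≤ a) {v : ℤ → ℝ}
    (hv : ∀ r, r < 0 ∨ (L : ℤ) ≤ r → v r = 0) {E : ℝ}
    (hE : ∀ s < 3, nrm (cellT W D a s - ∑ r ∈ range L, v (r : ℤ) • cellT W D a (r + s)) ≤ E)
    (c₀ c₁ c₂ : ℝ) {ω t : ℝ} (hω : 0 < ω) (ht : 0 < t)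
    (hw : ∀ i : ℤ, |c₀ * v i + c₁ * v (i - 1) + c₂ * v (i - 2)| ≤ ω) :
    Dom (c₀ • cellT W D a 0 + c₁ • cellT W D a 1 + c₂ • cellT W D a 2) (W ^ (2 * a + 1)) t
      (2 * (η * ((L + 2 : ℕ) * ω)) * Real.exp (-(t ^ 2 / (2 * η ^ 2 * ((L + 2 : ℕ) * ω ^ 2)))) +
        (|c₀| + |c₁| + |c₂|) * E) := by
  set w : ℕ → ℝ := fun i => c₀ * v i + c₁ * v ((i : ℤ) - 1) + c₂ * v ((i : ℤ) - 2) with hwdef
  have hw' : ∀ i, |w i| ≤ ω := fun i => hw i
  have hsq : ∑ i ∈ range (L + 2), w i ^ 2 ≤ ((L + 2 : ℕ) : ℝ) * ω ^ 2 := by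
    refine (sum_le_card_nsmul (range (L + 2)) _ (ω ^ 2) fun i _ => ?_).trans (by simp)
    rw [← sq_abs]; gcongr; exact hw' i
  have habs : ∑ i ∈ range (L + 2), |w i| ≤ ((L + 2 : ℕ) : ℝ) * ω :=
    (sum_le_card_nsmul (range (L + 2)) _ ω fun i _ => hw' i).trans (by simp)
  have hmain := smear_one_dom hW (w := 1) (by rwa [pow_one]) hm hη (X := a - 1) (Y := a - 1 - L)
    (N := L + 2) (Δ := 1) le_rfl w (σ := ((L + 2 : ℕ) : ℝ) * ω ^ 2) (t := t) (by positivity) hsq ht
  rw [show a - 1 + (L + 2) * 1 + 1 + (a - 1 - L) = 2 * a + 1 by omega] at hmain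
  have e1 : ∑ r ∈ range (L + 2), w r • (W ^ (a - 1 + r * 1) * D * W ^ (a - 1 - L + (L + 2 - r) * 1))
      = ∑ r ∈ range (L + 2), w r • cellT W D a r := by
    refine sum_congr rfl fun r hr => ?_
    have := mem_range.1 hr
    rw [cellT, mul_one, mul_one, show a - 1 - L + (L + 2 - r) = a + 1 - r by omega]
  rw [e1] at hmain
  -- reindexing
  have e2 : ∑ r ∈ range (L + 2), w r • cellT W D a r
      = c₀ • ∑ r ∈ range L, v (r : ℤ) • cellT W D a (r + 0) +
        c₁ • ∑ r ∈ range L, v (r : ℤ) • cellT W D a (r + 1) +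
        c₂ • ∑ r ∈ range L, v (r : ℤ) • cellT W D a (r + 2) := by
    simp only [hwdef, add_smul, mul_smul, sum_add_distrib, ← smul_sum]
    congr 1
    · congr 1
      · rw [sum_range_succ, sum_range_succ, hv ((L + 1 : ℕ) : ℤ) (Or.inr (by omega)),
          hv ((L : ℕ) : ℤ) (Or.inr le_rfl), zero_smul, zero_smul, add_zero, add_zero]
        simp
      · rw [sum_range_succ', sum_range_succ, hv (((0 : ℕ) : ℤ) - 1) (Or.inl (by omega)),
          hv (((L + 1 : ℕ) : ℤ) - 1) (Or.inr (by omega)), zero_smul, zero_smul, add_zero, add_zero]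
        refine congrArg (c₁ • ·) (sum_congr rfl fun r _ => ?_)
        rw [show (((r + 1 : ℕ) : ℤ) - 1) = (r : ℤ) by omega]
    · rw [sum_range_succ', sum_range_succ', hv (((0 : ℕ) : ℤ) - 2) (Or.inl (by omega)),
        hv (((0 + 1 : ℕ) : ℤ) - 2) (Or.inl (by omega)), zero_smul, zero_smul, add_zero, add_zero]
      refine congrArg (c₂ • ·) (sum_congr rfl fun r _ => ?_)
      rw [show (((r + 1 + 1 : ℕ) : ℤ) - 2) = (r : ℤ) by omega, show r + 1 + 1 = r + 2 by omega]
  rw [e2] at hmain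
  have herr : Dom (c₀ • (cellT W D a 0 - ∑ r ∈ range L, v (r : ℤ) • cellT W D a (r + 0)) +
      c₁ • (cellT W D a 1 - ∑ r ∈ range L, v (r : ℤ) • cellT W D a (r + 1)) +
      c₂ • (cellT W D a 2 - ∑ r ∈ range L, v (r : ℤ) • cellT W D a (r + 2)))
      (W ^ (2 * a + 1)) 0 ((|c₀| + |c₁| + |c₂|) * E) := by
    refine (Dom.of_nrm (hW.pow _).1).mono (hW.pow _).1 le_rfl ?_
    refine (nrm_add_le _ _).trans ?_
    refine (add_le_add (nrm_add_le _ _) le_rfl).trans ?_
    rw [nrm_smul, nrm_smul, nrm_smul, add_mul, add_mul]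
    exact add_le_add (add_le_add (mul_le_mul_of_nonneg_left (hE 0 (by norm_num)) (abs_nonneg _))
      (mul_le_mul_of_nonneg_left (hE 1 (by norm_num)) (abs_nonneg _)))
      (mul_le_mul_of_nonneg_left (hE 2 (by norm_num)) (abs_nonneg _))
  have := (hmain.add herr).mono (hW.pow _).1 (η' := t)
    (ε' := 2 * (η * ((L + 2 : ℕ) * ω)) *
      Real.exp (-(t ^ 2 / (2 * η ^ 2 * ((L + 2 : ℕ) * ω ^ 2)))) + (|c₀| + |c₁| + |c₂|) * E)
    (by rw [add_zero]) (by gcongr)
  convert this using 1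
  simp only [smul_sub]
  abel

/-- The exponential error beats every power. -/
lemma exp_neg_le_pow (n : ℕ) {x : ℝ} (hx : 0 < x) :
    Real.exp (-x) ≤ n.factorial / x ^ n := by
  rw [Real.exp_neg, inv_le_comm₀ (Real.exp_pos x) (by positivity), inv_div]
  exact Real.pow_div_factorial_le_exp x hx.le n

lemma absLE_smul_one_bitM {q : ℝ} (h0 : 0 ≤ q) (h1 : q ≤ 1) (c : Bool) :
    AbsLE (q • (1 : Meas)) (bitM q c) := by
  have h := ((absLE_one (G := FreeMonoid Bool)).smul q).add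
    (absLE_zero ((absLE_single (FreeMonoid.of c) zero_le_one).smul (1 - q)).pos)
  rwa [add_zero, abs_of_nonneg h0, abs_of_nonneg (sub_nonneg.2 h1)] at h

/-- `u - μ^(2a+1)`, `u₊ - u₋` and `u₊ + u₋ - 2u` are of sizes `a^(-1/4)`, `a^(-3/4)`, `a^(-5/4)`. -/
theorem markCell_dom {q : ℝ} (hq : 0 < q) (hq1 : q < 1) (e Q : ℕ) (he : 2 ≤ e) :
    ∀ᶠ b : ℕ in atTop,
      Dom (uM q (b ^ (4 * e)) - muM q ^ (2 * b ^ (4 * e) + 1))
        (muM q ^ (2 * b ^ (4 * e) + 1)) ((b : ℝ) ^ 4 / (b : ℝ) ^ e) (1 / (b : ℝ) ^ Q) ∧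
      Dom (traceM q (markStr (b ^ (4 * e) + 1) (b ^ (4 * e) - 1))
          - traceM q (markStr (b ^ (4 * e) - 1) (b ^ (4 * e) + 1)))
        (muM q ^ (2 * b ^ (4 * e) + 1)) ((b : ℝ) ^ 6 / (b : ℝ) ^ (3 * e)) (1 / (b : ℝ) ^ Q) ∧
      Dom (traceM q (markStr (b ^ (4 * e) + 1) (b ^ (4 * e) - 1))
          + traceM q (markStr (b ^ (4 * e) - 1) (b ^ (4 * e) + 1))
          - (2 : ℝ) • uM q (b ^ (4 * e)))
        (muM q ^ (2 * b ^ (4 * e) + 1)) ((b : ℝ) ^ 8 / (b : ℝ) ^ (5 * e)) (1 / (b : ℝ) ^ Q) := by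
  set W := muM q with hWdef
  set D := bitM q false - W with hDdef
  have hW : IsProb W := muM_isProb hq.le hq1.le
  have hbit := bitM_isProb hq.le hq1.le false
  set η := 1 / q + 1 with hηdef
  have hη : 0 < η := by positivity
  have hmass : mass D = 0 := by rw [hDdef, map_sub, hW.2, hbit.2, sub_self]
  have hD : AbsLE D (η • W) := by
    intro x
    have h := hbit.1.mul (absLE_smul_one_bitM hq.le hq1.le true) x
    rw [mul_smul_comm, mul_one] at h
    simp only [coeff_smul, Finsupp.smul_apply, smul_eq_mul, abs_mul, abs_of_pos hq] at h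
    rw [← muM, ← hWdef] at h
    have hWx := hW.1.nonneg x
    simp only [hDdef, coeff_sub, Finsupp.sub_apply, coeff_smul, Finsupp.smul_apply, smul_eq_mul,
      hηdef]
    refine (abs_sub _ _).trans ?_
    rw [abs_of_nonneg hWx, add_mul, one_mul, one_div, inv_mul_eq_div]
    gcongr
    rw [le_div_iff₀ hq, mul_comm]
    exact h
  have hc : q ^ 2 ≤ W.coeff 1 := by
    have h := (absLE_smul_one_bitM hq.le hq1.le false).mul (absLE_smul_one_bitM hq.le hq1.le true) 1
    rw [smul_mul_smul_comm, one_mul, ← muM, ← hWdef] at h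
    simp only [coeff_smul, Finsupp.smul_apply, smul_eq_mul, one_def, coeff_single,
      Finsupp.single_eq_same, mul_one] at h
    rw [sq]
    exact (le_abs_self _).trans h
  set k := Q + 1 with hk
  obtain ⟨C, hC, hker⟩ := exists_kernel (G := FreeMonoid Bool) k (Nat.succ_pos _)
  set K : ℝ := η ^ 2 * (64 * k * C ^ 2) with hK
  have hK0 : 0 < K := by positivity
  set M : ℝ := 32 * η * k * C * (k.factorial * K ^ k) + 4 * (C * (2 + η) * (4 * √k / q) ^ k) with hM
  filter_upwards [eventually_ge_atTop (32 * k + 2),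
    tendsto_natCast_atTop_atTop.eventually_ge_atTop M] with b hb hbM
  have hb1 : 1 ≤ b := by omega
  have hb0 : (0 : ℝ) < b := by exact_mod_cast hb1
  have hb1' : (1 : ℝ) ≤ b := by exact_mod_cast hb1
  obtain ⟨f, rfl⟩ : ∃ f, e = f + 1 := ⟨e - 1, by omega⟩
  set a := b ^ (4 * (f + 1)) with ha
  set N := b ^ (2 * f + 1) with hN
  have hN0 : 0 < N := Nat.pow_pos hb1
  have hNa : (32 * k + 2) * N ≤ a := by
    calc (32 * k + 2) * N ≤ b * N := Nat.mul_le_mul_right _ hb
      _ = b ^ (2 * f + 2) := by rw [hN, ← pow_succ']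
      _ ≤ a := Nat.pow_le_pow_right hb1 (by omega)
  obtain ⟨v, hv0, hv1, hv2, hv3, hvT⟩ := hker N hN0
  set L := 3 * k * N with hL
  set m := a / (4 * k) with hmdef
  have hkm : 4 * (k * m) ≤ a := by rw [← mul_assoc]; exact Nat.mul_div_le a (4 * k)
  have hk1 : 1 ≤ k := Nat.succ_pos _
  have hkN : k ≤ k * N := Nat.le_mul_of_pos_right _ hN0
  have hLb : L = 3 * (k * N) := by rw [hL, mul_assoc]
  have hNa' : 32 * (k * N) + 2 * N ≤ a := by rw [← mul_assoc, ← add_mul]; exact hNa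
  -- the shift error
  set E : ℝ := C * (2 + η) * (4 * √k / q) ^ k / (b : ℝ) ^ k with hEdef
  have hE0 : 0 ≤ E := by positivity
  have hsm : 2 * (1 : ℕ) * nrm ((W - 1) * W ^ m) * N ≤ 4 * √k / q / b := by
    have h := nrm_sub_one_mul_pow_le hW (pow_pos hq 2) (pow_lt_one₀ hq.le hq1 two_ne_zero) hc m
    have h1 : (a : ℝ) ≤ 4 * k * (m + 1) := by
      exact_mod_cast (Nat.lt_mul_div_succ a (show 0 < 4 * k by omega)).le
    have h2 : q * (N : ℝ) * b / (2 * √k) ≤ √(q ^ 2 * ((m : ℝ) + 1)) := by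
      refine Real.le_sqrt_of_sq_le ?_
      rw [div_pow, mul_pow, mul_pow, mul_pow, Real.sq_sqrt (Nat.cast_nonneg k),
        div_le_iff₀ (by positivity), mul_assoc, mul_assoc, mul_le_mul_iff_of_pos_left (pow_pos hq 2)]
      have e : (N : ℝ) ^ 2 * (b : ℝ) ^ 2 = (a : ℝ) := by
        rw [hN, ha]; push_cast; rw [← pow_mul, ← pow_add]; congr 1; ring
      rw [e]; linarith
    have h3 : nrm ((W - 1) * W ^ m) ≤ 1 / (q * (N : ℝ) * b / (2 * √k)) :=
      h.trans (one_div_le_one_div_of_le (by positivity) h2)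
    calc 2 * ((1 : ℕ) : ℝ) * nrm ((W - 1) * W ^ m) * N
        ≤ 2 * 1 * (1 / (q * (N : ℝ) * b / (2 * √k))) * N := by
          rw [Nat.cast_one]; gcongr
      _ = 4 * √k / q / b := by field_simp; ring
  have hE : ∀ s < 3, nrm (cellT W D a s - ∑ r ∈ range L, v (r : ℤ) • cellT W D a (r + s)) ≤ E := by
    intro s hs
    have h := hvT (fun j => cellT W D a (j + s))
      ((2 * (1 : ℕ) * nrm ((W - 1) * W ^ m)) ^ k * nrm D) ?_
    · rw [zero_add] at h
      refine h.trans ?_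
      have hnD : nrm D ≤ 2 + η := by
        refine (nrm_sub_le _ _).trans ?_
        rw [hbit.nrm_eq, hW.nrm_eq]; linarith
      calc C * (N : ℝ) ^ k * ((2 * (1 : ℕ) * nrm ((W - 1) * W ^ m)) ^ k * nrm D)
          = C * nrm D * (2 * (1 : ℕ) * nrm ((W - 1) * W ^ m) * N) ^ k := by
            rw [mul_pow _ (N : ℝ)]; ring
        _ ≤ C * (2 + η) * (4 * √k / q / b) ^ k :=
            mul_le_mul (mul_le_mul_of_nonneg_left hnD hC.le)
              (pow_le_pow_left₀ (by have := nrm_nonneg ((W - 1) * W ^ m); positivity) hsm k)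
              (by have := nrm_nonneg ((W - 1) * W ^ m); positivity) (by positivity)
        _ = E := by rw [div_pow _ (b : ℝ)]; ring
    · intro j hj
      have e : (fun j => cellT W D a (j + s))
          = fun i => W ^ (a - 1 + s + 1 * i) * D * W ^ (a + 1 - s - 1 * i) := by
        funext i
        rw [cellT, one_mul, show a - 1 + (i + s) = a - 1 + s + i by omega,
          show a + 1 - (i + s) = a + 1 - s - i by omega]
      rw [e]
      exact nrm_fdiff_translate_le hW k 1 _ _ m j (by omega) (by omega)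
  -- the three combinations
  have key : ∀ (c₀ c₁ c₂ : ℝ) (d : ℕ), |c₀| + |c₁| + |c₂| ≤ 4 →
      (∀ i : ℤ, |c₀ * v i + c₁ * v (i - 1) + c₂ * v (i - 2)| ≤ 2 * C / (N : ℝ) ^ (d + 1)) →
      Dom (c₀ • cellT W D a 0 + c₁ • cellT W D a 1 + c₂ • cellT W D a 2) (W ^ (2 * a + 1))
        ((b : ℝ) ^ (4 + 2 * d) / (b : ℝ) ^ ((2 * d + 1) * (f + 1))) (1 / (b : ℝ) ^ Q) := by
    intro c₀ c₁ c₂ d hcsum hw
    set t := (b : ℝ) ^ (4 + 2 * d) / (b : ℝ) ^ ((2 * d + 1) * (f + 1)) with ht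
    set ω := 2 * C / (N : ℝ) ^ (d + 1) with hωdef
    have hN1 : (1 : ℝ) ≤ N := by exact_mod_cast hN0
    have hω : 0 < ω := by positivity
    have ht0 : 0 < t := by positivity
    refine (comb_dom hW hη hD hmass (L := L) (by omega) hv0 hE c₀ c₁ c₂ hω ht0 hw).mono
      (hW.pow _).1 le_rfl ?_
    have hL2 : ((L + 2 : ℕ) : ℝ) ≤ 8 * k * N := by
      exact_mod_cast (show L + 2 ≤ 8 * k * N by rw [mul_assoc]; omega)
    have hLω : ((L + 2 : ℕ) : ℝ) * ω ≤ 16 * k * C := by
      refine (mul_le_mul_of_nonneg_right hL2 hω.le).trans ?_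
      rw [hωdef, pow_succ, show 8 * (k : ℝ) * N * (2 * C / ((N : ℝ) ^ d * N))
        = 16 * k * C / (N : ℝ) ^ d by field_simp; ring]
      exact div_le_self (by positivity) (one_le_pow₀ hN1)
    have hexp : (b : ℝ) / K ≤ t ^ 2 / (2 * η ^ 2 * ((L + 2 : ℕ) * ω ^ 2)) := by
      have h1 : 2 * η ^ 2 * (((L + 2 : ℕ) : ℝ) * ω ^ 2) ≤ K / (N : ℝ) ^ (2 * d + 1) := by
        calc _ ≤ 2 * η ^ 2 * (8 * k * N * ω ^ 2) := by gcongr
          _ = K / (N : ℝ) ^ (2 * d + 1) := by
            rw [hωdef, hK, div_pow, ← pow_mul, show (d + 1) * 2 = 2 * d + 1 + 1 by ring, pow_succ]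
            field_simp
            ring
      refine le_trans ?_ (div_le_div_of_nonneg_left (by positivity) (by positivity) h1)
      rw [div_div_eq_mul_div]
      refine div_le_div_of_nonneg_right ?_ hK0.le
      rw [ht, div_pow, div_mul_eq_mul_div, le_div_iff₀ (by positivity), hN]
      push_cast
      rw [← pow_mul, ← pow_mul, ← pow_mul, ← pow_add, ← pow_succ']
      exact pow_le_pow_right₀ hb1' (by nlinarith)
    have h2 : Real.exp (-(t ^ 2 / (2 * η ^ 2 * ((L + 2 : ℕ) * ω ^ 2))))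
        ≤ k.factorial * K ^ k / (b : ℝ) ^ k := by
      refine (Real.exp_le_exp.2 (neg_le_neg hexp)).trans
        ((exp_neg_le_pow k (by positivity)).trans_eq ?_)
      rw [div_pow, div_div_eq_mul_div]
    calc 2 * (η * (((L + 2 : ℕ) : ℝ) * ω)) * Real.exp (-(t ^ 2 / (2 * η ^ 2 * ((L + 2 : ℕ) * ω ^ 2))))
          + (|c₀| + |c₁| + |c₂|) * E
        ≤ 2 * (η * (16 * k * C)) * (k.factorial * K ^ k / (b : ℝ) ^ k) + 4 * E := by
          refine add_le_add (mul_le_mul ?_ h2 (Real.exp_pos _).le (by positivity)) (by gcongr)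
          gcongr
      _ = M / (b : ℝ) ^ k := by rw [hM, hEdef]; ring
      _ ≤ (b : ℝ) / (b : ℝ) ^ k := by gcongr
      _ = 1 / (b : ℝ) ^ Q := by rw [hk, pow_succ]; field_simp
  -- reading off
  have hcell : ∀ i j : ℕ, i + j = 2 * a →
      traceM q (markStr i j) - W ^ (2 * a + 1) = W ^ i * D * W ^ j := by
    intro i j hij
    rw [traceM_markStr, hDdef, mul_sub, sub_mul, ← hWdef, ← pow_succ, ← pow_add,
      show i + 1 + j = 2 * a + 1 by omega]
  have ha1 : 1 ≤ a := Nat.pow_pos hb1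
  have h0 : cellT W D a 0 = traceM q (markStr (a - 1) (a + 1)) - W ^ (2 * a + 1) := by
    rw [hcell _ _ (by omega), cellT, add_zero, Nat.sub_zero]
  have h2 : cellT W D a 2 = traceM q (markStr (a + 1) (a - 1)) - W ^ (2 * a + 1) := by
    rw [hcell _ _ (by omega), cellT, show a - 1 + 2 = a + 1 by omega,
      show a + 1 - 2 = a - 1 by omega]
  have h1 : cellT W D a 1 = uM q a - W ^ (2 * a + 1) := by
    rw [uM, ← traceM_markStr, hcell _ _ (by omega), cellT, show a - 1 + 1 = a by omega,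
      show a + 1 - 1 = a by omega]
  refine ⟨?_, ?_, ?_⟩
  · have h := key 0 1 0 0 (by norm_num) fun i => by
      simp only [zero_mul, one_mul, zero_add, add_zero, pow_one]
      exact (hv1 _).trans (by gcongr; linarith)
    simpa [h1] using h
  · have h := key (-1) 0 1 1 (by norm_num) fun i => by
      have a1 := hv2 (i - 2)
      have a2 := hv2 (i - 1)
      rw [show i - 2 + 1 = i - 1 by ring] at a1
      rw [sub_add_cancel] at a2
      rw [show (-1) * v i + 0 * v (i - 1) + 1 * v (i - 2)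
        = -((v i - v (i - 1)) + (v (i - 1) - v (i - 2))) by ring, abs_neg]
      refine (abs_add_le _ _).trans ((add_le_add a2 a1).trans_eq ?_)
      rw [show (1 + 1 : ℕ) = 2 from rfl]; ring
    convert h using 1
    rw [h0, h2]; simp [neg_smul]
  · have h := key 1 (-2) 1 2 (by norm_num) fun i => by
      have a1 := hv3 (i - 2)
      rw [sub_add_cancel, show i - 2 + 1 = i - 1 by ring] at a1
      rw [show 1 * v i + (-2) * v (i - 1) + 1 * v (i - 2)
        = v i - 2 * v (i - 1) + v (i - 2) by ring]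
      refine a1.trans ?_
      rw [show (2 + 1 : ℕ) = 3 from rfl]
      gcongr; linarith
    convert h using 1
    rw [h0, h1, h2, one_smul, one_smul, smul_sub, neg_smul, neg_smul, two_smul, two_smul]
    abel

end Vale.Agent.P321
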