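import Vale.Agent.P321.Chan
import Vale.Agent.P321.BaseBlock

/-!
The strings of the first level: a row of marker cells, some of them displaced.
-/

namespace Vale.Agent.P321

open MonoidAlgebra Finset

/-- The `i`-th cell of a block: displaced right on `A`, left on `A'`. -/
def cellStr (a : ℕ) (A A' : Finset ℕ) (i : ℕ) : List Bool :=
  if i ∈ A then markStr (a + 1) (a - 1) else if i ∈ A' then markStr (a - 1) (a + 1)
  else markStr a a

/-- The first `n` cells. -/
def cellsStr (a : ℕ) (A A' : Finset ℕ) (n : ℕ) : List Bool :=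
  (List.range n).flatMap (cellStr a A A')

/-- A block of `K` cells between `s` and `y` plain cells. -/
def rowStr (a : ℕ) (A A' : Finset ℕ) (K s y : ℕ) : List Bool :=
  (List.replicate s (markStr a a)).flatten
    ++ (cellsStr a A A' K ++ (List.replicate y (markStr a a)).flatten)

/-- The sign of a cell. -/
noncomputable def signOf (A A' : Finset ℕ) (i : ℕ) : ℝ :=
  if i ∈ A then 1 else if i ∈ A' then -1 else 0

lemma abs_signOf_le (A A' : Finset ℕ) (i : ℕ) : |signOf A A' i| ≤ 1 := by
  rw [signOf]; split_ifs <;> norm_num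

lemma signOf_swap {A A' : Finset ℕ} (h : Disjoint A A') : signOf A' A = -signOf A A' := by
  funext i
  simp only [signOf, Pi.neg_apply]
  by_cases h1 : i ∈ A
  · simp [h1, disjoint_left.1 h h1]
  · by_cases h2 : i ∈ A' <;> simp [h1, h2]

lemma length_markStr (i j : ℕ) : (markStr i j).length = 2 * i + 1 + 2 * j := by
  simp [markStr]; omega

lemma length_cellStr {a : ℕ} (ha : 1 ≤ a) (A A' : Finset ℕ) (i : ℕ) :
    (cellStr a A A' i).length = 4 * a + 1 := by
  rw [cellStr]; split_ifs <;> rw [length_markStr] <;> omega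

lemma cellsStr_succ (a : ℕ) (A A' : Finset ℕ) (n : ℕ) :
    cellsStr a A A' (n + 1) = cellsStr a A A' n ++ cellStr a A A' n := by
  simp [cellsStr, List.range_succ]

lemma length_cellsStr {a : ℕ} (ha : 1 ≤ a) (A A' : Finset ℕ) (n : ℕ) :
    (cellsStr a A A' n).length = n * (4 * a + 1) := by
  induction n with
  | zero => simp [cellsStr]
  | succ n ih => rw [cellsStr_succ, List.length_append, ih, length_cellStr ha]; ring

lemma length_rowStr {a : ℕ} (ha : 1 ≤ a) (A A' : Finset ℕ) (K s y : ℕ) :
    (rowStr a A A' K s y).length = (s + K + y) * (4 * a + 1) := by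
  simp only [rowStr, List.length_append, List.length_flatten, List.map_replicate,
    List.sum_replicate, smul_eq_mul, length_cellsStr ha, length_markStr]
  ring

lemma markStr_ne {a : ℕ} (ha : 1 ≤ a) : markStr (a + 1) (a - 1) ≠ markStr (a - 1) (a + 1) := by
  obtain ⟨c, rfl⟩ : ∃ c, a = c + 1 := ⟨a - 1, by omega⟩
  simp only [Nat.add_sub_cancel, markStr]
  rw [show c + 1 + 1 = c + 2 from rfl, List.replicate_add, List.flatten_append,
    List.append_assoc, List.append_assoc, List.append_assoc]
  intro h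
  have := List.append_cancel_left h
  cases c <;> simp [List.replicate_succ] at this

lemma cellsStr_inj {a : ℕ} (ha : 1 ≤ a) {A A' B B' : Finset ℕ} :
    ∀ {n : ℕ}, cellsStr a A A' n = cellsStr a B B' n → ∀ i < n, cellStr a A A' i = cellStr a B B' i
  | 0, _, i, hi => absurd hi (Nat.not_lt_zero i)
  | n + 1, h, i, hi => by
    rw [cellsStr_succ, cellsStr_succ] at h
    obtain ⟨h1, h2⟩ := List.append_inj h (by rw [length_cellsStr ha, length_cellsStr ha])
    rcases Nat.lt_succ_iff_lt_or_eq.1 hi with hlt | rfl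
    · exact cellsStr_inj ha h1 i hlt
    · exact h2

lemma rowStr_ne {a : ℕ} (ha : 1 ≤ a) {A A' : Finset ℕ} {K : ℕ} (s y : ℕ) (hA : A ⊆ range K)
    (hne : A.Nonempty) (hd : Disjoint A A') : rowStr a A A' K s y ≠ rowStr a A' A K s y := by
  intro h
  obtain ⟨-, h1⟩ := List.append_inj h rfl
  obtain ⟨h2, -⟩ := List.append_inj h1 (by rw [length_cellsStr ha, length_cellsStr ha])
  obtain ⟨i, hi⟩ := hne
  have h3 := cellsStr_inj ha h2 i (mem_range.1 (hA hi))
  rw [cellStr, cellStr, if_pos hi, if_neg (disjoint_left.1 hd hi), if_pos hi] at h3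
  exact markStr_ne ha h3

/-- Half the difference of the displaced cells. -/
noncomputable def oddCell (q : ℝ) (a : ℕ) : Meas :=
  (1 / 2 : ℝ) • (traceM q (markStr (a + 1) (a - 1)) - traceM q (markStr (a - 1) (a + 1)))

/-- Half their sum, minus the plain cell. -/
noncomputable def evenCell (q : ℝ) (a : ℕ) : Meas :=
  (1 / 2 : ℝ) • (traceM q (markStr (a + 1) (a - 1)) + traceM q (markStr (a - 1) (a + 1))
    - (2 : ℝ) • uM q a)

lemma traceM_cellStr (q : ℝ) (a : ℕ) (A A' : Finset ℕ) (i : ℕ) :
    traceM q (cellStr a A A' i)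
      = uM q a + signOf A A' i • oddCell q a + (signOf A A' i) ^ 2 • evenCell q a := by
  rw [cellStr, signOf]
  split_ifs
  · simp only [oddCell, evenCell]; module
  · simp only [oddCell, evenCell]; module
  · simp [traceM_markStr, uM]

lemma traceM_cellsStr (q : ℝ) (a : ℕ) (A A' : Finset ℕ) (n : ℕ) :
    traceM q (cellsStr a A A' n)
      = blk (uM q a) (oddCell q a) (evenCell q a) (signOf A A') n := by
  induction n with
  | zero => simp [cellsStr, blk, traceM]
  | succ n ih => rw [cellsStr_succ, traceM_append, ih, traceM_cellStr, blk]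

lemma traceM_rowStr (q : ℝ) (a : ℕ) (A A' : Finset ℕ) (K s y : ℕ) :
    traceM q (rowStr a A A' K s y) = uM q a ^ s
      * blk (uM q a) (oddCell q a) (evenCell q a) (signOf A A') K * uM q a ^ y := by
  rw [rowStr, traceM_append, traceM_append, traceM_flatten_replicate, traceM_flatten_replicate,
    traceM_cellsStr, traceM_markStr]
  simp only [uM, mul_assoc]

lemma blkLin_signOf {G : Type*} [Monoid G] (u O : MonoidAlgebra ℝ G) {A A' : Finset ℕ} {K : ℕ}
    (hA : A ⊆ range K) (hA' : A' ⊆ range K) (hd : Disjoint A A') (s y : ℕ) :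
    u ^ s * blkLin u O (signOf A A') K * u ^ y
      = ∑ i ∈ A, u ^ (s + i) * O * u ^ (K - 1 + y - i)
        - ∑ i ∈ A', u ^ (s + i) * O * u ^ (K - 1 + y - i) := by
  have key : ∀ i, i < K → u ^ s * (u ^ i * O * u ^ (K - 1 - i)) * u ^ y
      = u ^ (s + i) * O * u ^ (K - 1 + y - i) := fun i hi => by
    rw [show K - 1 + y - i = K - 1 - i + y by omega, pow_add, pow_add]
    simp only [mul_assoc]
  have hsplit : ∀ i, signOf A A' i • (u ^ s * (u ^ i * O * u ^ (K - 1 - i)) * u ^ y)
      = (if i ∈ A then u ^ s * (u ^ i * O * u ^ (K - 1 - i)) * u ^ y else 0)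
        - (if i ∈ A' then u ^ s * (u ^ i * O * u ^ (K - 1 - i)) * u ^ y else 0) := fun i => by
    rw [signOf]
    by_cases h1 : i ∈ A
    · simp [h1, disjoint_left.1 hd h1]
    · by_cases h2 : i ∈ A' <;> simp [h1, h2]
  rw [blkLin_eq, mul_sum, sum_mul]
  simp only [mul_smul_comm, smul_mul_assoc, hsplit, sum_sub_distrib, sum_ite_mem,
    inter_eq_right.2 hA, inter_eq_right.2 hA']
  exact congrArg₂ (· - ·) (sum_congr rfl fun i hi => key i (mem_range.1 (hA hi)))
    (sum_congr rfl fun i hi => key i (mem_range.1 (hA' hi)))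

end Vale.Agent.P321
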