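import Mathlib

/-!
Traces of the deletion channel and the task of worst-case trace reconstruction.
-/

namespace Vale.Agent.P321

/-- `traceProb q x z` is the probability that deleting each bit of x independently with
probability q leaves exactly the string z. -/
noncomputable def traceProb (q : ℝ) : List Bool → List Bool → ℝ
  | [], [] => 1
  | [], _ :: _ => 0
  | _ :: x, [] => q * traceProb q x []
  | b :: x, c :: z => q * traceProb q x (c :: z) + if b = c then (1 - q) * traceProb q x z else 0

/-- A randomized estimator: from m strings to a law on strings of length n. -/
structure Estimator (n m : ℕ) where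
  /-- The probability of the answer x on the input traces. -/
  prob : (Fin m → List Bool) → (Fin n → Bool) → ℝ
  prob_nonneg : ∀ s x, 0 ≤ prob s x
  prob_sum : ∀ s, ∑ x, prob s x = 1

/-- The probability that the estimator outputs x given m independent traces of x. -/
noncomputable def successProb {n m : ℕ} (q : ℝ) (A : Estimator n m) (x : Fin n → Bool) : ℝ :=
  ∑' s : Fin m → List Bool, (∏ i, traceProb q (List.ofFn x) (s i)) * A.prob s x

/-- Worst-case reconstruction of length n strings from m traces succeeds with probability 2/3. -/
def CanReconstruct (q : ℝ) (n m : ℕ) : Prop :=
  ∃ A : Estimator n m, ∀ x : Fin n → Bool, 2 / 3 ≤ successProb q A x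

end Vale.Agent.P321
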