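import Vale.Agent.P321.Chan
import Vale.Agent.P321.Defs

/-!
From total variation between trace laws to the number of traces.
-/

namespace Vale.Agent.P321

open MonoidAlgebra Finset

lemma traceM_cons (q : ℝ) (b : Bool) (x : List Bool) :
    traceM q (b :: x) = bitM q b * traceM q x := by
  simp [traceM]

lemma coeff_single_of_mul (b c : Bool) (F : Meas) (z : List Bool) :
    (single (FreeMonoid.of b) (1 : ℝ) * F).coeff (FreeMonoid.ofList (c :: z))
      = if b = c then F.coeff (FreeMonoid.ofList z) else 0 := by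
  rcases eq_or_ne b c with rfl | h
  · rw [if_pos rfl, coeff_single_mul_eq_mul_coeff (FreeMonoid.ofList z), one_mul]
    intro m' _
    rw [FreeMonoid.ofList_cons]
    exact ⟨fun h => List.tail_eq_of_cons_eq h, fun h => by rw [h]⟩
  · rw [if_neg h, coeff_single_mul_of_forall_mul_ne]
    intro d hd
    rw [FreeMonoid.ofList_cons] at hd
    exact h (List.head_eq_of_cons_eq hd)

lemma coeff_single_of_mul_nil (b : Bool) (F : Meas) :
    (single (FreeMonoid.of b) (1 : ℝ) * F).coeff (FreeMonoid.ofList []) = 0 := by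
  rw [coeff_single_mul_of_forall_mul_ne]
  intro d hd
  have := congrArg FreeMonoid.toList hd
  simp at this

/-- The coefficients of the trace law are the trace probabilities. -/
theorem coeff_traceM (q : ℝ) : ∀ x z : List Bool,
    (traceM q x).coeff (FreeMonoid.ofList z) = traceProb q x z
  | [], [] => by simp [traceM, traceProb, one_def]
  | [], c :: z => by
    classical
    simp only [traceM, List.map_nil, List.prod_nil, one_def, coeff_single, traceProb]
    rw [Finsupp.single_apply, if_neg]
    intro h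
    have := congrArg FreeMonoid.toList h
    simp at this
  | b :: x, [] => by
    rw [traceM_cons, bitM, add_mul, smul_mul_assoc, smul_mul_assoc, one_mul, traceProb]
    simp only [coeff_add, coeff_smul, Finsupp.add_apply, Finsupp.smul_apply, smul_eq_mul]
    rw [coeff_single_of_mul_nil, coeff_traceM q x []]
    ring
  | b :: x, c :: z => by
    rw [traceM_cons, bitM, add_mul, smul_mul_assoc, smul_mul_assoc, one_mul, traceProb]
    simp only [coeff_add, coeff_smul, Finsupp.add_apply, Finsupp.smul_apply, smul_eq_mul]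
    rw [coeff_single_of_mul, coeff_traceM q x (c :: z), coeff_traceM q x z]
    split <;> ring

lemma sum_abs_prod_sub_le {α : Type*} [Fintype α] (P Q : α → ℝ) (hP : ∀ a, 0 ≤ P a)
    (hQ : ∀ a, 0 ≤ Q a) (hP1 : ∑ a, P a = 1) (hQ1 : ∑ a, Q a = 1) :
    ∀ m : ℕ, ∑ s : Fin m → α, |(∏ i, P (s i)) - ∏ i, Q (s i)| ≤ m * ∑ a, |P a - Q a| := by
  intro m
  induction m with
  | zero => simp
  | succ m ih =>
    have hsum : ∑ s : Fin m → α, ∏ i, P (s i) = 1 := by
      rw [← Fintype.prod_sum (fun (_ : Fin m) a => P a)]; simp [hP1]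
    rw [← (Fin.consEquiv fun _ : Fin (m + 1) => α).sum_comp, Fintype.sum_prod_type]
    simp only [Fin.consEquiv_apply, Fin.prod_univ_succ, Fin.cons_zero, Fin.cons_succ]
    calc ∑ a, ∑ s : Fin m → α, |P a * ∏ i, P (s i) - Q a * ∏ i, Q (s i)|
        ≤ ∑ a, ∑ s : Fin m → α, (|P a - Q a| * ∏ i, P (s i)
            + Q a * |(∏ i, P (s i)) - ∏ i, Q (s i)|) := by
          refine sum_le_sum fun a _ => sum_le_sum fun s _ => ?_
          have hp : 0 ≤ ∏ i, P (s i) := prod_nonneg fun i _ => hP _
          calc |P a * ∏ i, P (s i) - Q a * ∏ i, Q (s i)|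
              = |(P a - Q a) * ∏ i, P (s i) + Q a * ((∏ i, P (s i)) - ∏ i, Q (s i))| := by ring_nf
            _ ≤ _ := (abs_add_le _ _).trans (by rw [abs_mul, abs_mul, abs_of_nonneg hp,
                abs_of_nonneg (hQ a)])
      _ = (∑ a, |P a - Q a|) + ∑ s : Fin m → α, |(∏ i, P (s i)) - ∏ i, Q (s i)| := by
          simp only [sum_add_distrib, ← mul_sum, ← sum_mul, hsum, hQ1, mul_one, one_mul]
      _ ≤ _ := by push_cast; linarith

/-- If two strings have nearly equal trace laws then reconstruction needs many traces. -/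
theorem le_of_canReconstruct {q : ℝ} (h0 : 0 ≤ q) (h1 : q ≤ 1) {n m : ℕ} {x y : Fin n → Bool}
    (hxy : x ≠ y) (h : CanReconstruct q n m) :
    2 / 3 ≤ m * nrm (traceM q (List.ofFn x) - traceM q (List.ofFn y)) := by
  classical
  obtain ⟨A, hA⟩ := h
  set X := traceM q (List.ofFn x) with hX
  set Y := traceM q (List.ofFn y) with hY
  have hXp := traceM_isProb h0 h1 (List.ofFn x)
  have hYp := traceM_isProb h0 h1 (List.ofFn y)
  rw [← hX] at hXp
  rw [← hY] at hYp
  set S : Finset (FreeMonoid Bool) := X.coeff.support ∪ Y.coeff.support with hS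
  have hsucc : ∀ z : Fin n → Bool, (traceM q (List.ofFn z)).coeff.support ⊆ S →
      successProb q A z = ∑ s : Fin m → S,
        (∏ i, (traceM q (List.ofFn z)).coeff (s i)) * A.prob (fun i => FreeMonoid.toList (s i).1) z := by
    intro z hz
    set e : (Fin m → S) ↪ (Fin m → List Bool) :=
      ⟨fun s i => FreeMonoid.toList (s i).1, fun s t hst => funext fun i =>
        Subtype.ext (FreeMonoid.toList.injective (congrFun hst i))⟩
    rw [successProb, tsum_eq_sum (s := Finset.univ.map e), sum_map]
    · refine sum_congr rfl fun s _ => ?_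
      congr 1
      exact prod_congr rfl fun i _ => (coeff_traceM q _ _).symm
    · intro s hs
      obtain ⟨i, hi⟩ : ∃ i, FreeMonoid.ofList (s i) ∉ S := by
        by_contra hcon
        push Not at hcon
        exact hs (mem_map.2 ⟨fun i => ⟨_, hcon i⟩, mem_univ _, rfl⟩)
      rw [prod_eq_zero (mem_univ i), zero_mul]
      rw [← coeff_traceM, Finsupp.notMem_support_iff.1 fun hc => hi (hz hc)]
  have ex := hA x
  have ey := hA y
  rw [hsucc x subset_union_left] at ex
  rw [hsucc y subset_union_right] at ey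
  have hP : ∀ a : S, 0 ≤ X.coeff a := fun a => hXp.1.nonneg _
  have hQ : ∀ a : S, 0 ≤ Y.coeff a := fun a => hYp.1.nonneg _
  have hP1 : ∑ a : S, X.coeff a = 1 := by
    rw [sum_coe_sort S (fun a => X.coeff a), ← mass_eq X subset_union_left]; exact hXp.2
  have hQ1 : ∑ a : S, Y.coeff a = 1 := by
    rw [sum_coe_sort S (fun a => Y.coeff a), ← mass_eq Y subset_union_right]; exact hYp.2
  have hd : ∑ a : S, |X.coeff a - Y.coeff a| = nrm (X - Y) := by
    rw [sum_coe_sort S (fun a => |X.coeff a - Y.coeff a|), nrm_eq_sum (X - Y) (s := S)]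
    · exact sum_congr rfl fun a _ => by simp
    · rw [coeff_sub]; exact Finsupp.support_sub
  have hmain := sum_abs_prod_sub_le (fun a : S => X.coeff a) (fun a : S => Y.coeff a)
    hP hQ hP1 hQ1 m
  rw [hd] at hmain
  have hPm : ∑ s : Fin m → S, ∏ i, X.coeff (s i) = 1 := by
    rw [← Fintype.prod_sum (fun (_ : Fin m) (a : S) => X.coeff a)]; simp only [hP1, prod_const_one]
  have hQm : ∑ s : Fin m → S, ∏ i, Y.coeff (s i) = 1 := by
    rw [← Fintype.prod_sum (fun (_ : Fin m) (a : S) => Y.coeff a)]; simp only [hQ1, prod_const_one]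
  have key : ∑ s : Fin m → S,
      ((∏ i, X.coeff (s i)) * A.prob (fun i => FreeMonoid.toList (s i).1) x
        + (∏ i, Y.coeff (s i)) * A.prob (fun i => FreeMonoid.toList (s i).1) y)
      ≤ ∑ s : Fin m → S, (((∏ i, X.coeff (s i)) + ∏ i, Y.coeff (s i)) / 2
        + |(∏ i, X.coeff (s i)) - ∏ i, Y.coeff (s i)| / 2) := by
    refine sum_le_sum fun s _ => ?_
    set P := ∏ i, X.coeff (s i)
    set Q := ∏ i, Y.coeff (s i)
    set t : Fin m → List Bool := fun i => FreeMonoid.toList (s i).1
    have ha := A.prob_nonneg t x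
    have hb := A.prob_nonneg t y
    have hab : A.prob t x + A.prob t y ≤ 1 := by
      rw [← A.prob_sum t, ← sum_pair hxy]
      exact sum_le_sum_of_subset_of_nonneg (subset_univ _) fun _ _ _ => A.prob_nonneg _ _
    have hP0 : 0 ≤ P := prod_nonneg fun i _ => hP _
    have hQ0 : 0 ≤ Q := prod_nonneg fun i _ => hQ _
    rcases abs_cases (P - Q) with ⟨e, hle⟩ | ⟨e, hle⟩ <;> rw [e]
    · nlinarith
    · nlinarith
  rw [sum_add_distrib, sum_add_distrib, ← Finset.sum_div, ← Finset.sum_div, sum_add_distrib,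
    hPm, hQm] at key
  linarith

end Vale.Agent.P321
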