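import Vale.Agent.P321.Marker.Overlap
import Vale.Agent.P321.Amp
import Vale.Agent.P321.Bridge

/-!
Powers of the marker cell `(01)^a 0 (01)^a` are smooth at the scale `√(a / m)`.
-/

namespace Vale.Agent.P321.Marker

open Finset
open Vale.Agent.P321

set_option linter.unusedSectionVars false
set_option linter.unusedVariables false

/-- The items `∅`, `0`, `1`, `01`. -/
def itemWord : Fin 4 → FreeMonoid Bool :=
  ![1, FreeMonoid.of false, FreeMonoid.of true, FreeMonoid.of false * FreeMonoid.of true]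

/-- The items of a `01` cell and of a `0` bit, after factoring out a common lazy part. -/
noncomputable def chanModel (q : ℝ) (h0 : 0 < q) (h1 : q < 1) : Model (Fin 4) where
  rho := ![(q ^ 2 / 2) / (1 - q ^ 2 / 2), (1 - q) * q / (1 - q ^ 2 / 2),
    q * (1 - q) / (1 - q ^ 2 / 2), (1 - q) ^ 2 / (1 - q ^ 2 / 2)]
  w := ![(q - q ^ 2 / 2) / (q ^ 2 / 2), q⁻¹, 0, 0]
  wmax := (q - q ^ 2 / 2) / (q ^ 2 / 2) + q⁻¹
  rho_nn := by
    have : 0 < 1 - q ^ 2 / 2 := by nlinarith
    have : 0 < 1 - q := by linarith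
    intro i
    fin_cases i <;> simp <;> positivity
  rho_sum := by
    have : (1 - q ^ 2 / 2) ≠ 0 := by nlinarith
    have : (2 - q ^ 2) ≠ 0 := by nlinarith
    simp [Fin.sum_univ_four]
    field_simp
    ring
  w_nn := by
    have : 0 ≤ q - q ^ 2 / 2 := by nlinarith
    intro i
    fin_cases i <;> simp <;> positivity
  w_le := by
    have : 0 ≤ (q - q ^ 2 / 2) / (q ^ 2 / 2) := div_nonneg (by nlinarith) (by positivity)
    have : 0 ≤ q⁻¹ := by positivity
    intro i
    fin_cases i <;> simp <;> linarith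
  w_mean := by
    have : (1 - q ^ 2 / 2) ≠ 0 := by nlinarith
    have : (2 - q ^ 2) ≠ 0 := by nlinarith
    simp [Fin.sum_univ_four]
    field_simp
    ring

/-- Replace each item by its bits. -/
noncomputable def push : Alg (FreeMonoid (Fin 4)) →ₐ[ℝ] Meas :=
  MonoidAlgebra.lift ℝ Meas (FreeMonoid (Fin 4))
    ((MonoidAlgebra.of ℝ (FreeMonoid Bool)).comp (FreeMonoid.lift itemWord))

lemma ev_push (f : Alg (FreeMonoid (Fin 4))) (φ : FreeMonoid Bool → ℝ) :
    ev (push f) φ = ev f (fun y => φ (FreeMonoid.lift itemWord y)) := by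
  induction f using MonoidAlgebra.induction_linear with
  | zero => simp [ev_zero]
  | add a b ha hb => rw [map_add, ev_add, ev_add, ha, hb]
  | single u x =>
    rw [push, MonoidAlgebra.lift_single, ev_smul]
    simp [ev_single]

lemma push_pairT {q : ℝ} (h0 : 0 < q) (h1 : q < 1) :
    push (pairT (chanModel q h0 h1) (1 - q ^ 2 / 2)) = muM q := by
  have : (1 - q ^ 2 / 2) ≠ 0 := by nlinarith
  have : (2 - q ^ 2) ≠ 0 := by nlinarith
  refine alg_ext fun φ => ?_
  simp only [muM, bitM, ev_push, pairT, ev_add, ev_smul, ev_one, ev_rhoHat, ev_mul, ev_single,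
    Fin.sum_univ_four, map_one, FreeMonoid.lift_eval_of]
  simp [chanModel, itemWord]
  field_simp
  ring

lemma push_bitT {q : ℝ} (h0 : 0 < q) (h1 : q < 1) :
    push (bitT (chanModel q h0 h1) (1 - q ^ 2 / 2)) = bitM q false := by
  have : (1 - q ^ 2 / 2) ≠ 0 := by nlinarith
  have : (2 - q ^ 2) ≠ 0 := by nlinarith
  refine alg_ext fun φ => ?_
  simp only [bitM, ev_push, bitT, pairT, ev_add, ev_smul, ev_one, ev_rhoHat, ev_eHat, ev_single,
    Fin.sum_univ_four, map_one, FreeMonoid.lift_eval_of]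
  simp [chanModel, itemWord]
  field_simp
  ring

lemma push_cellT {q : ℝ} (h0 : 0 < q) (h1 : q < 1) (a : ℕ) :
    push (cellT (chanModel q h0 h1) (1 - q ^ 2 / 2) a) = uM q a := by
  simp [cellT, uM, push_pairT h0 h1, push_bitT h0 h1]

lemma traceProb_nil (q : ℝ) : ∀ x : List Bool, traceProb q x [] = q ^ x.length
  | [] => by simp [traceProb]
  | b :: x => by rw [traceProb, traceProb_nil q x, List.length_cons, pow_succ']

lemma length_markStr (i j : ℕ) : (markStr i j).length = 2 * i + 1 + 2 * j := by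
  simp [markStr, mul_comm]
  omega

lemma uM_coeff_one (q : ℝ) (a : ℕ) : (uM q a).coeff 1 = q ^ (4 * a + 1) := by
  rw [uM, ← traceM_markStr, show (1 : FreeMonoid Bool) = FreeMonoid.ofList [] from rfl,
    coeff_traceM, traceProb_nil, length_markStr]
  congr 1; omega

end Vale.Agent.P321.Marker

namespace Vale.Agent.P321

open Marker

/-- Powers of the marker cell are smooth. -/
theorem marker_smoothing {q : ℝ} (h0 : 0 < q) (h1 : q < 1) :
    ∃ C : ℝ, ∀ a, 1 ≤ a → ∀ m : ℕ,
      nrm ((uM q a - 1) * uM q a ^ m) ≤ C * √((a : ℝ) / ((m : ℝ) + 1)) := by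
  have hr0 : 0 < 1 - q ^ 2 / 2 := by nlinarith
  have hr1 : 1 - q ^ 2 / 2 < 1 := by nlinarith
  obtain ⟨β, a₀, hβ, hov⟩ := overlap_items (chanModel q h0 h1) hr0 hr1
  refine ⟨max (4 * √(3 / β)) (1 / √(q ^ (4 * a₀ + 1))), fun a ha m => ?_⟩
  have hU := uM_isProb h0.le h1.le a
  rcases le_or_gt a₀ a with h | h
  · obtain ⟨K, R, hK, hRn, hR1, hR2, hmass⟩ := hov a h
    have hpush : ∀ j : ℕ,
        push (cellT (chanModel q h0 h1) (1 - q ^ 2 / 2) a ^ j) = uM q a ^ j := fun j => by
      rw [map_pow, push_cellT]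
    have hpn : Nn (push R) := fun φ hφ => by rw [ev_push]; exact hRn _ fun y => hφ _
    have hle : ∀ {j : ℕ}, Le R (cellT (chanModel q h0 h1) (1 - q ^ 2 / 2) a ^ j) →
        AbsLE (push R) (uM q a ^ j) := by
      intro j hj
      refine absLE_of_le hpn fun φ hφ => ?_
      rw [← hpush, ev_push, ev_push]
      exact hj _ fun y => hφ _
    have hm : β ≤ mass (push R) := by
      rw [← ev_eq_mass, ev_push, ev_eq_mass]; exact hmass
    refine (nrm_sub_one_mul_pow_of_overlap hU (absLE_of_le hpn (Le.refl _)) (hle hR1) (hle hR2)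
      hβ hm m).trans ?_
    refine le_trans ?_ (mul_le_mul_of_nonneg_right (le_max_left _ _) (Real.sqrt_nonneg _))
    rw [mul_assoc, ← Real.sqrt_mul (by positivity)]
    refine mul_le_mul_of_nonneg_left (Real.sqrt_le_sqrt ?_) (by norm_num)
    rw [div_mul_div_comm]
    gcongr
    exact_mod_cast hK
  · have hc : q ^ (4 * a₀ + 1) ≤ (uM q a).coeff 1 := by
      rw [Marker.uM_coeff_one]
      exact pow_le_pow_of_le_one h0.le h1.le (by omega)
    refine (nrm_sub_one_mul_pow_le hU (by positivity) (pow_lt_one₀ h0.le h1 (by omega)) hc m).trans ?_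
    refine le_trans ?_ (mul_le_mul_of_nonneg_right (le_max_right _ _) (Real.sqrt_nonneg _))
    rw [Real.sqrt_mul (by positivity), Real.sqrt_div (Nat.cast_nonneg a), div_mul_div_comm, one_mul]
    gcongr
    rw [Real.one_le_sqrt]; exact_mod_cast ha

end Vale.Agent.P321
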