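import Vale.Agent.P321.Step
import Vale.Agent.P321.BaseCell
import Vale.Agent.P321.BaseStrings
import Vale.Agent.P321.Marker

/-!
The first level: rows of marker cells, displaced on a pattern with vanishing moments.
-/

namespace Vale.Agent.P321

open MonoidAlgebra Filter Finset

/-- The displacements measured against the cell. -/
lemma cell_rel {q : ℝ} (hq : 0 < q) (hq1 : q < 1) {e : ℕ} (he : 20 ≤ e) (Q : ℕ) :
    ∀ᶠ b : ℕ in atTop,
      Dom (oddCell q (b ^ (4 * e))) (uM q (b ^ (4 * e))) ((b : ℝ) ^ 6 / (b : ℝ) ^ (3 * e))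
        (1 / (b : ℝ) ^ Q) ∧
      Dom (evenCell q (b ^ (4 * e))) (uM q (b ^ (4 * e))) ((b : ℝ) ^ 8 / (b : ℝ) ^ (5 * e))
        (1 / (b : ℝ) ^ Q) := by
  filter_upwards [markCell_dom hq hq1 e (Q + 1) (by omega), ev_nat_ge 4] with b hb hb4
  obtain ⟨h1, h2, h3⟩ := hb
  have hb1 : (1 : ℝ) ≤ b := by exact_mod_cast (by omega : 1 ≤ b)
  have hb4' : (4 : ℝ) ≤ b := by exact_mod_cast hb4
  have hH := (muM_isProb hq.le hq1.le).pow (2 * b ^ (4 * e) + 1)
  have hu := uM_isProb hq.le hq1.le (b ^ (4 * e))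
  have hsmall : (b : ℝ) ^ 4 / (b : ℝ) ^ e ≤ 1 / 2 := by
    have := mul_pow_div_le (C := 2) hb1 (by linarith) (x := 4) (y := e) (z := 0) (by omega)
    simp only [pow_zero, div_one] at this
    linarith
  obtain ⟨-, hHu⟩ := dom_of_close hu hH (by positivity) hsmall h1
  have hε : 2 * (1 / (b : ℝ) ^ (Q + 1)) ≤ 1 / (b : ℝ) ^ Q :=
    const_div_pow_le hb1 (by linarith) le_rfl
  have hle : ∀ x y : ℕ, x ≤ y → (b : ℝ) ^ x / (b : ℝ) ^ y ≤ 1 := fun x y h => by
    rw [div_le_one (by positivity)]; exact pow_le_pow_right₀ hb1 h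
  have h0 : 0 ≤ 1 / (b : ℝ) ^ (Q + 1) := by positivity
  constructor
  · refine ((h2.change (by positivity) hHu).smul (1 / 2)).mono hu.1 (le_of_eq ?_) ?_
    · rw [abs_of_pos (by norm_num : (0 : ℝ) < 1 / 2)]; ring
    · rw [abs_of_pos (by norm_num : (0 : ℝ) < 1 / 2)]
      nlinarith [hle 6 (3 * e) (by omega)]
  · refine ((h3.change (by positivity) hHu).smul (1 / 2)).mono hu.1 (le_of_eq ?_) ?_
    · rw [abs_of_pos (by norm_num : (0 : ℝ) < 1 / 2)]; ring
    · rw [abs_of_pos (by norm_num : (0 : ℝ) < 1 / 2)]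
      nlinarith [hle 8 (5 * e) (by omega)]

/-- The family of first levels. -/
noncomputable def baseFam (q : ℝ) (e : ℕ) (A A' : Finset ℕ) (K : ℕ) : Fam where
  P b := rowStr (b ^ (4 * e)) A A' K ((b ^ (4 * e + 4) - K) / 2)
    (b ^ (4 * e + 4) - K - (b ^ (4 * e + 4) - K) / 2)
  R b := rowStr (b ^ (4 * e)) A' A K ((b ^ (4 * e + 4) - K) / 2)
    (b ^ (4 * e + 4) - K - (b ^ (4 * e + 4) - K) / 2)
  W b := uM q (b ^ (4 * e))

/-- The first level. -/
theorem baseLevel {q : ℝ} (hq : 0 < q) (hq1 : q < 1) {e : ℕ} (he : 20 ≤ e) :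
    LvlW q (4 * e + 1) (8 * e - 16) (5 * e - 10) := by
  intro Qn
  set Q' := Qn + 14 * e + 40 with hQ'
  set k := 2 * (Q' + 2) with hk
  obtain ⟨K, A, A', B, B', Cp, hCp, hdis, hne, -, hA, hA', -, -, -, -, -, -, hpat⟩ :=
    exists_pattern (G := FreeMonoid Bool) k
  obtain ⟨Cs, hCs⟩ := marker_smoothing hq hq1
  obtain ⟨C, hC, hblk⟩ := blk_bound (G := FreeMonoid Bool) K
  refine ⟨Q', by omega, baseFam q e A A' K, K, ?_⟩
  filter_upwards [cell_rel hq hq1 he (Q' + 1),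
    smU_of_smW q (S := 4 * e + 1) (β := 8 * e - 16) (g := 5 * e - 10) (Q := Q') (by omega)
      (by omega),
    ev_ge (2 * Cp * (4 : ℝ) ^ (Q' + 2)), ev_ge (Cs ^ 2),
    ev_ge (4 * C + 2 * C + 2 + 3), ev_nat_ge (4 * k + 16 * K + 1000)]
    with b hcell hsmU hbCp hbCs hbC hbN
  obtain ⟨hO, hV⟩ := hcell
  set a := b ^ (4 * e) with ha
  have ha1 : 1 ≤ a := Nat.one_le_pow _ _ (by omega)
  have hb1 : (1 : ℝ) ≤ b := by exact_mod_cast (by omega : 1 ≤ b)
  have hb0 : (0 : ℝ) < b := lt_of_lt_of_le zero_lt_one hb1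
  have hb1000 : (1000 : ℝ) ≤ b := by exact_mod_cast (by omega : 1000 ≤ b)
  have hsmall : ∀ x z : ℕ, x + 1 ≤ z → (b : ℝ) ^ x / (b : ℝ) ^ z ≤ 1 / 1000 := fun x z hz => by
    have := mul_pow_div_le (C := 1000) hb1 hb1000 (x := x) (y := z) (z := 0) (by omega)
    simp only [pow_zero, div_one] at this
    linarith
  set u := uM q a with hu_def
  set O := oddCell q a
  set V := evenCell q a
  set α := (b : ℝ) ^ 6 / (b : ℝ) ^ (3 * e) with hα
  set γ := (b : ℝ) ^ 8 / (b : ℝ) ^ (5 * e) with hγ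
  set ε := 1 / (b : ℝ) ^ (Q' + 1) with hεdef
  have hu : IsProb u := uM_isProb hq.le hq1.le a
  have hε1 : ε ≤ 1 / 1000 := by simpa [hεdef] using hsmall 0 (Q' + 1) (by omega)
  have hα1 : α ≤ 1 / 2 := (hsmall _ _ (by omega)).trans (by norm_num)
  have hγ1 : γ ≤ 1 / 2 := (hsmall _ _ (by omega)).trans (by norm_num)
  have hα0 : 0 ≤ α := by positivity
  have hγ0 : 0 ≤ γ := by positivity
  have hε0 : 0 ≤ ε := by positivity
  obtain ⟨hS, hD, -⟩ := hblk u O V (signOf A A') α γ ε hu (abs_signOf_le A A') hα0 hα1 hγ0 hγ1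
    (by linarith) hO hV
  set M := b ^ (4 * e + 4) with hM
  have hbM : b ≤ M := Nat.le_self_pow (by omega) b
  obtain ⟨e1, e2, e3⟩ := env_sizes (M := M) (K := K) (by omega)
  set s := (M - K) / 2
  set y := M - K - s
  -- the linear part
  set L := blkLin u O (signOf A A') K with hL
  set ν := nrm ((u - 1) * u ^ b ^ (4 * e + 3))
  have hsmW : ∀ m : ℕ, nrm ((u - 1) * u ^ m) ≤ √((b : ℝ) ^ (4 * e + 1) / ((m : ℝ) + 1)) := by
    intro m
    refine (hCs a ha1 m).trans ?_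
    refine (mul_le_mul_of_nonneg_right (le_abs_self Cs) (Real.sqrt_nonneg _)).trans ?_
    rw [← Real.sqrt_sq_eq_abs, ← Real.sqrt_mul (sq_nonneg Cs)]
    refine Real.sqrt_le_sqrt ?_
    rw [mul_div_assoc']
    refine div_le_div_of_nonneg_right ?_ (by positivity)
    rw [ha, pow_succ _ (4 * e), mul_comm _ (b : ℝ)]
    push_cast
    gcongr
  have hLn : nrm (u ^ s * L * u ^ y) ≤ ε := by
    have hOn : nrm O ≤ 1 := (hO.nrm_le hu).trans (by linarith)
    have hm : b * b ^ (4 * e + 3) = M := by rw [hM]; ring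
    have h8 : 8 * (k * b ^ (4 * e + 3)) ≤ 2 * M := by
      have h5 : 8 * k * b ^ (4 * e + 3) ≤ 2 * b * b ^ (4 * e + 3) :=
        Nat.mul_le_mul_right _ (by omega)
      simp only [Nat.mul_assoc] at h5
      omega
    have h := (hpat (fun i => u ^ (s + i) * O * u ^ (K - 1 + y - i)) ((2 * ν) ^ k) fun j hj => by
      have := nrm_fdiff_translate_le (Z := O) hu k 1 s (K - 1 + y) (b ^ (4 * e + 3)) j (by omega)
        (by omega)
      simp only [one_mul, mul_one, Nat.cast_one] at this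
      exact this.trans (mul_le_of_le_one_right
        (pow_nonneg (mul_nonneg zero_le_two (nrm_nonneg _)) _) hOn)).1
    rw [hL, blkLin_signOf u O hA hA' hdis]
    refine h.trans (pow_small (D := 2 ^ 2) hb1 hCp.le
      (shift_small hb1 (x := 0) (y := 4 * e + 1) (z := 4 * e + 3) (nrm_nonneg _)
        (hsmW _) ?_ (by norm_num) (by simp) (by omega))
      (by
        have : 0 ≤ Cp * (4 : ℝ) ^ (Q' + 2) := by positivity
        norm_num
        linarith))
    push_cast; linarith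
  -- sizes
  have hδ : γ + α ^ 2 ≤ 2 * (1 / (b : ℝ) ^ (5 * e - 9)) := by
    have h1 : γ ≤ 1 / (b : ℝ) ^ (5 * e - 9) := by
      simpa [hγ] using mul_pow_div_le (C := 1) hb1 hb1 (x := 8) (y := 5 * e) (z := 5 * e - 9)
        (by omega)
    have h2 : α ^ 2 ≤ 1 / (b : ℝ) ^ (5 * e - 9) := by
      rw [hα, div_pow, ← pow_mul, ← pow_mul]
      simpa using mul_pow_div_le (C := 1) hb1 hb1 (x := 6 * 2) (y := 3 * e * 2) (z := 5 * e - 9)
        (by omega)
    linarith
  have hδ0 : 0 ≤ γ + α ^ 2 := by positivity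
  have hαδ : α * (γ + α ^ 2) ≤ 2 * (1 / (b : ℝ) ^ (8 * e - 15)) := by
    refine (mul_le_mul_of_nonneg_left hδ hα0).trans ?_
    rw [mul_left_comm]
    refine mul_le_mul_of_nonneg_left ?_ zero_le_two
    rw [hα, div_mul_div_comm, mul_one, ← pow_add]
    rw [show 3 * e + (5 * e - 9) = 6 + (8 * e - 15) by omega, pow_add, ← div_div,
      div_self (pow_ne_zero _ hb0.ne')]
  have hβeq : 2 * C * (α * (γ + α ^ 2)) + 2 * C * ε ≤ 1 / (b : ℝ) ^ (8 * e - 16) := by
    have h1 : ε ≤ 1 / (b : ℝ) ^ (8 * e - 15) := pow_inv_mono hb1 (by omega)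
    have h2 : (0 : ℝ) ≤ 1 / (b : ℝ) ^ (8 * e - 15) := by positivity
    calc _ ≤ 2 * C * (2 * (1 / (b : ℝ) ^ (8 * e - 15))) + 2 * C * (1 / (b : ℝ) ^ (8 * e - 15)) := by
          gcongr
      _ = 6 * C * (1 / (b : ℝ) ^ (8 * e - 15)) := by ring
      _ ≤ 1 / (b : ℝ) ^ (8 * e - 16) := const_div_pow_le hb1 (by linarith) (by omega)
  have hgeq : C * (γ + α ^ 2) + C * (α * (γ + α ^ 2)) ≤ 1 / (b : ℝ) ^ (5 * e - 10) := by
    calc _ ≤ C * (γ + α ^ 2) + C * (1 * (γ + α ^ 2)) := by gcongr; linarith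
      _ = 2 * C * (γ + α ^ 2) := by ring
      _ ≤ 2 * C * (2 * (1 / (b : ℝ) ^ (5 * e - 9))) := by gcongr
      _ = 4 * C * (1 / (b : ℝ) ^ (5 * e - 9)) := by ring
      _ ≤ 1 / (b : ℝ) ^ (5 * e - 10) := const_div_pow_le hb1 (by linarith) (by omega)
  have hεeq : ∀ c : ℝ, c ≤ b → c * ε ≤ 1 / (b : ℝ) ^ Q' := fun c hc =>
    const_div_pow_le hb1 hc le_rfl
  -- the level
  set F := baseFam q e A A' K with hF
  set T := F.stage q (par (4 * e + 1) (8 * e - 16) (5 * e - 10) Q') b with hT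
  have hTp : T.p = u ^ s * blk u O V (signOf A A') K * u ^ y := traceM_rowStr q a A A' K s y
  have hTr : T.r = u ^ s * blk u O V (-signOf A A') K * u ^ y := by
    rw [← signOf_swap hdis]; exact traceM_rowStr q a A' A K s y
  obtain ⟨heq1, heq2⟩ := blk_eq u O V (signOf A A') K
  have hLD := (Dom.of_nrm (hu.pow M).1).mono (hu.pow M).1 le_rfl hLn
  have hwrap : ∀ {X : Meas} {η ε' : ℝ}, 0 ≤ η → Dom X (u ^ K) η ε' →
      Dom (u ^ s * X * u ^ y) (u ^ M) η ε' := by
    intro X η ε' hη h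
    have := (h.mulLeft (hu.pow s) (hu.pow K)).mulRight (hu.pow y) ((hu.pow s).mul (hu.pow K)) hη
    rwa [← pow_add, ← pow_add, e1] at this
  have hsub : ∀ X : Meas, u ^ s * X * u ^ y - u ^ M = u ^ s * (X - u ^ K) * u ^ y := fun X => by
    rw [mul_sub, sub_mul, ← pow_add, ← pow_add, e1]
  have hCδ : 0 ≤ C * (γ + α ^ 2) + C * (α * (γ + α ^ 2)) := by positivity
  have hdp : Dom (T.p - u ^ M) (u ^ M) (1 / (b : ℝ) ^ (5 * e - 10)) (1 / (b : ℝ) ^ Q') := by
    rw [hTp, hsub, heq1, ← add_assoc, mul_add, add_mul]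
    refine ((hwrap hCδ (hS.add hD)).add hLD).mono (hu.pow M).1 (by linarith) ?_
    calc C * ε + C * ε + ε = (2 * C + 1) * ε := by ring
      _ ≤ _ := hεeq _ (by linarith)
  have hdr : Dom (T.r - u ^ M) (u ^ M) (1 / (b : ℝ) ^ (5 * e - 10)) (1 / (b : ℝ) ^ Q') := by
    rw [hTr, hsub, heq2, ← sub_sub, mul_sub, sub_mul]
    refine ((hwrap hCδ (hS.sub hD)).sub hLD).mono (hu.pow M).1 (by linarith) ?_
    calc C * ε + C * ε + ε = (2 * C + 1) * ε := by ring
      _ ≤ _ := hεeq _ (by linarith)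
  -- the window
  have hmO : mass O = 0 := by
    simp only [O, oddCell, map_smul, map_sub, (traceM_isProb hq.le hq1.le _).2, sub_self,
      smul_zero]
  have hmD : mass ((2 : ℝ) • blkOdd u O V (signOf A A') K) = 0 := by
    have h1 : ∀ A B : Finset ℕ, mass (blk u O V (signOf A B) K) = 1 := fun A B => by
      rw [← traceM_cellsStr]; exact (traceM_isProb hq.le hq1.le _).2
    simp only [blkOdd, ← signOf_swap hdis, map_smul, map_sub, h1, blkLin_eq, map_sum, map_mul,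
      hmO, mul_zero, zero_mul, smul_zero, sum_const_zero, sub_self]
  obtain ⟨D₁, hm1, hD1, hD2⟩ := (hD.smul 2).massZero (hu.pow K) hmD
  simp only [abs_two] at hD1 hD2
  have hD1' : AbsLE D₁ ((1 / (b : ℝ) ^ (8 * e - 16)) • u ^ K) := fun z => (hD1 z).trans (by
    simp only [coeff_smul, Finsupp.smul_apply, smul_eq_mul]
    exact mul_le_mul_of_nonneg_right (by linarith [hβeq]) ((hu.pow K).1.nonneg z))
  have hclose : nrm (T.p - T.r - u ^ s * D₁ * u ^ y) ≤ 1 / (b : ℝ) ^ Q' := by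
    rw [hTp, hTr, show u ^ s * blk u O V (signOf A A') K * u ^ y
        - u ^ s * blk u O V (-signOf A A') K * u ^ y - u ^ s * D₁ * u ^ y
      = u ^ s * ((2 : ℝ) • blkOdd u O V (signOf A A') K - D₁) * u ^ y
        + (2 : ℝ) • (u ^ s * L * u ^ y) by
      simp only [blkOdd, hL, smul_sub, mul_sub, sub_mul, mul_smul_comm, smul_mul_assoc]
      module]
    refine (nrm_add_le _ _).trans ?_
    have h1 : nrm (u ^ s * ((2 : ℝ) • blkOdd u O V (signOf A A') K - D₁) * u ^ y)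
        ≤ 2 * (2 * (C * ε)) := by
      refine (nrm_mul_le _ _).trans ?_
      rw [(hu.pow _).nrm_eq, mul_one]
      refine (nrm_mul_le _ _).trans ?_
      rw [(hu.pow _).nrm_eq, one_mul]
      linarith
    have h2 : nrm ((2 : ℝ) • (u ^ s * L * u ^ y)) ≤ 2 * ε := by
      rw [nrm_smul, abs_two]; linarith
    linarith [hεeq (4 * C + 2) (by linarith)]
  have hdd : Dom (T.p - T.r) (u ^ M) (1 / (b : ℝ) ^ (8 * e - 16)) (1 / (b : ℝ) ^ Q') := by
    refine ⟨u ^ s * D₁ * u ^ y, ?_, hclose⟩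
    have := ((hu.pow s).1.mul hD1').mul (hu.pow y).1
    rwa [mul_smul_comm, smul_mul_assoc, ← pow_add, ← pow_add, e1] at this
  have hok : T.Ok :=
    { isProb_p := traceM_isProb hq.le hq1.le _
      isProb_r := traceM_isProb hq.le hq1.le _
      isProb_W := hu
      g_pos := by simp only [hT, Fam.stage, par]; positivity
      η_pos := by simp only [hT, Fam.stage, par]; positivity
      η_le := by
        simp only [hT, Fam.stage, par]
        rw [div_le_one (by positivity)]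
        exact one_le_pow₀ hb1
      small := by
        simp only [hT, Fam.stage, par]
        have h1 := hsmall 0 (5 * e - 10) (by omega)
        have h2 := hsmall 0 Q' (by omega)
        simp only [pow_zero] at h1 h2
        linarith
      dom_p := hdp
      dom_r := hdr
      dom_d := hdd }
  have hlen := length_rowStr ha1 A A' K s y
  have hlen' := length_rowStr ha1 A' A K s y
  refine ⟨⟨hok, hsmW, hsmU F hok hsmW, hlen.trans hlen'.symm, ?_, ?_,
    rowStr_ne ha1 s y hA hne hdis⟩, D₁, s, K, y, ⟨e1, hD1', hm1, hclose⟩, le_rfl, e2, e3⟩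
  · rw [show (F.P b).length = _ from hlen, e1]
    exact Nat.mul_pos (by omega) (by omega)
  · rw [show (F.P b).length = _ from hlen, e1]
    simp only [par]
    calc M * (4 * a + 1) ≤ M * (b * a) := by
          refine Nat.mul_le_mul_left _ ?_
          have : 5 * a ≤ b * a := Nat.mul_le_mul_right _ (by omega)
          omega
      _ = b ^ (8 * e + 5) := by rw [hM, ha]; ring
      _ ≤ _ := Nat.pow_le_pow_right (by omega) (by omega)

end Vale.Agent.P321
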