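import Vale.Agent.P321.Alg

/-!
The deletion channel as a monoid homomorphism into signed measures on bit strings, and the cells
used by the construction.
-/

namespace Vale.Agent.P321

open MonoidAlgebra

/-- Signed measures on bit strings. -/
abbrev Meas := MonoidAlgebra ℝ (FreeMonoid Bool)

/-- Trace law of one bit. -/
noncomputable def bitM (q : ℝ) (b : Bool) : Meas :=
  q • 1 + (1 - q) • single (FreeMonoid.of b) 1

/-- Trace law of a string. -/
noncomputable def traceM (q : ℝ) (s : List Bool) : Meas := (s.map (bitM q)).prod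

/-- Trace law of the cell `01`. -/
noncomputable def muM (q : ℝ) : Meas := bitM q false * bitM q true

/-- Trace law of the marker cell `(01)^a 0 (01)^a`. -/
noncomputable def uM (q : ℝ) (a : ℕ) : Meas := muM q ^ a * bitM q false * muM q ^ a

/-- The string `(01)^i 0 (01)^j`. -/
def markStr (i j : ℕ) : List Bool :=
  (List.replicate i [false, true]).flatten ++ [false] ++ (List.replicate j [false, true]).flatten

lemma traceM_append (q : ℝ) (s t : List Bool) : traceM q (s ++ t) = traceM q s * traceM q t := by
  simp [traceM]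

lemma traceM_flatten_replicate (q : ℝ) (s : List Bool) (n : ℕ) :
    traceM q (List.replicate n s).flatten = traceM q s ^ n := by
  induction n with
  | zero => simp [traceM]
  | succ n ih => rw [List.replicate_succ, List.flatten_cons, traceM_append, ih, pow_succ']

lemma traceM_markStr (q : ℝ) (i j : ℕ) :
    traceM q (markStr i j) = muM q ^ i * bitM q false * muM q ^ j := by
  rw [markStr, traceM_append, traceM_append, traceM_flatten_replicate,
    traceM_flatten_replicate]
  simp [traceM, muM]

lemma bitM_isProb {q : ℝ} (h0 : 0 ≤ q) (h1 : q ≤ 1) (b : Bool) : IsProb (bitM q b) := by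
  refine ⟨AbsLE.add ?_ ?_, by simp [bitM, map_add, map_smul]⟩
  · simpa [abs_of_nonneg h0] using (absLE_one (G := FreeMonoid Bool)).smul q
  · simpa [abs_of_nonneg (sub_nonneg.2 h1)] using
      (absLE_single (FreeMonoid.of b) zero_le_one).smul (1 - q)

lemma muM_isProb {q : ℝ} (h0 : 0 ≤ q) (h1 : q ≤ 1) : IsProb (muM q) :=
  (bitM_isProb h0 h1 _).mul (bitM_isProb h0 h1 _)

lemma traceM_isProb {q : ℝ} (h0 : 0 ≤ q) (h1 : q ≤ 1) : ∀ s, IsProb (traceM q s)
  | [] => by simpa [traceM] using IsProb.one
  | b :: s => by
    have := (bitM_isProb h0 h1 b).mul (traceM_isProb h0 h1 s)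
    simpa [traceM] using this

lemma uM_isProb {q : ℝ} (h0 : 0 ≤ q) (h1 : q ≤ 1) (a : ℕ) : IsProb (uM q a) :=
  (((muM_isProb h0 h1).pow a).mul (bitM_isProb h0 h1 _)).mul ((muM_isProb h0 h1).pow a)

end Vale.Agent.P321
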