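import Vale.Agent.P321.Flat

/-!
One level of the hierarchy at fixed parameters, second part: the new letters are patched powers
of the cell; first and second order bounds for them.
-/

namespace Vale.Agent.P321

open MonoidAlgebra Finset

variable {G : Type*} [Monoid G]

set_option linter.unusedSectionVars false

namespace Stage

variable (S : Stage G)

/-- The new letter: `U^s`, a patched block of `K` pairs, `U^y`. -/
noncomputable def patched (A B : Finset ℕ) (K s y : ℕ) : MonoidAlgebra ℝ G :=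
  S.U ^ s * wval S.p S.r (patchWord A B K) * S.U ^ y

/-- Second order part of a patched block. -/
noncomputable def quadBlock (A B : Finset ℕ) (K : ℕ) : MonoidAlgebra ℝ G :=
  wval S.p S.r (patchWord A B K) - wval S.p S.r (altWord K)
    - linPart S.p S.r (altWord K) (patchWord A B K)

variable {S}

lemma patched_sub (A B : Finset ℕ) (K s y : ℕ) :
    S.patched A B K s y - S.U ^ (s + K + y)
      = S.U ^ s * S.quadBlock A B K * S.U ^ y
        + S.U ^ s * linPart S.p S.r (altWord K) (patchWord A B K) * S.U ^ y := by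
  rw [quadBlock, patched, wval_altWord, ← Stage.U, pow_add, pow_add]
  noncomm_ring

lemma Ok.isProb_patched (h : S.Ok) (A B : Finset ℕ) (K s y : ℕ) :
    IsProb (S.patched A B K s y) :=
  ((h.isProb_U.pow _).mul (wval_isProb h.isProb_p h.isProb_r _)).mul (h.isProb_U.pow _)

/-- The linear part, as sums over the changed slots. -/
lemma env_linPart {A B : Finset ℕ} {K : ℕ} (hA : A ⊆ range K) (hB : B ⊆ range K) (s y : ℕ) :
    S.U ^ s * linPart S.p S.r (altWord K) (patchWord A B K) * S.U ^ y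
      = ∑ i ∈ B, S.U ^ (s + i) * (S.p * (S.p - S.r)) * S.U ^ (K - 1 + y - i)
        - ∑ i ∈ A, S.U ^ (s + i) * ((S.p - S.r) * S.r) * S.U ^ (K - 1 + y - i) := by
  have hA' : ∀ i ∈ A, i < K := fun i hi => mem_range.1 (hA hi)
  have hB' : ∀ i ∈ B, i < K := fun i hi => mem_range.1 (hB hi)
  rw [linPart_patchWord, mul_sum, sum_mul]
  simp only [mul_add, add_mul, sum_add_distrib, mul_ite, ite_mul, mul_zero, zero_mul]
  simp only [sum_ite_mem, inter_eq_right.2 hA, inter_eq_right.2 hB]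
  rw [add_comm, show S.p * S.r = S.U from rfl]
  refine Eq.trans (congrArg₂ (· + ·) ?_ ?_) (sub_eq_add_neg _ _).symm
  · refine sum_congr rfl fun i hi => ?_
    have := hB' i hi
    rw [show K - 1 + y - i = K - 1 - i + y by omega, pow_add, pow_add]
    simp only [mul_assoc]
  · rw [← sum_neg_distrib]
    refine sum_congr rfl fun i hi => ?_
    have := hA' i hi
    rw [show K - 1 + y - i = K - 1 - i + y by omega, pow_add, pow_add]
    simp only [mul_assoc, mul_neg, neg_mul]

/-- The linear parts of two patterns with equal moments per class nearly agree. -/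
lemma lin_diff (h : S.Ok) {A A' B B' : Finset ℕ} {K k s y m : ℕ} {C : ℝ}
    (hA : A ⊆ range K) (hA' : A' ⊆ range K) (hB : B ⊆ range K) (hB' : B' ⊆ range K)
    (hpat : ∀ (T : ℕ → MonoidAlgebra ℝ G) (D : ℝ), (∀ j < 2 * K, nrm ((fdiff^[k] T) j) ≤ D) →
      nrm (∑ i ∈ A, T i - ∑ i ∈ A', T i) ≤ C * D ∧
      nrm (∑ i ∈ B, T i - ∑ i ∈ B', T i) ≤ C * D)
    (hs : k * m ≤ s) (hy : k * m + (2 * K + k) ≤ y) :
    nrm (S.U ^ s * linPart S.p S.r (altWord K) (patchWord A B K) * S.U ^ y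
      - S.U ^ s * linPart S.p S.r (altWord K) (patchWord A' B' K) * S.U ^ y)
      ≤ 4 * C * (2 * nrm ((S.U - 1) * S.U ^ m)) ^ k := by
  set T : MonoidAlgebra ℝ G → ℕ → MonoidAlgebra ℝ G :=
    fun Z i => S.U ^ (s + i) * Z * S.U ^ (K - 1 + y - i)
  have hT : ∀ Z, nrm Z ≤ 2 → ∀ j < 2 * K,
      nrm ((fdiff^[k] (T Z)) j) ≤ 2 * (2 * nrm ((S.U - 1) * S.U ^ m)) ^ k := by
    intro Z hZ j hj
    have := nrm_fdiff_translate_le (Z := Z) h.isProb_U k 1 s (K - 1 + y) m j (by omega) (by omega)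
    simp only [one_mul, mul_one, Nat.cast_one] at this
    refine this.trans ?_
    rw [mul_comm (2 : ℝ) (_ ^ k)]
    exact mul_le_mul_of_nonneg_left hZ (pow_nonneg (mul_nonneg zero_le_two (nrm_nonneg _)) _)
  have hd : ∀ Z, IsProb Z → nrm ((S.p - S.r) * Z) ≤ 2 ∧ nrm (Z * (S.p - S.r)) ≤ 2 := by
    intro Z hZ
    have h2 : nrm (S.p - S.r) ≤ 2 :=
      (nrm_sub_le _ _).trans (by rw [h.isProb_p.nrm_eq, h.isProb_r.nrm_eq]; norm_num)
    exact ⟨(nrm_mul_le _ _).trans (by rwa [hZ.nrm_eq, mul_one]),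
      (nrm_mul_le _ _).trans (by rwa [hZ.nrm_eq, one_mul])⟩
  have h1 := (hpat (T ((S.p - S.r) * S.r)) _ (hT _ (hd _ h.isProb_r).1)).1
  have h2 := (hpat (T (S.p * (S.p - S.r))) _ (hT _ (hd _ h.isProb_p).2)).2
  rw [env_linPart hA hB, env_linPart hA' hB', sub_sub_sub_comm]
  refine (nrm_sub_le _ _).trans ?_
  have := add_le_add h2 h1
  linarith

/-- The linear part flattened and annihilated by the pattern. -/
lemma lin_flat (h : S.Ok) {A B : Finset ℕ} {K k s y m : ℕ} {C t E : ℝ}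
    (hA : A ⊆ range K) (hB : B ⊆ range K)
    (hpat : ∀ (T : ℕ → MonoidAlgebra ℝ G) (D : ℝ), (∀ j < 2 * K, nrm ((fdiff^[k] T) j) ≤ D) →
      nrm (∑ i ∈ A, T (2 * i) - ∑ i ∈ B, T (2 * i + 1)) ≤ C * D)
    (hS : S.FlatUpTo (2 * (s + K + y)) t E) (ht : 0 ≤ t) (ht' : t ≤ 1 / 20)
    (hE : E ≤ 1 / 9) (hεE : S.ε ≤ E)
    (hs : k * m ≤ S.M * (2 * s)) (hy : k * m + S.M * (2 * K + k) ≤ S.M * (2 * y)) :
    Dom (S.U ^ s * linPart S.p S.r (altWord K) (patchWord A B K) * S.U ^ y)
      (S.U ^ (s + K + y)) (120 * K * t * S.η)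
      (80 * K * E + 2 * C * (2 * S.M * nrm ((S.W - 1) * S.W ^ m)) ^ k + 60 * K * t * S.η * E) := by
  set n := 2 * (s + K + y) with hn
  have hH := h.isProb_H
  set X := S.M * (2 * s) with hX
  set Y := S.M * (n - 1 - 2 * s) with hY
  set T : ℕ → MonoidAlgebra ℝ G :=
    fun j => S.W ^ (X + S.M * j) * (S.p - S.r) * S.W ^ (Y - S.M * j) with hTdef
  have hTeq : ∀ j < 2 * K, T j = (S.W ^ S.M) ^ (2 * s + j) * (S.p - S.r)
      * (S.W ^ S.M) ^ (n - 1 - 2 * s - j) := by
    intro j hj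
    simp only [hTdef, hX, hY, ← pow_mul, Nat.mul_sub, mul_add]
  have hone : ∀ (x z : List Bool) (j : ℕ), j < 2 * K → x.length = 2 * s + j →
      z.length = n - 1 - 2 * s - j →
      Dom (wval S.p S.r x * (S.p - S.r) * wval S.p S.r z - T j) ((S.W ^ S.M) ^ n)
        (30 * t * S.η) (40 * E) := by
    intro x z j hj hx hz
    have := one_slot h hS ht ht' hE hεE x z (by omega)
    rwa [show x.length + 1 + z.length = n by omega, hx, hz, ← hTeq j hj] at this
  have hA1 : Dom (∑ i ∈ A, (S.U ^ (s + i) * ((S.p - S.r) * S.r) * S.U ^ (K - 1 + y - i)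
      - T (2 * i))) ((S.W ^ S.M) ^ n) (K * (30 * t * S.η)) (K * (40 * E)) := by
    have h1 := dom_sum A (hH.pow n).1 (η := fun _ => 30 * t * S.η) (ε := fun _ => 40 * E)
      (f := fun i => S.U ^ (s + i) * ((S.p - S.r) * S.r) * S.U ^ (K - 1 + y - i) - T (2 * i))
      fun i hi => by
        have hiK := mem_range.1 (hA hi)
        have := hone (altWord (s + i)) (true :: altWord (K - 1 + y - i)) (2 * i) (by omega)
          (by simp [mul_add]) (by simp; omega)
        simpa [wval_altWord, Stage.U, mul_assoc] using this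
    simp only [sum_const, nsmul_eq_mul] at h1
    have hcard : (A.card : ℝ) ≤ K := by
      exact_mod_cast (card_le_card hA).trans_eq (card_range K)
    refine h1.mono (hH.pow n).1 ?_ ?_
    · exact mul_le_mul_of_nonneg_right hcard (by have := h.η_pos; positivity)
    · exact mul_le_mul_of_nonneg_right hcard (by have := h.eps_nonneg; linarith)
  have hB1 : Dom (∑ i ∈ B, (S.U ^ (s + i) * (S.p * (S.p - S.r)) * S.U ^ (K - 1 + y - i)
      - T (2 * i + 1))) ((S.W ^ S.M) ^ n) (K * (30 * t * S.η)) (K * (40 * E)) := by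
    have h1 := dom_sum B (hH.pow n).1 (η := fun _ => 30 * t * S.η) (ε := fun _ => 40 * E)
      (f := fun i => S.U ^ (s + i) * (S.p * (S.p - S.r)) * S.U ^ (K - 1 + y - i) - T (2 * i + 1))
      fun i hi => by
        have hiK := mem_range.1 (hB hi)
        have := hone (altWord (s + i) ++ [false]) (altWord (K - 1 + y - i)) (2 * i + 1) (by omega)
          (by simp [mul_add, add_assoc]) (by simp; omega)
        simpa [wval_altWord, Stage.U, mul_assoc] using this
    simp only [sum_const, nsmul_eq_mul] at h1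
    have hcard : (B.card : ℝ) ≤ K := by
      exact_mod_cast (card_le_card hB).trans_eq (card_range K)
    refine h1.mono (hH.pow n).1 ?_ ?_
    · exact mul_le_mul_of_nonneg_right hcard (by have := h.η_pos; positivity)
    · exact mul_le_mul_of_nonneg_right hcard (by have := h.eps_nonneg; linarith)
  have hd : nrm (S.p - S.r) ≤ 2 :=
    (nrm_sub_le _ _).trans (by rw [h.isProb_p.nrm_eq, h.isProb_r.nrm_eq]; norm_num)
  have hflat := hpat T (2 * (2 * S.M * nrm ((S.W - 1) * S.W ^ m)) ^ k) fun j hj => by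
    have := nrm_fdiff_translate_le (Z := S.p - S.r) h.isProb_W k S.M X Y m j (by omega) (by
      have h1 : S.M * (j + k) ≤ S.M * (2 * K + k) := Nat.mul_le_mul_left _ (by omega)
      have h2 : S.M * (2 * y) ≤ Y := Nat.mul_le_mul_left _ (by omega)
      omega)
    refine this.trans ?_
    rw [mul_comm (2 : ℝ) (_ ^ k)]
    exact mul_le_mul_of_nonneg_left hd (pow_nonneg (mul_nonneg (by positivity) (nrm_nonneg _)) _)
  have h2 := (hB1.sub hA1).add ((Dom.of_nrm (hH.pow n).1).mono (hH.pow n).1 le_rfl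
    ((nrm_sub_comm _ _).trans_le hflat))
  rw [sum_sub_distrib, sum_sub_distrib, sub_sub_sub_comm, sub_add_cancel,
    ← env_linPart hA hB] at h2
  have h3 := h2.change (by have := h.η_pos; positivity) (pow_U_dom hS (K := s + K + y) le_rfl)
  refine h3.mono (h.isProb_U.pow _).1 (by nlinarith) ?_
  nlinarith

/-- The quadratic part of a block. -/
lemma quad_block (h : S.Ok) {A B : Finset ℕ} {K : ℕ} {t E : ℝ}
    (hS : S.FlatUpTo (2 * K) t E) (hE : E ≤ 1 / 50) (hεE : S.ε ≤ E) (hη : S.η ≤ 1 / 4) :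
    Dom (S.quadBlock A B K) (S.U ^ K) (64 * (K : ℝ) ^ 2 * S.η ^ 2)
      (2100 * (K : ℝ) ^ 2 * E) := by
  have hE0 : 0 ≤ E := h.eps_nonneg.trans hεE
  have h1 := word_quad_dom (p := S.p) (r := S.r) (R := (S.W ^ S.M) ^ (2 * K))
    (η := 8 * S.η ^ 2) (ε := 500 * E) (h.isProb_H.pow _).1 (by positivity) (by positivity)
    (altWord K) (patchWord A B K) (by simp) LinearMap.id fun x y z hxz => by
      rw [length_altWord] at hxz
      have := two_slots h hS hE hεE hη x y z (by omega)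
      rwa [show x.length + 1 + y.length + 1 + z.length = 2 * K by omega] at this
  have h2 := h1.change (by positivity) (pow_U_dom hS (K := K) le_rfl)
  simp only [LinearMap.id_apply, length_altWord, Nat.cast_mul, Nat.cast_ofNat] at h2
  have hη2 : S.η ^ 2 ≤ 1 / 16 := by nlinarith [h.η_pos]
  refine h2.mono (h.isProb_U.pow _).1 (le_of_eq (by ring)) ?_
  nlinarith [mul_le_mul_of_nonneg_right hη2 (mul_nonneg (sq_nonneg (K : ℝ)) hE0),
    mul_nonneg (sq_nonneg (K : ℝ)) hE0]

lemma mass_quadBlock (h : S.Ok) (A B : Finset ℕ) (K : ℕ) : mass (S.quadBlock A B K) = 0 := by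
  have hl : ∀ c v : List Bool, mass (linPart S.p S.r c v) = 0 := by
    intro c
    induction c with
    | nil => intro v; cases v <;> simp [linPart]
    | cons a c ih =>
      intro v
      cases v with
      | nil => simp [linPart]
      | cons b v =>
        simp only [linPart, map_add, map_mul, ih v, mul_zero, add_zero, map_sub]
        cases a <;> cases b <;> simp [h.isProb_p.2, h.isProb_r.2]
  simp [quadBlock, hl, (wval_isProb h.isProb_p h.isProb_r _).2]

/-- The new letter is close to a power of the cell. -/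
lemma patched_dom (h : S.Ok) {A B : Finset ℕ} {K k s y m : ℕ} {C t E : ℝ}
    (hA : A ⊆ range K) (hB : B ⊆ range K)
    (hpat : ∀ (T : ℕ → MonoidAlgebra ℝ G) (D : ℝ), (∀ j < 2 * K, nrm ((fdiff^[k] T) j) ≤ D) →
      nrm (∑ i ∈ A, T (2 * i) - ∑ i ∈ B, T (2 * i + 1)) ≤ C * D)
    (hS : S.FlatUpTo (2 * (s + K + y)) t E) (ht : 0 ≤ t) (ht' : t ≤ 1 / 20)
    (hE : E ≤ 1 / 50) (hεE : S.ε ≤ E) (hη : S.η ≤ 1 / 4)
    (hs : k * m ≤ S.M * (2 * s)) (hy : k * m + S.M * (2 * K + k) ≤ S.M * (2 * y)) :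
    Dom (S.patched A B K s y - S.U ^ (s + K + y)) (S.U ^ (s + K + y))
      (64 * (K : ℝ) ^ 2 * S.η ^ 2 + 120 * K * t * S.η)
      (2100 * (K : ℝ) ^ 2 * E + (80 * K * E + 2 * C * (2 * S.M * nrm ((S.W - 1) * S.W ^ m)) ^ k
        + 60 * K * t * S.η * E)) := by
  rw [patched_sub]
  refine Dom.add ?_ (lin_flat h hA hB hpat hS ht ht' (by linarith) hεE hs hy)
  have hq := quad_block h (A := A) (B := B) (K := K) (fun w hw => hS w (by omega)) hE hεE hη
  have := (hq.mulLeft (h.isProb_U.pow s) (h.isProb_U.pow K)).mulRight (h.isProb_U.pow y)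
    ((h.isProb_U.pow s).mul (h.isProb_U.pow K)) (by have := h.η_pos; positivity)
  rwa [← pow_add, ← pow_add] at this

/-- Two patched letters differ by a centred window, up to an error. -/
lemma patched_window (h : S.Ok) {A A' B B' : Finset ℕ} {K k s y m : ℕ} {C t E : ℝ}
    (hA : A ⊆ range K) (hA' : A' ⊆ range K) (hB : B ⊆ range K) (hB' : B' ⊆ range K)
    (hpat : ∀ (T : ℕ → MonoidAlgebra ℝ G) (D : ℝ), (∀ j < 2 * K, nrm ((fdiff^[k] T) j) ≤ D) →
      nrm (∑ i ∈ A, T i - ∑ i ∈ A', T i) ≤ C * D ∧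
      nrm (∑ i ∈ B, T i - ∑ i ∈ B', T i) ≤ C * D)
    (hS : S.FlatUpTo (2 * K) t E) (hE : E ≤ 1 / 50) (hεE : S.ε ≤ E) (hη : S.η ≤ 1 / 4)
    (hs : k * m ≤ s) (hy : k * m + (2 * K + k) ≤ y) :
    ∃ D₁, mass D₁ = 0 ∧
      AbsLE D₁ ((128 * (K : ℝ) ^ 2 * S.η ^ 2 + 4200 * (K : ℝ) ^ 2 * E) • S.U ^ K) ∧
      nrm (S.patched A B K s y - S.patched A' B' K s y - S.U ^ s * D₁ * S.U ^ y)
        ≤ 8400 * (K : ℝ) ^ 2 * E + 4 * C * (2 * nrm ((S.U - 1) * S.U ^ m)) ^ k := by
  have hq := (quad_block h (A := A) (B := B) hS hE hεE hη).sub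
    (quad_block h (A := A') (B := B') hS hE hεE hη)
  obtain ⟨D₁, hm, hD, he⟩ := hq.massZero (h.isProb_U.pow K)
    (by rw [map_sub, mass_quadBlock h, mass_quadBlock h, sub_zero])
  refine ⟨D₁, hm, ?_, ?_⟩
  · convert hD using 2; ring
  rw [← sub_sub_sub_cancel_right (S.patched A B K s y) (S.patched A' B' K s y)
    (S.U ^ (s + K + y)), patched_sub, patched_sub,
    show ∀ a b c d a' c' : MonoidAlgebra ℝ G, a * b * c + d - (a * a' * c + c') - a * D₁ * c
      = a * (b - a' - D₁) * c + (d - c') from fun a b c d a' c' => by noncomm_ring]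
  refine (nrm_add_le _ _).trans (add_le_add ?_ (lin_diff h hA hA' hB hB' hpat hs hy))
  refine (nrm_mul_le _ _).trans ?_
  rw [(h.isProb_U.pow _).nrm_eq, mul_one]
  refine (nrm_mul_le _ _).trans ?_
  rw [(h.isProb_U.pow _).nrm_eq, one_mul]
  linarith

end Stage

end Vale.Agent.P321
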