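import Vale.Agent.P321.Bridge

/-!
From pairs of strings with close trace laws to a super-polynomial sample complexity.
-/

namespace Vale.Agent.P321

open Filter

/-- For infinitely many scales there are two strings of length at most `c * b ^ d` whose trace laws
are within `b ^ (-d * B)`. -/
def PairsAt (q : ℝ) (B : ℕ) : Prop :=
  ∃ c d : ℕ, 0 < c ∧ 0 < d ∧ ∀ᶠ b : ℕ in atTop, ∃ x y : List Bool, x.length = y.length ∧ x ≠ y ∧
    x.length ≤ c * b ^ d ∧ nrm (traceM q x - traceM q y) ≤ 1 / (b : ℝ) ^ (d * B)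

lemma exists_scale {c d n : ℕ} (hc : 0 < c) (hd : 0 < d) (hn : c ≤ n) :
    ∃ b, 1 ≤ b ∧ c * b ^ d ≤ n ∧ n < c * (b + 1) ^ d := by
  classical
  have hex : ∃ b, n < c * (b + 1) ^ d :=
    ⟨n, lt_of_lt_of_le (Nat.lt_succ_self n)
      ((Nat.le_self_pow hd.ne' (n + 1)).trans (Nat.le_mul_of_pos_left _ hc))⟩
  refine ⟨Nat.find hex, ?_, ?_, Nat.find_spec hex⟩
  · by_contra h
    have h0 : Nat.find hex = 0 := by omega
    have := Nat.find_spec hex
    rw [h0] at this
    simp at this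
    omega
  · rcases Nat.eq_zero_or_pos (Nat.find hex) with h | h
    · simp [h, zero_pow hd.ne']
    · have := Nat.find_min hex (show Nat.find hex - 1 < Nat.find hex by omega)
      rw [Nat.sub_add_cancel h] at this
      omega

/-- Close pairs at every exponent give more than polynomially many traces. -/
theorem superpolynomial_of_pairs {q : ℝ} (h0 : 0 ≤ q) (h1 : q ≤ 1) (H : ∀ B, PairsAt q B) :
    ∀ k : ℕ, ∃ n₀ : ℕ, ∀ n ≥ n₀, ∀ m, CanReconstruct q n m → (n : ℝ) ^ k ≤ m := by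
  intro k
  obtain ⟨c, d, hc, hd, hev⟩ := H (k + 1)
  obtain ⟨b₀, hb₀⟩ := eventually_atTop.1 hev
  refine ⟨c * (b₀ + 2) ^ d + ⌈3 / 2 * (((c * 2 ^ d : ℕ) : ℝ)) ^ (k + 1)⌉₊, fun n hn m hm => ?_⟩
  have hcn : c ≤ n :=
    (Nat.le_mul_of_pos_right c (pow_pos (by omega) d)).trans (le_trans (Nat.le_add_right _ _) hn)
  obtain ⟨b, hb1, hbn, hnb⟩ := exists_scale hc hd hcn
  have hbb : b₀ ≤ b := by
    by_contra h
    have : c * (b + 1) ^ d ≤ c * (b₀ + 2) ^ d :=
      Nat.mul_le_mul_left _ (Nat.pow_le_pow_left (by omega) _)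
    omega
  obtain ⟨x, y, hlen, hne, hxlen, hclose⟩ := hb₀ b hbb
  set pad := List.replicate (n - x.length) false with hpad
  have hxn : (x ++ pad).length = n := by
    rw [List.length_append, hpad, List.length_replicate]
    have := hxlen.trans hbn
    omega
  have hyn : (y ++ pad).length = n := by
    rw [List.length_append, ← hlen, ← List.length_append]; exact hxn
  set fx : Fin n → Bool := fun i => (x ++ pad).get (i.cast hxn.symm) with hfx
  set fy : Fin n → Bool := fun i => (y ++ pad).get (i.cast hyn.symm) with hfy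
  have ex : List.ofFn fx = x ++ pad := List.ext_get (by rw [List.length_ofFn, hxn]) fun i h h' => by
    simp [hfx]
  have ey : List.ofFn fy = y ++ pad := List.ext_get (by rw [List.length_ofFn, hyn]) fun i h h' => by
    simp [hfy]
  have hxy : fx ≠ fy := fun h => hne (List.append_cancel_right (ex.symm.trans (h ▸ ey)))
  have key := le_of_canReconstruct h0 h1 hxy hm
  rw [ex, ey, traceM_append, traceM_append, ← sub_mul] at key
  have hd' : nrm ((traceM q x - traceM q y) * traceM q pad) ≤ 1 / (b : ℝ) ^ (d * (k + 1)) := by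
    refine (nrm_mul_le _ _).trans ?_
    rw [(traceM_isProb h0 h1 pad).nrm_eq, mul_one]
    exact hclose
  have hb' : (0 : ℝ) < (b : ℝ) ^ (d * (k + 1)) := pow_pos (Nat.cast_pos.2 hb1) _
  have h23 : 2 / 3 * (b : ℝ) ^ (d * (k + 1)) ≤ m := by
    have := key.trans (mul_le_mul_of_nonneg_left hd' (Nat.cast_nonneg m))
    rwa [mul_one_div, le_div_iff₀ hb'] at this
  -- the exponent
  set C : ℝ := ((c * 2 ^ d : ℕ) : ℝ) with hC
  have hC0 : 0 < C := by rw [hC]; exact_mod_cast Nat.mul_pos hc (pow_pos (by omega) d)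
  have hnC : (n : ℝ) ≤ C * (b : ℝ) ^ d := by
    have h2 : n ≤ c * 2 ^ d * b ^ d := by
      refine hnb.le.trans ?_
      rw [mul_assoc, ← mul_pow]
      exact Nat.mul_le_mul_left _ (Nat.pow_le_pow_left (by omega) _)
    have h3 : (n : ℝ) ≤ ((c * 2 ^ d * b ^ d : ℕ) : ℝ) := by exact_mod_cast h2
    simpa [hC] using h3
  have hbig : 3 / 2 * C ^ (k + 1) ≤ (n : ℝ) := by
    refine (Nat.le_ceil _).trans ?_
    exact_mod_cast le_trans (Nat.le_add_left _ _) hn
  have hpow : (n : ℝ) ^ (k + 1) ≤ C ^ (k + 1) * (b : ℝ) ^ (d * (k + 1)) := by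
    rw [pow_mul, ← mul_pow]
    exact pow_le_pow_left₀ (Nat.cast_nonneg n) hnC _
  have hn0 : (0 : ℝ) ≤ (n : ℝ) ^ k := by positivity
  nlinarith [mul_le_mul_of_nonneg_left hbig hn0, pow_succ (n : ℝ) k,
    mul_le_mul_of_nonneg_left h23 (show (0 : ℝ) ≤ C ^ (k + 1) by positivity),
    pow_pos hC0 (k + 1)]

end Vale.Agent.P321
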