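import Vale.Agent.P321.Bridge

/-!
Sanity check of the definitions: at every deletion rate below one enough traces do suffice.
-/

namespace Vale.Agent.P321

open MonoidAlgebra Finset

lemma traceProb_longer (q : ℝ) : ∀ x z : List Bool, x.length < z.length → traceProb q x z = 0
  | [], [], h => by simp at h
  | [], _ :: _, _ => by simp [traceProb]
  | _ :: _, [], h => by simp at h
  | b :: x, c :: z, h => by
    simp only [List.length_cons] at h
    rw [traceProb, traceProb_longer q x (c :: z) (by simp only [List.length_cons]; omega),
      traceProb_longer q x z (by omega)]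
    simp

lemma traceProb_same_length (q : ℝ) : ∀ x z : List Bool, x.length = z.length →
    traceProb q x z = if x = z then (1 - q) ^ x.length else 0
  | [], [], _ => by simp [traceProb]
  | [], _ :: _, h => by simp at h
  | _ :: _, [], h => by simp at h
  | b :: x, c :: z, h => by
    simp only [List.length_cons, Nat.add_right_cancel_iff] at h
    rw [traceProb, traceProb_longer q x (c :: z) (by simp only [List.length_cons]; omega),
      traceProb_same_length q x z h, mul_zero, zero_add, List.length_cons, pow_succ']
    by_cases h1 : b = c <;> by_cases h2 : x = z <;> simp [h1, h2]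

/-- With enough traces some estimator succeeds. -/
theorem exists_canReconstruct {q : ℝ} (h0 : 0 ≤ q) (h1 : q < 1) (n : ℕ) :
    ∃ m, CanReconstruct q n m := by
  classical
  have hp : 0 < (1 - q) ^ n := pow_pos (by linarith) n
  have hp1 : (1 - q) ^ n ≤ 1 := pow_le_one₀ (by linarith) (by linarith)
  obtain ⟨m, hm⟩ := exists_pow_lt_of_lt_one (show (0 : ℝ) < 1 / 3 by norm_num)
    (show 1 - (1 - q) ^ n < 1 by linarith)
  let pick : (Fin m → List Bool) → Fin n → Bool := fun s =>
    if h : ∃ i, (s i).length = n then fun j => (s h.choose).get (j.cast h.choose_spec.symm)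
    else fun _ => false
  refine ⟨m, ⟨fun s x => if pick s = x then 1 else 0, fun s x => by split <;> norm_num,
    fun s => by simp⟩, fun x => ?_⟩
  set L := List.ofFn x with hL
  set S : Finset (List Bool) := (traceM q L).coeff.support.image FreeMonoid.toList with hS
  have hP := traceM_isProb h0 h1.le L
  have hnn : ∀ z, 0 ≤ traceProb q L z := fun z => by rw [← coeff_traceM]; exact hP.1.nonneg _
  have hout : ∀ z, z ∉ S → traceProb q L z = 0 := fun z hz => by
    rw [← coeff_traceM]
    by_contra hne
    exact hz (mem_image.2 ⟨_, Finsupp.mem_support_iff.2 hne, FreeMonoid.toList_ofList z⟩)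
  have hsum : ∑ z ∈ S, traceProb q L z = 1 := by
    rw [hS, sum_image (fun a _ b _ h => FreeMonoid.toList.injective h), ← hP.2,
      mass_eq _ subset_rfl]
    exact sum_congr rfl fun a _ => by rw [← coeff_traceM, FreeMonoid.ofList_toList]
  have hxx : traceProb q L L = (1 - q) ^ n := by
    rw [traceProb_same_length q L L rfl, if_pos rfl, hL, List.length_ofFn]
  have hmem : L ∈ S := by
    by_contra hne
    exact hp.ne' (hxx.symm.trans (hout L hne))
  have hts : successProb q ⟨fun s x => if pick s = x then 1 else 0,
      fun s x => by split <;> norm_num, fun s => by simp⟩ x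
      = ∑ s ∈ Fintype.piFinset fun _ : Fin m => S,
          (∏ i, traceProb q L (s i)) * if pick s = x then 1 else 0 := by
    refine tsum_eq_sum fun s hs => ?_
    obtain ⟨i, hi⟩ : ∃ i, s i ∉ S := by simpa [Fintype.mem_piFinset] using hs
    rw [prod_eq_zero (mem_univ i) (hout _ hi), zero_mul]
  rw [hts]
  have key : ∀ s ∈ Fintype.piFinset fun _ : Fin m => S,
      (∏ i, traceProb q L (s i))
        - (if s ∈ (Fintype.piFinset fun _ : Fin m => S.erase L) then ∏ i, traceProb q L (s i)
            else 0)
      ≤ (∏ i, traceProb q L (s i)) * if pick s = x then 1 else 0 := by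
    intro s hs
    by_cases hs' : s ∈ Fintype.piFinset fun _ : Fin m => S.erase L
    · rw [if_pos hs', sub_self]
      exact mul_nonneg (prod_nonneg fun i _ => hnn _) (by split <;> norm_num)
    · rw [if_neg hs', sub_zero]
      obtain ⟨i, hi⟩ : ∃ i, s i = L := by
        by_contra hcon
        push Not at hcon
        exact hs' (Fintype.mem_piFinset.2 fun i =>
          mem_erase.2 ⟨hcon i, Fintype.mem_piFinset.1 hs i⟩)
      by_cases hz : ∏ i, traceProb q L (s i) = 0
      · simp [hz]
      have hex : ∃ i, (s i).length = n := ⟨i, by rw [hi, hL, List.length_ofFn]⟩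
      have hj : s hex.choose = L := by
        have hne : traceProb q L (s hex.choose) ≠ 0 := fun h => hz (prod_eq_zero (mem_univ _) h)
        rw [traceProb_same_length q L _ (by rw [hL, List.length_ofFn, hex.choose_spec])] at hne
        by_contra hne'
        exact hne (if_neg (Ne.symm hne'))
      have hpick : pick s = x := by
        funext j
        simp only [pick, dif_pos hex]
        simp only [List.get_eq_getElem, hj, hL, List.getElem_ofFn, Fin.val_cast, Fin.eta]
      rw [if_pos hpick, mul_one]
  refine le_trans ?_ (sum_le_sum key)
  have hsub : Fintype.piFinset (fun _ : Fin m => S.erase L) ⊆ Fintype.piFinset fun _ => S :=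
    Fintype.piFinset_subset _ _ fun _ => erase_subset _ _
  rw [sum_sub_distrib, sum_ite_mem, inter_eq_right.2 hsub, ← prod_univ_sum, ← prod_univ_sum,
    hsum, sum_erase_eq_sub hmem, hsum, hxx, prod_const_one, prod_const, card_univ, Fintype.card_fin]
  linarith

end Vale.Agent.P321
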