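import Vale.Agent.P321.Kernel

/-!
Four finite sets of slot indices with equal moments, two of them even and two odd.
-/

namespace Vale.Agent.P321

open MonoidAlgebra Finset

variable {G : Type*} [Monoid G]

/-- The value of a set of ternary digits. -/
private def tern (t : Finset ℕ) : ℕ := ∑ i ∈ t, 3 ^ i

private lemma tern_parity (t : Finset ℕ) : tern t % 2 = t.card % 2 := by
  rw [tern, Finset.sum_nat_mod]
  simp [Nat.pow_mod]

private lemma tern_inj : Function.Injective tern := Finset.geomSum_injective (n := 3) (by norm_num)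

private lemma tern_lt {n : ℕ} {t : Finset ℕ} (ht : t ⊆ range n) : tern t < 3 ^ n :=
  Nat.geomSum_lt (by norm_num) fun i hi => mem_range.1 (ht hi)

/-- An alternating sum over subsets of steps is a high difference. -/
private lemma nrm_alt_le (L : ℕ) : ∀ (n : ℕ) (T : ℕ → MonoidAlgebra ℝ G) (j : ℕ) {D : ℝ},
    (∀ i, j ≤ i → i ≤ j + L * tern (range n) → nrm ((fdiff^[n] T) i) ≤ D) →
    nrm (∑ t ∈ (range n).powerset, (-1 : ℝ) ^ t.card • T (j + L * tern t))
      ≤ (∏ i ∈ range n, ((L : ℝ) * 3 ^ i)) * D := by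
  intro n
  induction n with
  | zero =>
    intro T j D h
    simpa [tern] using h j le_rfl (Nat.le_add_right _ _)
  | succ n ih =>
    intro T j D h
    have hni : ∀ t ∈ (range n).powerset, n ∉ t := fun t ht h' =>
      notMem_range_self (mem_powerset.1 ht h')
    have hsum : tern (range (n + 1)) = tern (range n) + 3 ^ n := sum_range_succ _ n
    have e : ∑ t ∈ (range (n + 1)).powerset, (-1 : ℝ) ^ t.card • T (j + L * tern t)
        = -∑ u ∈ range (L * 3 ^ n),
            ∑ t ∈ (range n).powerset, (-1 : ℝ) ^ t.card • fdiff T (j + u + L * tern t) := by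
      rw [range_add_one, sum_powerset_insert notMem_range_self, sum_comm (s := range (L * 3 ^ n)),
        ← sum_add_distrib, ← sum_neg_distrib]
      refine sum_congr rfl fun t ht => ?_
      have ht' := hni t ht
      rw [← smul_sum, card_insert_of_notMem ht',
        show tern (insert n t) = 3 ^ n + tern t from sum_insert ht', pow_succ,
        mul_neg_one, neg_smul, ← sub_eq_add_neg, ← smul_sub, ← smul_neg]
      congr 1
      have := sum_range_sub (fun u => T (j + u + L * tern t)) (L * 3 ^ n)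
      simp only [fdiff]
      rw [show j + L * (3 ^ n + tern t) = j + L * 3 ^ n + L * tern t by ring]
      rw [eq_comm, neg_eq_iff_eq_neg, neg_sub]
      simpa [add_right_comm, add_assoc, add_comm, add_left_comm] using this
    rw [e, nrm_neg, prod_range_succ, mul_comm (∏ i ∈ range n, _) _, mul_assoc]
    refine (nrm_sum_le _ _).trans ?_
    refine (sum_le_card_nsmul _ _ ((∏ i ∈ range n, ((L : ℝ) * 3 ^ i)) * D) fun u hu => ?_).trans
      (le_of_eq (by simp))
    refine ih (fdiff T) (j + u) fun i hi hi' => ?_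
    rw [← Function.iterate_succ_apply]
    have := mem_range.1 hu
    refine h i (by omega) ?_
    rw [hsum, mul_add]; omega

/-- Slot patterns: `A, A'` are placed at even slots, `B, B'` at odd slots, all with equal moments
below degree `k`, stated on arbitrary sequences of measures. -/
theorem exists_pattern (k : ℕ) :
    ∃ (K : ℕ) (A A' B B' : Finset ℕ) (C : ℝ), 0 < C ∧ Disjoint A A' ∧ A.Nonempty ∧ A'.Nonempty ∧
      A ⊆ range K ∧ A' ⊆ range K ∧ B ⊆ range K ∧ B' ⊆ range K ∧ Disjoint B B' ∧
      A.card = B.card ∧ A'.card = B'.card ∧ A.card = A'.card ∧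
      ∀ (T : ℕ → MonoidAlgebra ℝ G) (D : ℝ), (∀ j < 2 * K, nrm ((fdiff^[k] T) j) ≤ D) →
        nrm (∑ i ∈ A, T i - ∑ i ∈ A', T i) ≤ C * D ∧
        nrm (∑ i ∈ B, T i - ∑ i ∈ B', T i) ≤ C * D ∧
        nrm (∑ i ∈ A, T (2 * i) - ∑ i ∈ B, T (2 * i + 1)) ≤ C * D ∧
        nrm (∑ i ∈ A', T (2 * i) - ∑ i ∈ B', T (2 * i + 1)) ≤ C * D := by
  classical
  set n := k + 1 with hn
  set L := 3 ^ n with hL
  set E := (range n).powerset.filter (fun t => Even t.card) with hE
  set O := (range n).powerset.filter (fun t => ¬Even t.card) with hO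
  set Φ : Finset ℕ × Finset ℕ → ℕ := fun p => tern p.1 / 2 + L * tern p.2 with hΦ
  have hL0 : 0 < L := by positivity
  have hsubE : ∀ t ∈ E, t ⊆ range n := fun t ht => mem_powerset.1 (mem_filter.1 ht).1
  have hsubO : ∀ t ∈ O, t ⊆ range n := fun t ht => mem_powerset.1 (mem_filter.1 ht).1
  have hdec : ∀ {p p' : Finset ℕ × Finset ℕ}, p.1 ⊆ range n → p'.1 ⊆ range n →
      p.1.card % 2 = p'.1.card % 2 → Φ p = Φ p' → p = p' := by
    intro p p' h h' hpar he
    have h1 := tern_lt h
    have h2 := tern_lt h'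
    simp only [hΦ] at he
    have e1 := congrArg (· % L) he
    simp only [Nat.add_mul_mod_self_left] at e1
    rw [Nat.mod_eq_of_lt (by omega), Nat.mod_eq_of_lt (by omega)] at e1
    have e2 : tern p.2 = tern p'.2 := Nat.eq_of_mul_eq_mul_left hL0 (by omega)
    refine Prod.ext (tern_inj ?_) (tern_inj e2)
    have := tern_parity p.1
    have := tern_parity p'.1
    omega
  have hevE : ∀ t ∈ E, t.card % 2 = 0 := fun t ht => Nat.even_iff.1 (mem_filter.1 ht).2
  have hevO : ∀ t ∈ O, t.card % 2 = 1 := fun t ht => Nat.not_even_iff.1 (mem_filter.1 ht).2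
  have hinj : ∀ (X Y : Finset (Finset ℕ)), (∀ t ∈ X, t ⊆ range n) → (∀ t ∈ X, ∀ t' ∈ X,
      t.card % 2 = t'.card % 2) → Set.InjOn Φ ↑(X ×ˢ Y) := by
    intro X Y hX hpar p hp p' hp' he
    rw [mem_coe, mem_product] at hp hp'
    exact hdec (hX _ hp.1) (hX _ hp'.1) (hpar _ hp.1 _ hp'.1) he
  have injE : ∀ Y, Set.InjOn Φ ↑(E ×ˢ Y) := fun Y => hinj E Y hsubE fun t ht t' ht' => by
    rw [hevE t ht, hevE t' ht']
  have injO : ∀ Y, Set.InjOn Φ ↑(O ×ˢ Y) := fun Y => hinj O Y hsubO fun t ht t' ht' => by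
    rw [hevO t ht, hevO t' ht']
  have hcard : E.card = O.card := by
    have h := sum_powerset_neg_one_pow_card_of_nonempty (nonempty_range_iff.2 (by omega : n ≠ 0))
    rw [← sum_filter_add_sum_filter_not _ (fun t => Even t.card), ← hE, ← hO,
      sum_congr rfl (fun t ht => (mem_filter.1 ht).2.neg_one_pow),
      sum_congr rfl (fun t ht => (Nat.not_even_iff_odd.1 (mem_filter.1 ht).2).neg_one_pow)] at h
    simp only [sum_const, nsmul_eq_mul, mul_one, mul_neg] at h
    simp only [← sub_eq_add_neg, sub_eq_zero, Nat.cast_inj] at h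
    simpa [hO] using h
  have hEne : E.Nonempty := ⟨∅, mem_filter.2 ⟨empty_mem_powerset _, by simp⟩⟩
  have hOne : O.Nonempty := card_pos.1 (hcard ▸ card_pos.2 hEne)
  set K := 4 * (L * L) with hK
  have hbd : ∀ (X Y : Finset (Finset ℕ)), (∀ t ∈ X, t ⊆ range n) → (∀ t ∈ Y, t ⊆ range n) →
      (X ×ˢ Y).image Φ ⊆ range K := by
    intro X Y hX hY x hx
    obtain ⟨p, hp, rfl⟩ := mem_image.1 hx
    rw [mem_product] at hp
    have h1 := tern_lt (hX _ hp.1)
    have h3 : L * tern p.2 ≤ L * L := Nat.mul_le_mul_left _ (tern_lt (hY _ hp.2)).le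
    have h4 : L ≤ L * L := Nat.le_mul_of_pos_left L hL0
    rw [mem_range]
    simp only [hΦ]
    omega
  have hdisj : ∀ (X : Finset (Finset ℕ)), (∀ t ∈ X, t ⊆ range n) → (∀ t ∈ X, ∀ t' ∈ X,
      t.card % 2 = t'.card % 2) → Disjoint ((X ×ˢ E).image Φ) ((X ×ˢ O).image Φ) := by
    intro X hX hpar
    rw [disjoint_left]
    intro x hx hx'
    obtain ⟨p, hp, rfl⟩ := mem_image.1 hx
    obtain ⟨p', hp', he⟩ := mem_image.1 hx'
    rw [mem_product] at hp hp'
    have := hdec (hX _ hp'.1) (hX _ hp.1) (hpar _ hp'.1 _ hp.1) he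
    subst this
    have := hevE _ hp.2
    have := hevO _ hp'.2
    omega
  set P : ℝ := ((L : ℝ) * L) ^ n with hP
  refine ⟨K, (E ×ˢ E).image Φ, (E ×ˢ O).image Φ, (O ×ˢ E).image Φ, (O ×ˢ O).image Φ,
    2 ^ n * P * 2, by positivity,
    hdisj E hsubE (fun t ht t' ht' => by rw [hevE t ht, hevE t' ht']),
    (hEne.product hEne).image _, (hEne.product hOne).image _,
    hbd E E hsubE hsubE, hbd E O hsubE hsubO, hbd O E hsubO hsubE, hbd O O hsubO hsubO,
    hdisj O hsubO (fun t ht t' ht' => by rw [hevO t ht, hevO t' ht']), ?_, ?_, ?_, ?_⟩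
  · rw [card_image_of_injOn (injE _), card_image_of_injOn (injO _), card_product, card_product,
      hcard]
  · rw [card_image_of_injOn (injE _), card_image_of_injOn (injO _), card_product, card_product,
      hcard]
  · rw [card_image_of_injOn (injE _), card_image_of_injOn (injE _), card_product, card_product,
      hcard]
  intro T D hT
  have hD : 0 ≤ D := (nrm_nonneg _).trans (hT 0 (by positivity))
  have hT' : ∀ i, i + 1 < 2 * K → nrm ((fdiff^[n] T) i) ≤ 2 * D := fun i hi => by
    rw [hn, fdiff_iterate_succ]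
    exact (nrm_sub_le _ _).trans (by linarith [hT (i + 1) hi, hT i (by omega)])
  have halt : ∀ (f : Finset ℕ → MonoidAlgebra ℝ G),
      ∑ t ∈ E, f t - ∑ t ∈ O, f t = ∑ t ∈ (range n).powerset, (-1 : ℝ) ^ t.card • f t := by
    intro f
    rw [← sum_filter_add_sum_filter_not (range n).powerset (fun t => Even t.card)
      (fun t => (-1 : ℝ) ^ t.card • f t), sub_eq_add_neg, ← sum_neg_distrib]
    refine congrArg₂ (· + ·) (sum_congr rfl fun t ht => ?_) (sum_congr rfl fun t ht => ?_)
    · rw [(mem_filter.1 ht).2.neg_one_pow, one_smul]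
    · rw [(Nat.not_even_iff_odd.1 (mem_filter.1 ht).2).neg_one_pow, neg_smul, one_smul]
  -- one alternating sum
  have hone : ∀ (L' j : ℕ), L' ≤ L → j ≤ 2 * (L * L) →
      nrm (∑ t ∈ (range n).powerset, (-1 : ℝ) ^ t.card • T (j + L' * tern t)) ≤ P * (2 * D) := by
    intro L' j hL' hj
    have h1 : L' * tern (range n) ≤ L * L := Nat.mul_le_mul hL' (tern_lt subset_rfl).le
    refine (nrm_alt_le L' n T j fun i _ hi => hT' i ?_).trans ?_
    · have : 0 < L * L := by positivity
      omega
    · refine mul_le_mul_of_nonneg_right ?_ (by linarith)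
      refine (Finset.prod_le_prod (g := fun _ => (L : ℝ) * L) (fun i _ => by positivity)
        fun i hi => ?_).trans (le_of_eq (by simp [hP]))
      have : 3 ^ i ≤ L := Nat.pow_le_pow_right (by norm_num) (mem_range.1 hi).le
      have h2 : L' * 3 ^ i ≤ L * L := Nat.mul_le_mul hL' this
      exact_mod_cast h2
  -- a family of alternating sums
  have hfam : ∀ (X : Finset (Finset ℕ)) (L' : ℕ) (j : Finset ℕ → ℕ), X ⊆ (range n).powerset →
      L' ≤ L → (∀ s ∈ X, j s ≤ 2 * (L * L)) →
      nrm (∑ s ∈ X, ∑ t ∈ (range n).powerset, (-1 : ℝ) ^ t.card • T (j s + L' * tern t))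
        ≤ 2 ^ n * P * 2 * D := by
    intro X L' j hX hL' hj
    refine (nrm_sum_le _ _).trans ((sum_le_card_nsmul _ _ (P * (2 * D))
      fun s hs => hone L' (j s) hL' (hj s hs)).trans ?_)
    rw [nsmul_eq_mul, show 2 ^ n * P * 2 * D = 2 ^ n * (P * (2 * D)) by ring]
    refine mul_le_mul_of_nonneg_right ?_ (by positivity)
    have := card_le_card hX
    rw [card_powerset, card_range] at this
    exact_mod_cast this
  have hhalf : ∀ s ⊆ range n, tern s / 2 ≤ 2 * (L * L) := fun s hs => by
    have := tern_lt hs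
    have : L ≤ L * L := Nat.le_mul_of_pos_left L hL0
    omega
  have htwo : ∀ s ⊆ range n, 2 * L * tern s ≤ 2 * (L * L) := fun s hs => by
    rw [mul_assoc]
    exact Nat.mul_le_mul_left 2 (Nat.mul_le_mul_left L (tern_lt hs).le)
  refine ⟨?_, ?_, ?_, ?_⟩
  · rw [sum_image (injE _), sum_image (injE _), sum_product, sum_product, ← sum_sub_distrib,
      sum_congr rfl fun s _ => halt fun t => T (Φ (s, t))]
    exact hfam E L (fun s => tern s / 2) (filter_subset _ _) le_rfl fun s hs =>
      hhalf s (hsubE s hs)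
  · rw [sum_image (injO _), sum_image (injO _), sum_product, sum_product, ← sum_sub_distrib,
      sum_congr rfl fun s _ => halt fun t => T (Φ (s, t))]
    exact hfam O L (fun s => tern s / 2) (filter_subset _ _) le_rfl fun s hs =>
      hhalf s (hsubO s hs)
  all_goals
    rw [sum_image (injE _), sum_image (injO _), sum_product_right, sum_product_right,
      ← sum_sub_distrib]
    refine le_trans (le_of_eq (congrArg nrm (sum_congr rfl fun t _ => ?_)))
      (hfam _ 1 (fun t => 2 * L * tern t) (filter_subset _ _) (by omega) fun t ht =>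
        htwo t (mem_powerset.1 (mem_filter.1 ht).1))
    rw [← halt]
    refine congrArg₂ (· - ·) (sum_congr rfl fun s hs => ?_) (sum_congr rfl fun s hs => ?_)
    · congr 1
      have := tern_parity s
      have := hevE s hs
      simp only [hΦ]
      rw [mul_add, ← mul_assoc]
      omega
    · congr 1
      have := tern_parity s
      have := hevO s hs
      simp only [hΦ]
      rw [mul_add, ← mul_assoc]
      omega

end Vale.Agent.P321
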