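import Vale.Agent.P321.Slots
import Vale.Agent.P321.Kernel
import Vale.Agent.P321.Pattern
import Vale.Agent.P321.Amp

/-!
One level of the hierarchy at fixed parameters, first part: flattening of first and second order
terms to powers of the sub-cell, and smoothing of the new cell.
-/

namespace Vale.Agent.P321

open MonoidAlgebra Finset

variable {G : Type*} [Monoid G]

set_option linter.unusedSectionVars false

/-- Product rule with bounded relative sizes. -/
lemma Dom.mul' {D E R S : MonoidAlgebra ℝ G} {η η' ε ε' : ℝ} (hR : IsProb R) (hS : IsProb S)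
    (hη : 0 ≤ η) (hη2 : η ≤ 2) (hη'2 : η' ≤ 2) (hε' : ε' ≤ 1) (h : Dom D R η ε)
    (h' : Dom E S η' ε') : Dom (D * E) (R * S) (η * η') (3 * ε + 2 * ε') := by
  refine (h.mul hR hS hη h').mono (hR.mul hS).1 le_rfl ?_
  have := h.eps_nonneg
  have := h'.eps_nonneg
  nlinarith

lemma Dom.self {R : MonoidAlgebra ℝ G} (hR : AbsLE R R) : Dom R R 1 0 :=
  Dom.of_absLE (by rwa [one_smul])

lemma Dom.mulLeft {D R S : MonoidAlgebra ℝ G} {η ε : ℝ} (hS : IsProb S) (hR : IsProb R)
    (h : Dom D R η ε) : Dom (S * D) (S * R) η ε := by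
  have := (Dom.self hS.1).mul hS hR zero_le_one h
  simpa using this

lemma Dom.mulRight {D R S : MonoidAlgebra ℝ G} {η ε : ℝ} (hS : IsProb S) (hR : IsProb R)
    (hη : 0 ≤ η) (h : Dom D R η ε) : Dom (D * S) (R * S) η ε := by
  have := h.mul hR hS hη (Dom.self hS.1)
  simpa using this

/-- The standing data of one level at fixed parameters. -/
structure Stage (G : Type*) [Monoid G] where
  /-- first letter -/
  p : MonoidAlgebra ℝ G
  /-- second letter -/
  r : MonoidAlgebra ℝ G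
  /-- sub-cell -/
  W : MonoidAlgebra ℝ G
  /-- each letter is close to `W ^ M` -/
  M : ℕ
  /-- closeness of the letters to `W ^ M` -/
  g : ℝ
  /-- size of `p - r` -/
  η : ℝ
  /-- error -/
  ε : ℝ

/-- Validity of the data of a level. -/
structure Stage.Ok (S : Stage G) : Prop where
  isProb_p : IsProb S.p
  isProb_r : IsProb S.r
  isProb_W : IsProb S.W
  g_pos : 0 < S.g
  η_pos : 0 < S.η
  η_le : S.η ≤ 1
  small : S.g + S.ε ≤ 1 / 2
  dom_p : Dom (S.p - S.W ^ S.M) (S.W ^ S.M) S.g S.ε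
  dom_r : Dom (S.r - S.W ^ S.M) (S.W ^ S.M) S.g S.ε
  dom_d : Dom (S.p - S.r) (S.W ^ S.M) S.η S.ε

namespace Stage

variable (S : Stage G)

/-- The cell of this level. -/
noncomputable def U : MonoidAlgebra ℝ G := S.p * S.r

/-- Words of at most `n` slots flatten with relative error `10 t` and error `E`. -/
def FlatUpTo (n : ℕ) (t E : ℝ) : Prop :=
  ∀ w : List Bool, w.length ≤ n →
    Dom (wval S.p S.r w - (S.W ^ S.M) ^ w.length) ((S.W ^ S.M) ^ w.length) (10 * t) E ∧
      Dom (wval S.p S.r w) ((S.W ^ S.M) ^ w.length) 2 E ∧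
      Dom ((S.W ^ S.M) ^ w.length) (wval S.p S.r w) 2 E

variable {S}

lemma Ok.isProb_H (h : S.Ok) : IsProb (S.W ^ S.M) := h.isProb_W.pow _

lemma Ok.isProb_U (h : S.Ok) : IsProb S.U := h.isProb_p.mul h.isProb_r

lemma Ok.eps_nonneg (h : S.Ok) : 0 ≤ S.ε := h.dom_d.eps_nonneg

lemma Ok.mass_d (h : S.Ok) : mass (S.p - S.r) = 0 := by
  rw [map_sub, h.isProb_p.2, h.isProb_r.2, sub_self]

lemma flatUpTo (h : S.Ok) {n : ℕ} {t E : ℝ} (ht : t ≤ 1 / 20) (hn : n * (S.g + S.ε) ^ 2 ≤ t)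
    (hE : 2 * (n * (2 * S.ε) + 4 * Real.exp (-(t ^ 2 / (4 * n * (S.g + S.ε) ^ 2)))) ≤ E) :
    S.FlatUpTo n t E := by
  intro w hw
  have hw' : (w.length : ℝ) ≤ n := by exact_mod_cast hw
  have hgp : 0 < S.g + S.ε := add_pos_of_pos_of_nonneg h.g_pos h.eps_nonneg
  have hnε : 0 ≤ (n : ℝ) * (2 * S.ε) :=
    mul_nonneg (Nat.cast_nonneg _) (mul_nonneg zero_le_two h.eps_nonneg)
  have hE0 : 0 ≤ E := le_trans (by positivity) hE
  rcases Nat.eq_zero_or_pos w.length with hl | hl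
  · rw [List.length_eq_zero_iff] at hl
    subst hl
    have ht0 : 0 ≤ t := le_trans (by positivity) hn
    have h1 : AbsLE (1 : MonoidAlgebra ℝ G) 1 := absLE_one
    refine ⟨?_, ?_, ?_⟩
    · simpa using (Dom.of_nrm (D := (0 : MonoidAlgebra ℝ G)) h1).mono h1
        (show (0 : ℝ) ≤ 10 * t by linarith) (by simpa using hE0)
    · simpa using (Dom.self h1).mono h1 one_le_two hE0
    · simpa using (Dom.self h1).mono h1 one_le_two hE0
  · obtain ⟨h1, h2, h3⟩ := word_dom (t := t) w h.isProb_H h.isProb_p h.isProb_r h.dom_p h.dom_r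
      h.g_pos h.small ((mul_le_mul_of_nonneg_right hw' (sq_nonneg _)).trans hn) ht
    have hwp : (0 : ℝ) < w.length := by exact_mod_cast hl
    have hEw : 2 * (w.length * (2 * S.ε)
        + 4 * Real.exp (-(t ^ 2 / (4 * w.length * (S.g + S.ε) ^ 2)))) ≤ E := by
      refine le_trans ?_ hE
      have := h.eps_nonneg
      gcongr
    have hE1 : 0 ≤ w.length * (2 * S.ε)
        + 4 * Real.exp (-(t ^ 2 / (4 * w.length * (S.g + S.ε) ^ 2))) :=
      add_nonneg (mul_nonneg hwp.le (mul_nonneg zero_le_two h.eps_nonneg))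
        (mul_nonneg (by norm_num) (Real.exp_nonneg _))
    exact ⟨h1.mono (h.isProb_H.pow _).1 le_rfl (by linarith),
      h2.mono (h.isProb_H.pow _).1 le_rfl (by linarith),
      h3.mono (wval_isProb h.isProb_p h.isProb_r w).1 le_rfl hEw⟩

/-- One slot carrying `p - r`: dominated, and equal to its flattening up to `20 t η`. -/
lemma one_slot (h : S.Ok) {n : ℕ} {t E : ℝ} (hS : S.FlatUpTo n t E) (ht : 0 ≤ t) (ht' : t ≤ 1 / 20)
    (hE : E ≤ 1 / 9) (hεE : S.ε ≤ E) (x z : List Bool) (hxz : x.length + z.length + 1 ≤ n) :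
    Dom (wval S.p S.r x * (S.p - S.r) * wval S.p S.r z
        - (S.W ^ S.M) ^ x.length * (S.p - S.r) * (S.W ^ S.M) ^ z.length)
      ((S.W ^ S.M) ^ (x.length + 1 + z.length)) (30 * t * S.η) (40 * E) := by
  have hH := h.isProb_H
  obtain ⟨a1, -, -⟩ := hS x (by omega)
  obtain ⟨c1, c2, -⟩ := hS z (by omega)
  have hE0 : 0 ≤ E := h.eps_nonneg.trans hεE
  have hη := h.η_pos.le
  have hd : Dom (S.p - S.r) (S.W ^ S.M) S.η E := h.dom_d.mono hH.1 le_rfl hεE
  have t1 := (a1.mul' (hH.pow _) hH (by linarith) (by linarith) (by linarith [h.η_le])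
    (by linarith) hd).mul' ((hH.pow x.length).mul hH) (hH.pow z.length) (by positivity)
    (by nlinarith [h.η_le]) le_rfl (by linarith) c2
  have t2 := ((Dom.self (hH.pow x.length).1).mul' (hH.pow _) hH zero_le_one one_le_two
    (by linarith [h.η_le]) (by linarith) hd).mul' ((hH.pow x.length).mul hH) (hH.pow z.length)
    (by positivity) (by nlinarith [h.η_le]) (by linarith) (by linarith) c1
  have h12 := t1.add t2
  rw [pow_add, pow_add, pow_one]
  rw [show wval S.p S.r x * (S.p - S.r) * wval S.p S.r z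
      - (S.W ^ S.M) ^ x.length * (S.p - S.r) * (S.W ^ S.M) ^ z.length
      = (wval S.p S.r x - (S.W ^ S.M) ^ x.length) * (S.p - S.r) * wval S.p S.r z
        + (S.W ^ S.M) ^ x.length * (S.p - S.r) *
          (wval S.p S.r z - (S.W ^ S.M) ^ z.length) by noncomm_ring]
  exact h12.mono (((hH.pow _).mul hH).mul (hH.pow _)).1 (by linarith) (by linarith)

/-- Two slots carrying `p - r` are dominated. -/
lemma two_slots (h : S.Ok) {n : ℕ} {t E : ℝ} (hS : S.FlatUpTo n t E)
    (hE : E ≤ 1 / 50) (hεE : S.ε ≤ E) (hη : S.η ≤ 1 / 4) (x y z : List Bool)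
    (hxz : x.length + y.length + z.length + 2 ≤ n) :
    Dom (wval S.p S.r x * (S.p - S.r) * wval S.p S.r y * (S.p - S.r) * wval S.p S.r z)
      ((S.W ^ S.M) ^ (x.length + 1 + y.length + 1 + z.length)) (8 * S.η ^ 2) (500 * E) := by
  have hH := h.isProb_H
  obtain ⟨-, a2, -⟩ := hS x (by omega)
  obtain ⟨-, b2, -⟩ := hS y (by omega)
  obtain ⟨-, c2, -⟩ := hS z (by omega)
  have hη0 := h.η_pos.le
  have hE0 : 0 ≤ E := h.eps_nonneg.trans hεE
  have hd : Dom (S.p - S.r) (S.W ^ S.M) S.η E := h.dom_d.mono hH.1 le_rfl hεE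
  have s1 := a2.mul' (hH.pow _) hH zero_le_two le_rfl (by linarith) (by linarith) hd
  have s2 := s1.mul' ((hH.pow _).mul hH) (hH.pow y.length) (by positivity) (by linarith) le_rfl
    (by linarith) b2
  have s3 := s2.mul' (((hH.pow _).mul hH).mul (hH.pow y.length)) hH (by positivity) (by linarith)
    (by linarith) (by linarith) hd
  have s4 := s3.mul' ((((hH.pow _).mul hH).mul (hH.pow y.length)).mul hH) (hH.pow z.length)
    (by positivity) (by nlinarith) le_rfl (by linarith) c2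
  simp only [pow_add, pow_one]
  exact s4.mono (((((hH.pow _).mul hH).mul (hH.pow y.length)).mul hH).mul (hH.pow _)).1
    (by nlinarith) (by linarith)

/-- The powers of the reference and of the cell dominate each other. -/
lemma pow_U_dom {n : ℕ} {t E : ℝ} (hS : S.FlatUpTo n t E) {K : ℕ} (hK : 2 * K ≤ n) :
    Dom ((S.W ^ S.M) ^ (2 * K)) (S.U ^ K) 2 E := by
  have := (hS (altWord K) (by simpa using hK)).2.2
  rwa [length_altWord, wval_altWord] at this

end Stage

/-- The new cell is smoothed. -/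
lemma smoothing_step {U p' r' : MonoidAlgebra ℝ G} (hU : IsProb U) {M K : ℕ} {g ε t : ℝ}
    (hp' : IsProb p') (hr' : IsProb r') (hg : 0 < g) (hgε : g + ε ≤ 1 / 2) (ht : t ≤ 1 / 200)
    (hn : ((2 * (K + 1) : ℕ) : ℝ) * (g + ε) ^ 2 ≤ t)
    (hpD : Dom (p' - U ^ M) (U ^ M) g ε) (hrD : Dom (r' - U ^ M) (U ^ M) g ε)
    (hE : ((2 * (K + 1) : ℕ) : ℝ) * (2 * ε)
      + 4 * Real.exp (-(t ^ 2 / (4 * ((2 * (K + 1) : ℕ) : ℝ) * (g + ε) ^ 2))) ≤ 1 / 20)
    (hs : (2 * M : ℕ) * nrm ((U - 1) * U ^ (2 * M * K)) ≤ 1 / 2) (m : ℕ) :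
    nrm ((p' * r' - 1) * (p' * r') ^ m) ≤ 6 * √(((K : ℝ) + 1) / ((m : ℝ) + 1)) := by
  have hε : 0 ≤ ε := hpD.eps_nonneg
  have hn0 : 0 ≤ t := le_trans (mul_nonneg (Nat.cast_nonneg _) (sq_nonneg _)) hn
  have key : ∀ j : ℕ, j ≤ K + 1 → 0 < j →
      nrm ((p' * r') ^ j - U ^ (2 * M * j)) ≤ 10 * t + 1 / 20 := by
    intro j hj hj0
    have hjR : ((2 * j : ℕ) : ℝ) ≤ ((2 * (K + 1) : ℕ) : ℝ) := by
      have : 2 * j ≤ 2 * (K + 1) := by omega
      exact_mod_cast this
    obtain ⟨h1, -, -⟩ := word_dom (t := t) (altWord j) (hU.pow M) hp' hr' hpD hrD hg hgε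
      (by rw [length_altWord]; exact (mul_le_mul_of_nonneg_right hjR (sq_nonneg _)).trans hn)
      (by linarith)
    rw [length_altWord, wval_altWord, ← pow_mul, show M * (2 * j) = 2 * M * j by ring] at h1
    refine (h1.nrm_le (hU.pow _)).trans (add_le_add le_rfl (le_trans ?_ hE))
    have hj0' : (0 : ℝ) < ((2 * j : ℕ) : ℝ) := by exact_mod_cast (by omega : 0 < 2 * j)
    have hgp : 0 < g + ε := by linarith
    gcongr
  refine nrm_sub_one_mul_pow_of_close (hp'.mul hr') ?_ m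
  rcases Nat.eq_zero_or_pos K with rfl | hK
  · have h1 := key 1 le_rfl one_pos
    have h2 : nrm (1 - U ^ (2 * M)) ≤ 1 / 2 := by
      rw [nrm_sub_comm, ← mul_one (U ^ (2 * M) - 1)]
      refine (nrm_pow_sub_one_mul_le hU _).trans ?_
      simpa using hs
    simp only [zero_add, pow_zero, pow_one, mul_one] at h1 ⊢
    rw [show (1 : MonoidAlgebra ℝ G) - p' * r'
      = (1 - U ^ (2 * M)) - (p' * r' - U ^ (2 * M)) by abel]
    refine (nrm_sub_le _ _).trans ?_
    linarith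
  · have h1 := key K (Nat.le_succ K) hK
    have h2 := key (K + 1) le_rfl K.succ_pos
    have h3 : nrm (U ^ (2 * M * K) - U ^ (2 * M * (K + 1))) ≤ 1 / 2 := by
      rw [nrm_sub_comm, show 2 * M * (K + 1) = 2 * M + 2 * M * K by ring, pow_add,
        show U ^ (2 * M) * U ^ (2 * M * K) - U ^ (2 * M * K)
          = (U ^ (2 * M) - 1) * U ^ (2 * M * K) by noncomm_ring]
      exact (nrm_pow_sub_one_mul_le hU _).trans hs
    rw [show (p' * r') ^ K - (p' * r') ^ (K + 1) = ((p' * r') ^ K - U ^ (2 * M * K))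
        + ((U ^ (2 * M * K) - U ^ (2 * M * (K + 1)))
          - ((p' * r') ^ (K + 1) - U ^ (2 * M * (K + 1)))) by abel]
    refine (nrm_add_le _ _).trans ?_
    have := nrm_sub_le (U ^ (2 * M * K) - U ^ (2 * M * (K + 1)))
      ((p' * r') ^ (K + 1) - U ^ (2 * M * (K + 1)))
    linarith

end Vale.Agent.P321
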