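import Vale.Agent.P321.SmearStep
import Vale.Agent.P321.Final

/-!
Two steps raise the ratio between the exponent of closeness and the exponent of length by a fixed
amount; hence pairs of strings at every exponent.
-/

namespace Vale.Agent.P321

open MonoidAlgebra Filter

/-- A level usable by the induction, after `i` rounds. -/
def Good' (q : ℝ) (i : ℕ) : Prop :=
  ∃ S β g : ℕ, LvlW q S β g ∧ 1000 ≤ S ∧ (106 + 3 * i) * (2 * S + 14) + 600 ≤ 100 * β ∧
    11 * (2 * S + 14) ≤ 20 * g

lemma good'_succ {q : ℝ} (h0 : 0 ≤ q) (h1 : q ≤ 1) {i : ℕ} (h : Good' q i) : Good' q (i + 1) := by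
  obtain ⟨S, β, g, hL, hS, hβ, hg⟩ := h
  obtain ⟨P, hP, hP'⟩ : ∃ P, P = (106 + 3 * i) * (2 * S + 14) ∧ 106 * (2 * S + 14) ≤ P :=
    ⟨_, rfl, Nat.mul_le_mul_right _ (by omega)⟩
  rw [← hP] at hβ
  have h2 := smear_step h0 h1 (i := (2 * S + 14) / 8) (β' := 2 * β + (2 * S + 14) / 8 - 4)
    (g' := (11 * (2 * S + 14) + 9) / 10) (by omega) (by omega) (by omega) (by omega) (by omega)
    (by omega) (by omega) (by omega) hL
  have h3 := plain_step h0 h1 (β' := 2 * (2 * β + (2 * S + 14) / 8 - 4) - 3)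
    (g' := (22 * (2 * S + 14) + 9) / 10) (by omega) (by omega) (by omega) (by omega) (by omega) h2
  refine ⟨_, _, _, h3, by omega, ?_, by omega⟩
  have e : (106 + 3 * (i + 1)) * (2 * (2 * (2 * S + 7) + 7) + 14)
      = 4 * P + 12 * (2 * S + 14) := by rw [hP]; ring
  omega

lemma good'_zero {q : ℝ} (h0 : 0 ≤ q) (h1 : q ≤ 1) (hbase : LvlW q 40001 79984 49990) :
    Good' q 0 := by
  have h2 := smear_step h0 h1 (i := 10002) (β' := 169966) (g' := 88018) (by norm_num)
    (by norm_num) (by norm_num) (by norm_num) (by norm_num) (by norm_num) (by norm_num)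
    (by norm_num) hbase
  have h3 := plain_step h0 h1 (β' := 339929) (g' := 176036) (by norm_num) (by norm_num)
    (by norm_num) (by norm_num) (by norm_num) h2
  exact ⟨_, _, _, h3, by norm_num, by norm_num, by norm_num⟩

/-- Pairs of strings at every exponent, from a first level. -/
theorem pairsAt_of_base {q : ℝ} (h0 : 0 ≤ q) (h1 : q ≤ 1) (hbase : LvlW q 40001 79984 49990)
    (B : ℕ) : PairsAt q B := by
  have h : ∀ i, Good' q i := fun i => by
    induction i with
    | zero => exact good'_zero h0 h1 hbase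
    | succ i ih => exact good'_succ h0 h1 ih
  obtain ⟨S, β, g, hL, -, hβ, -⟩ := h (34 * (B + 1))
  have hB : (2 * S + 7) * B + 1 ≤ β := by
    have h2 : (106 + 3 * (34 * (B + 1))) * (2 * S + 14)
        = 100 * ((2 * S + 7) * B) + 700 * B + 2 * B * (2 * S + 14) + 208 * (2 * S + 14) := by ring
    omega
  obtain ⟨Q, hQ, F, hF⟩ := hL.lvl β
  refine ⟨1, 2 * S + 7, one_pos, by omega, ?_⟩
  filter_upwards [hF, ev_nat_ge 2] with b hb hb2
  refine ⟨F.P b, F.R b, hb.len_eq, hb.ne, by simpa [par] using hb.len_le, ?_⟩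
  have hok := hb.ok
  have hb1 : (1 : ℝ) ≤ b := by exact_mod_cast (by omega : 1 ≤ b)
  refine (hok.dom_d.nrm_le hok.isProb_H).trans ?_
  simp only [Fam.stage, par]
  have h3 := pow_inv_mono hb1 hQ
  have h4 := const_div_pow_le (C := 2) hb1 (by exact_mod_cast hb2) hB
  linarith

end Vale.Agent.P321
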