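import Vale.Agent.P321.Alg
import Vale.Agent.P321.Hoeff

/-!
Products of slots: flattening to powers of a common reference, and first and second order
expansions of products along words in two letters.
-/

namespace Vale.Agent.P321

open MonoidAlgebra Finset

variable {G : Type*} [Monoid G]

set_option linter.unusedSectionVars false

lemma isProb_list_prod {l : List (MonoidAlgebra ℝ G)} (h : ∀ x ∈ l, IsProb x) : IsProb l.prod := by
  induction l with
  | nil => simpa using IsProb.one
  | cons a l ih =>
    rw [List.prod_cons]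
    exact (h a (by simp)).mul (ih fun x hx => h x (by simp [hx]))

lemma nrm_prod_sub_le {ι : Type*} (l : List ι) {f g : ι → MonoidAlgebra ℝ G} {ε : ℝ}
    (hf : ∀ i ∈ l, IsProb (f i)) (hg : ∀ i ∈ l, IsProb (g i))
    (h : ∀ i ∈ l, nrm (f i - g i) ≤ ε) :
    nrm ((l.map f).prod - (l.map g).prod) ≤ l.length * ε := by
  induction l with
  | nil => simp
  | cons a l ih =>
    simp only [List.map_cons, List.prod_cons, List.length_cons, Nat.cast_add, Nat.cast_one]
    have hp : IsProb (l.map g).prod := isProb_list_prod fun x hx => by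
      obtain ⟨i, hi, rfl⟩ := List.mem_map.1 hx
      exact hg i (by simp [hi])
    rw [show f a * (l.map f).prod - g a * (l.map g).prod
      = f a * ((l.map f).prod - (l.map g).prod) + (f a - g a) * (l.map g).prod by noncomm_ring]
    refine (nrm_add_le _ _).trans ?_
    have h1 := nrm_mul_le (f a) ((l.map f).prod - (l.map g).prod)
    have h2 := nrm_mul_le (f a - g a) (l.map g).prod
    rw [(hf a (by simp)).nrm_eq, one_mul] at h1
    rw [hp.nrm_eq, mul_one] at h2
    have h3 := ih (fun i hi => hf i (by simp [hi])) (fun i hi => hg i (by simp [hi]))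
      (fun i hi => h i (by simp [hi]))
    have h4 := h a (by simp)
    linarith

/-- A product of slots, each close to `H`, is close to the power of `H`. -/
lemma slots_dom {ι : Type*} (l : List ι) {f : ι → MonoidAlgebra ℝ G} {H : MonoidAlgebra ℝ G}
    {η ε t : ℝ} (hH : IsProb H) (hf : ∀ i ∈ l, IsProb (f i))
    (hD : ∀ i ∈ l, Dom (f i - H) H η ε) (hη : 0 < η) (hε : 0 ≤ ε) (hη1 : η + ε ≤ 1 / 2)
    (hn : l.length * (η + ε) ^ 2 ≤ t) (ht : t ≤ 1 / 4) :
    Dom ((l.map f).prod - H ^ l.length) (H ^ l.length) (10 * t)
      (l.length * (2 * ε) + 4 * Real.exp (-(t ^ 2 / (4 * l.length * (η + ε) ^ 2)))) := by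
  classical
  have key : ∀ i, ∃ D₁, mass D₁ = 0 ∧ AbsLE D₁ ((η + ε) • H) ∧
      (i ∈ l → nrm (f i - H - D₁) ≤ 2 * ε) := by
    intro i
    by_cases hi : i ∈ l
    · obtain ⟨D₁, h1, h2, h3⟩ :=
        (hD i hi).massZero hH (by rw [map_sub, (hf i hi).2, hH.2, sub_self])
      exact ⟨D₁, h1, h2, fun _ => h3⟩
    · refine ⟨0, map_zero _, fun x => ?_, fun h => absurd h hi⟩
      simpa using mul_nonneg (add_nonneg hη.le hε) (hH.1.nonneg x)
  choose D hm hA hn1 using key
  have hg : ∀ i, IsProb (H + D i) := by
    refine fun i => ⟨fun x => le_of_eq (abs_of_nonneg ?_), by rw [map_add, hH.2, hm, add_zero]⟩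
    have h1 := hA i x
    have h2 := hH.1.nonneg x
    simp only [coeff_add, Finsupp.add_apply, coeff_smul, Finsupp.smul_apply, smul_eq_mul] at h1 ⊢
    rw [abs_le] at h1
    nlinarith
  have hmain := prod_dom (fun _ : Fin l.length => H) (fun j => D (l.get j)) (fun _ => hH)
    (fun j => hg _) (fun j => hA _) (fun j => hm _) (add_pos_of_pos_of_nonneg hη hε) hη1 hn ht
  have e1 : (List.ofFn fun j : Fin l.length => H + D (l.get j)).prod
      = (l.map fun i => H + D i).prod := by
    congr 1
    conv_rhs => rw [← List.ofFn_get l, List.map_ofFn]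
    rfl
  have e2 : (List.ofFn fun _ : Fin l.length => H).prod = H ^ l.length := by
    rw [List.ofFn_const, List.prod_replicate]
  rw [e1, e2] at hmain
  have hhyb : nrm ((l.map f).prod - (l.map fun i => H + D i).prod) ≤ l.length * (2 * ε) :=
    nrm_prod_sub_le l hf (fun i _ => hg i) fun i hi => by
      rw [show f i - (H + D i) = f i - H - D i by abel]; exact hn1 i hi
  have h2 := ((Dom.of_nrm (hH.pow l.length).1).mono (hH.pow l.length).1 le_rfl hhyb).add hmain
  rw [sub_add_sub_cancel, zero_add] at h2
  exact h2

/-- Two probability measures that are relatively close dominate each other. -/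
lemma dom_of_close {P R : MonoidAlgebra ℝ G} {η E : ℝ} (hP : IsProb P) (hR : IsProb R)
    (hη0 : 0 ≤ η) (hη : η ≤ 1 / 2) (h : Dom (P - R) R η E) :
    Dom P R 2 E ∧ Dom R P 2 (2 * E) := by
  obtain ⟨D₁, hD, he⟩ := h
  have hsub : P - R - D₁ = P - (R + D₁) := by abel
  rw [hsub] at he
  refine ⟨⟨R + D₁, fun x => ?_, he⟩, ?_⟩
  · have h1 := hD x
    have h2 := hR.1.nonneg x
    simp only [coeff_add, Finsupp.add_apply, coeff_smul, Finsupp.smul_apply, smul_eq_mul] at h1 ⊢
    rw [abs_le] at h1 ⊢
    constructor <;> nlinarith
  · have h1 : Dom R (R + D₁) 2 0 := Dom.of_absLE fun x => by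
      have h1 := hD x
      have h2 := hR.1.nonneg x
      simp only [coeff_add, Finsupp.add_apply, coeff_smul, Finsupp.smul_apply, smul_eq_mul] at h1 ⊢
      rw [abs_le] at h1
      rw [abs_of_nonneg h2]
      nlinarith
    have h2 : Dom (R + D₁) P 1 E :=
      ⟨P, by rw [one_smul]; exact hP.1, by rwa [nrm_sub_comm]⟩
    simpa using h1.change zero_le_two h2

/-- The value of a word: `false ↦ p`, `true ↦ r`. -/
noncomputable def wval (p r : MonoidAlgebra ℝ G) (w : List Bool) : MonoidAlgebra ℝ G :=
  (w.map fun b => bif b then r else p).prod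

variable {p r : MonoidAlgebra ℝ G}

@[simp] lemma wval_nil : wval p r [] = 1 := rfl

@[simp] lemma wval_cons (b : Bool) (w : List Bool) :
    wval p r (b :: w) = (bif b then r else p) * wval p r w := by simp [wval]

@[simp] lemma wval_append (v w : List Bool) : wval p r (v ++ w) = wval p r v * wval p r w := by
  simp [wval]

lemma wval_isProb (hp : IsProb p) (hr : IsProb r) (w : List Bool) : IsProb (wval p r w) :=
  isProb_list_prod fun x hx => by
    obtain ⟨b, -, rfl⟩ := List.mem_map.1 hx
    cases b
    exacts [hp, hr]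

/-- Flattening a word, with mutual domination. -/
lemma word_dom (w : List Bool) {H : MonoidAlgebra ℝ G} {η ε t : ℝ} (hH : IsProb H)
    (hp : IsProb p) (hr : IsProb r) (hpD : Dom (p - H) H η ε) (hrD : Dom (r - H) H η ε)
    (hη : 0 < η) (hη1 : η + ε ≤ 1 / 2) (hn : w.length * (η + ε) ^ 2 ≤ t) (ht : t ≤ 1 / 20) :
    let E := w.length * (2 * ε) + 4 * Real.exp (-(t ^ 2 / (4 * w.length * (η + ε) ^ 2)))
    Dom (wval p r w - H ^ w.length) (H ^ w.length) (10 * t) E ∧
      Dom (wval p r w) (H ^ w.length) 2 E ∧ Dom (H ^ w.length) (wval p r w) 2 (2 * E) := by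
  intro E
  have h := slots_dom w (f := fun b => bif b then r else p) hH
    (fun b _ => by cases b; exacts [hp, hr]) (fun b _ => by cases b; exacts [hpD, hrD])
    hη hpD.eps_nonneg hη1 hn (ht.trans (by norm_num))
  have h0 : 0 ≤ t := le_trans (mul_nonneg (Nat.cast_nonneg _) (sq_nonneg _)) hn
  exact ⟨h, dom_of_close (wval_isProb hp hr w) (hH.pow _) (by linarith) (by linarith) h⟩

/-- First order part of `wval v - wval c`. -/
noncomputable def linPart (p r : MonoidAlgebra ℝ G) : List Bool → List Bool → MonoidAlgebra ℝ G
  | c :: cs, b :: bs => ((bif b then r else p) - (bif c then r else p)) * wval p r cs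
      + (bif c then r else p) * linPart p r cs bs
  | _, _ => 0

lemma linPart_append : ∀ {c v : List Bool} (c' v' : List Bool), c.length = v.length →
    linPart p r (c ++ c') (v ++ v')
      = linPart p r c v * wval p r c' + wval p r c * linPart p r c' v'
  | [], [], c', v', _ => by simp [linPart]
  | a :: c, b :: v, c', v', h => by
    simp only [List.length_cons, Nat.add_right_cancel_iff] at h
    simp only [List.cons_append, linPart, wval_cons, wval_append, linPart_append c' v' h]
    noncomm_ring
  | [], _ :: _, _, _, h => by simp at h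
  | _ :: _, [], _, _, h => by simp at h

lemma letter_sub (a b : Bool) :
    ∃ s : ℝ, |s| ≤ 1 ∧ ((bif b then r else p) - (bif a then r else p)) = s • (p - r) := by
  cases a <;> cases b
  · exact ⟨0, by simp, by simp⟩
  · exact ⟨-1, by simp, by rw [neg_smul, one_smul, neg_sub]; rfl⟩
  · exact ⟨1, by simp, by rw [one_smul]; rfl⟩
  · exact ⟨0, by simp, by simp⟩

/-- One slot carrying `p - r` times a difference of words is bounded termwise. -/
lemma word_sub_dom {R : MonoidAlgebra ℝ G} {η ε : ℝ} (hR : AbsLE R R) (hη : 0 ≤ η) (hε : 0 ≤ ε) :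
    ∀ (c v : List Bool), c.length = v.length → ∀ F : MonoidAlgebra ℝ G →ₗ[ℝ] MonoidAlgebra ℝ G,
      (∀ x z : List Bool, x.length + z.length + 1 = c.length →
        Dom (F (wval p r x * (p - r) * wval p r z)) R η ε) →
      Dom (F (wval p r v - wval p r c)) R (c.length * η) (c.length * ε)
  | [], [], _, F, _ => by simpa using Dom.of_nrm (D := (0 : MonoidAlgebra ℝ G)) hR
  | [], _ :: _, h, _, _ => by simp at h
  | _ :: _, [], h, _, _ => by simp at h
  | a :: c, b :: v, h, F, hF => by
    simp only [List.length_cons, Nat.add_right_cancel_iff] at h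
    obtain ⟨s, hs, hd⟩ := letter_sub (p := p) (r := r) a b
    have h1 := word_sub_dom hR hη hε c v h
      (F ∘ₗ LinearMap.mulLeft ℝ (bif a then r else p)) fun x z hxz => by
        have := hF (a :: x) z (by simp only [List.length_cons]; omega)
        simpa [mul_assoc] using this
    have h2 : Dom (F ((p - r) * wval p r v)) R η ε := by
      simpa using hF [] v (by simp [h])
    have h3 := (h2.smul s).mono hR (mul_le_of_le_one_left hη hs) (mul_le_of_le_one_left hε hs)
    have h4 := h3.add h1
    simp only [LinearMap.comp_apply, LinearMap.mulLeft_apply] at h4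
    rw [← map_smul, ← map_add, ← smul_mul_assoc, ← hd] at h4
    rw [show wval p r (b :: v) - wval p r (a :: c) =
      ((bif b then r else p) - (bif a then r else p)) * wval p r v
        + (bif a then r else p) * (wval p r v - wval p r c) by simp only [wval_cons]; noncomm_ring]
    simpa [add_comm, add_mul] using h4

/-- Second order remainder of `wval v - wval c`, bounded termwise. -/
lemma word_quad_dom {R : MonoidAlgebra ℝ G} {η ε : ℝ} (hR : AbsLE R R) (hη : 0 ≤ η)
    (hε : 0 ≤ ε) :
    ∀ (c v : List Bool), c.length = v.length → ∀ F : MonoidAlgebra ℝ G →ₗ[ℝ] MonoidAlgebra ℝ G,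
      (∀ x y z : List Bool, x.length + y.length + z.length + 2 = c.length →
        Dom (F (wval p r x * (p - r) * wval p r y * (p - r) * wval p r z)) R η ε) →
      Dom (F (wval p r v - wval p r c - linPart p r c v)) R
        ((c.length : ℝ) ^ 2 * η) ((c.length : ℝ) ^ 2 * ε)
  | [], [], _, F, _ => by simpa [linPart] using Dom.of_nrm (D := (0 : MonoidAlgebra ℝ G)) hR
  | [], _ :: _, h, _, _ => by simp at h
  | _ :: _, [], h, _, _ => by simp at h
  | a :: c, b :: v, h, F, hF => by
    simp only [List.length_cons, Nat.add_right_cancel_iff] at h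
    obtain ⟨s, hs, hd⟩ := letter_sub (p := p) (r := r) a b
    have h1 := word_quad_dom hR hη hε c v h
      (F ∘ₗ LinearMap.mulLeft ℝ (bif a then r else p)) fun x y z hxz => by
        have := hF (a :: x) y z (by simp only [List.length_cons]; omega)
        simpa [mul_assoc] using this
    have h2 := word_sub_dom hR hη hε c v h (F ∘ₗ LinearMap.mulLeft ℝ (p - r)) fun y z hyz => by
      have := hF [] y z (by simp only [List.length_nil, List.length_cons]; omega)
      simpa [mul_assoc] using this
    have h3 := (h2.smul s).mono hR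
      (mul_le_of_le_one_left (mul_nonneg (Nat.cast_nonneg _) hη) hs)
      (mul_le_of_le_one_left (mul_nonneg (Nat.cast_nonneg _) hε) hs)
    have h4 := h3.add h1
    simp only [LinearMap.comp_apply, LinearMap.mulLeft_apply] at h4
    rw [← map_smul, ← map_add, ← smul_mul_assoc, ← hd] at h4
    rw [show wval p r (b :: v) - wval p r (a :: c) - linPart p r (a :: c) (b :: v) =
      ((bif b then r else p) - (bif a then r else p)) * (wval p r v - wval p r c)
        + (bif a then r else p) * (wval p r v - wval p r c - linPart p r c v) by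
      simp only [wval_cons, linPart]; noncomm_ring]
    refine h4.mono hR ?_ ?_
    · simp only [List.length_cons, Nat.cast_add, Nat.cast_one]
      nlinarith [mul_nonneg (Nat.cast_nonneg (α := ℝ) c.length) hη]
    · simp only [List.length_cons, Nat.cast_add, Nat.cast_one]
      nlinarith [mul_nonneg (Nat.cast_nonneg (α := ℝ) c.length) hε]

/-- The alternating word `(pr)^n`. -/
def altWord (n : ℕ) : List Bool := (List.range n).flatMap fun _ => [false, true]

/-- The alternating word with `p ↦ r` at the first slot of the pairs in `A` and `r ↦ p` at the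
second slot of the pairs in `B`. -/
def patchWord (A B : Finset ℕ) (n : ℕ) : List Bool :=
  (List.range n).flatMap fun i => [decide (i ∈ A), !decide (i ∈ B)]

@[simp] lemma length_altWord (n : ℕ) : (altWord n).length = 2 * n := by
  simp [altWord, List.length_flatMap]; omega

@[simp] lemma length_patchWord (A B : Finset ℕ) (n : ℕ) :
    (patchWord A B n).length = 2 * n := by
  simp [patchWord, List.length_flatMap]; omega

lemma altWord_succ (n : ℕ) : altWord (n + 1) = altWord n ++ [false, true] := by
  simp [altWord, List.range_succ]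

lemma patchWord_succ (A B : Finset ℕ) (n : ℕ) :
    patchWord A B (n + 1) = patchWord A B n ++ [decide (n ∈ A), !decide (n ∈ B)] := by
  simp [patchWord, List.range_succ]

lemma wval_altWord (n : ℕ) : wval p r (altWord n) = (p * r) ^ n := by
  induction n with
  | zero => simp [altWord]
  | succ n ih => rw [altWord_succ, wval_append, ih, pow_succ]; simp

lemma linPart_patchWord (A B : Finset ℕ) (n : ℕ) :
    linPart p r (altWord n) (patchWord A B n)
      = ∑ i ∈ range n, (p * r) ^ i *
          ((if i ∈ A then -((p - r) * r) else 0) + (if i ∈ B then p * (p - r) else 0)) *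
          (p * r) ^ (n - 1 - i) := by
  induction n with
  | zero => simp [altWord, patchWord, linPart]
  | succ n ih =>
    rw [altWord_succ, patchWord_succ, linPart_append _ _ (by simp), ih, sum_range_succ,
      wval_altWord, sum_mul]
    congr 1
    · refine sum_congr rfl fun i hi => ?_
      rw [mem_range] at hi
      rw [show n + 1 - 1 - i = n - 1 - i + 1 by omega, pow_succ]
      simp [wval, mul_assoc]
    · rw [show n + 1 - 1 - n = 0 by omega, pow_zero, mul_one]
      congr 1
      by_cases hA : n ∈ A <;> by_cases hB : n ∈ B <;>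
        simp [hA, hB, linPart, sub_mul, mul_sub, neg_sub]

end Vale.Agent.P321
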