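import Vale.Agent.P321.Step

/-!
The smearing step: pairs of slots carrying `p - r` gain from joint translations.
-/

namespace Vale.Agent.P321

open MonoidAlgebra Filter Finset

/-- A pair of slots inside an environment of `b ^ (4i)` pairs on both sides. -/
theorem smear_pair (q : ℝ) {S β g Q β' Q' i K K₀ : ℕ} (hi1 : 3 * i + 3 ≤ g)
    (hi3 : 2 * i + 1 ≤ S + 3) (hβ : β' + 4 ≤ 2 * β + i) (hβ0 : 0 < β)
    (hQ : g + β' + Q' + 4 * i + 8 ≤ Q) :
    ∀ᶠ b : ℕ in atTop, ∀ F : Fam, F.Good q (par S β g Q) b →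
      F.HasWin q (par S β g Q) K₀ b →
        ∀ x y z : List Bool, x.length + y.length + z.length + 2 = 2 * K →
          Dom ((F.stage q (par S β g Q) b).U ^ b ^ (4 * i)
              * (wval (F.stage q (par S β g Q) b).p (F.stage q (par S β g Q) b).r x
                * ((F.stage q (par S β g Q) b).p - (F.stage q (par S β g Q) b).r)
                * wval (F.stage q (par S β g Q) b).p (F.stage q (par S β g Q) b).r y
                * ((F.stage q (par S β g Q) b).p - (F.stage q (par S β g Q) b).r)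
                * wval (F.stage q (par S β g Q) b).p (F.stage q (par S β g Q) b).r z
                * (F.stage q (par S β g Q) b).U ^ b ^ (4 * i)))
            (((F.stage q (par S β g Q) b).W ^ (F.stage q (par S β g Q) b).M)
              ^ (4 * b ^ (4 * i) + 2 * K))
            (121 * (1 / (b : ℝ) ^ (β' + 1))) (22000 * (1 / (b : ℝ) ^ (Q' + 1))) := by
  set k := 2 * (Q' + 2) with hk
  obtain ⟨C, hC, hker⟩ := exists_kernel (G := FreeMonoid Bool) k (by omega)
  set Δ := K₀ + 1 with hΔ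
  filter_upwards [flat_asymp q (par S β g Q) (c := 2 * i) (by simp only [par]; omega)
    (by simp only [par]; omega), ev_exp (Q' + 2), ev_ge (C * ((2 * Δ : ℝ) ^ 2) ^ (Q' + 2)),
    ev_ge (6 * k * C ^ 2), ev_ge (6 * k * C),
    ev_nat_ge (8 * k * Δ + 4 * K + 2000)] with b hfl hexp hbD hbk hbk' hbN F hF hwin x y z hxyz
  obtain ⟨hh, x₀, w, y₀, hw, hwK, hx₀, hy₀⟩ := hwin
  simp only [par] at hx₀ hy₀
  have hb1 : (1 : ℝ) ≤ b := by exact_mod_cast (by omega : 1 ≤ b)
  have hb0 : (0 : ℝ) < b := lt_of_lt_of_le zero_lt_one hb1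
  have hb1000 : (1000 : ℝ) ≤ b := by exact_mod_cast (by omega : 1000 ≤ b)
  have hsmall : ∀ z : ℕ, 1 ≤ z → 1 / (b : ℝ) ^ z ≤ 1 / 1000 := fun z hz =>
    (pow_inv_mono hb1 hz).trans (by
      rw [pow_one]; exact one_div_le_one_div_of_le (by norm_num) hb1000)
  have hok := hF.ok
  set T := (F.stage q (par S β g Q) b) with hT
  set n1 := b ^ (4 * i) with hn1
  have hn1pos : 1 ≤ n1 := Nat.one_le_pow _ _ (by omega)
  set n := b ^ (2 * (2 * i) + 1) with hn
  have hn1n : 4 * n1 + 2 * K ≤ n := by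
    have : n = b * n1 := by rw [hn, hn1]; ring
    have : (4 + 2 * K) * n1 ≤ b * n1 := Nat.mul_le_mul_right _ (by omega)
    have h' : (4 + 2 * K) * n1 = 4 * n1 + 2 * K * n1 := by ring
    have : 2 * K ≤ 2 * K * n1 := Nat.le_mul_of_pos_right _ hn1pos
    omega
  set t := (b : ℝ) ^ (2 * i + 2) / (b : ℝ) ^ g with ht
  set E := 20 * ((b : ℝ) ^ (2 * (2 * i) + 1) / (b : ℝ) ^ Q) with hE
  have hflat : T.FlatUpTo n t E := hfl F hok
  have hE0 : 0 ≤ E := by positivity
  have hEQ : E ≤ 20 * (1 / (b : ℝ) ^ (Q' + 2)) := by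
    rw [hE]
    refine mul_le_mul_of_nonneg_left ?_ (by norm_num)
    simpa using mul_pow_div_le (C := 1) hb1 hb1 (x := 2 * (2 * i) + 1) (y := Q) (z := Q' + 2)
      (by omega)
  have hE50 : E ≤ 1 / 50 := by linarith [hsmall (Q' + 2) (by omega)]
  have ht20 : t ≤ 1 / 20 := by
    have h1 := mul_pow_div_le (C := 20) hb1 (by linarith) (x := 2 * i + 2) (y := g) (z := 0)
      (by omega)
    simp only [pow_zero, div_one] at h1
    rw [ht]; linarith
  have hη : T.η = 1 / (b : ℝ) ^ β := rfl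
  have hη4 : T.η ≤ 1 / 4 := by rw [hη]; linarith [hsmall β hβ0]
  have hM : T.M = b ^ (S + 3) := rfl
  have hεE : T.ε ≤ E := by
    rw [show T.ε = 1 / (b : ℝ) ^ Q from rfl, hE]
    have : 1 / (b : ℝ) ^ Q ≤ (b : ℝ) ^ (2 * (2 * i) + 1) / (b : ℝ) ^ Q := by
      gcongr
      exact one_le_pow₀ hb1
    linarith [show (0 : ℝ) ≤ (b : ℝ) ^ (2 * (2 * i) + 1) / (b : ℝ) ^ Q by positivity]
  set N := b ^ (2 * i) with hN
  have hNpos : 0 < N := pow_pos (by omega) _
  obtain ⟨v, -, hv, -, -, hkerN⟩ := hker N hNpos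
  set m := b ^ (S + 2 + 4 * i) with hm
  set t₂ := (b : ℝ) * T.η ^ 2 / (b : ℝ) ^ i with ht₂def
  have ht₂ : 0 < t₂ := by have := hok.η_pos; positivity
  have hgap : 3 * k * N * Δ ≤ x₀ + y₀ := by
    have h1 : b ^ (2 * i + 1) ≤ b ^ (S + 3) := Nat.pow_le_pow_right (by omega) hi3
    have h2 : 6 * k * Δ * N ≤ b * N := Nat.mul_le_mul_right _ (by
      have : 6 * k * Δ ≤ 8 * k * Δ := Nat.mul_le_mul_right _ (by omega)
      omega)
    have h3 : b * N = b ^ (2 * i + 1) := by rw [hN]; ring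
    have h4 : 6 * k * Δ * N = 2 * (3 * k * N * Δ) := by ring
    omega
  have hkm : 2 * (k * m) ≤ b ^ (S + 3) * (2 * n1) := by
    have h1 : b ^ (S + 3) * (2 * n1) = 2 * (b * m) := by rw [hn1, hm]; ring
    have h2 : k * m ≤ b * m := Nat.mul_le_mul_right _ (by
      have : k * 1 ≤ 8 * k * Δ := Nat.mul_le_mul (by omega) (by omega)
      omega)
    omega
  have hX : k * m ≤ T.M * (altWord n1 ++ x).length := by
    rw [hM, List.length_append, length_altWord, Nat.mul_add (b ^ (S + 3))]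
    omega
  have hZ : k * m + Δ * (3 * k * N + k) ≤ T.M * (z ++ altWord n1).length := by
    rw [hM, List.length_append, length_altWord, Nat.mul_add (b ^ (S + 3))]
    have h1 : Δ * (3 * k * N + k) ≤ 4 * k * Δ * N := by
      have : k * 1 ≤ k * N := Nat.mul_le_mul_left _ hNpos
      have h : Δ * (3 * k * N + k) ≤ Δ * (4 * k * N) := Nat.mul_le_mul_left _ (by
        have h' : 4 * k * N = 3 * k * N + k * N := by ring
        omega)
      exact h.trans_eq (by ring)
    have h2 : 8 * k * Δ * N ≤ b * N := Nat.mul_le_mul_right _ (by omega)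
    have h3 : b * N ≤ b ^ (S + 3) * n1 := by
      calc b * N = b ^ (2 * i + 1) * 1 := by rw [hN]; ring
        _ ≤ _ := Nat.mul_le_mul (Nat.pow_le_pow_right (by omega) hi3) hn1pos
    have h4 : 8 * k * Δ * N = 2 * (4 * k * Δ * N) := by ring
    have h5 : b ^ (S + 3) * (2 * n1) = 2 * (b ^ (S + 3) * n1) := by ring
    have h6 : k * m ≤ b ^ (S + 3) * n1 := by omega
    have h7 : Δ * (3 * k * N + k) ≤ b ^ (S + 3) * n1 := by omega
    omega
  have h := Stage.pair_smear hok hw hflat (by positivity) ht20 hE50 hεE hη4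
    (by omega : 0 < k) hNpos hC v hv hkerN (Δ := Δ) (by omega) hgap ht₂
    (altWord n1 ++ x) y (z ++ altWord n1)
    (by simp only [List.length_append, length_altWord]; omega) hX hZ
  simp only [List.length_append, length_altWord] at h
  rw [show 2 * n1 + x.length + 1 + y.length + 1 + (z.length + 2 * n1) = 4 * n1 + 2 * K by omega,
    wval_append, wval_append, wval_altWord] at h
  simp only [Stage.U, mul_assoc] at h ⊢
  refine h.mono ((hok.isProb_H).pow _).1 ?_ ?_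
  · rw [hη]
    have a1 : t * (1 / (b : ℝ) ^ β) ^ 2 ≤ 1 / (b : ℝ) ^ (β' + 1) := by
      rw [ht, div_pow, one_pow, ← pow_mul, div_mul_div_comm, mul_one, ← pow_add]
      simpa using mul_pow_div_le (C := 1) hb1 hb1 (x := 2 * i + 2) (y := g + β * 2)
        (z := β' + 1) (by omega)
    have a2 : t₂ ≤ 1 / (b : ℝ) ^ (β' + 1) := by
      rw [ht₂def, hη, div_pow, one_pow, ← pow_mul, mul_div_assoc', mul_one, div_div, ← pow_add]
      simpa using mul_pow_div_le (C := 1) hb1 hb1 (x := 1) (y := β * 2 + i)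
        (z := β' + 1) (by omega)
    linarith
  · have a3 : C * ((N : ℕ) : ℝ) ^ k * (2 * (Δ : ℝ) * nrm ((T.W - 1) * T.W ^ m)) ^ k
        ≤ 1 / (b : ℝ) ^ (Q' + 1) := by
      rw [mul_assoc C, ← mul_pow, ← mul_assoc]
      refine pow_small (D := (2 * (Δ : ℝ)) ^ 2) hb1 hC.le
        (shift_small hb1 (x := 2 * i) (y := S) (z := S + 2 + 4 * i) (nrm_nonneg _)
          (hF.smW m) ?_ (by positivity) ?_ (by omega)) hbD
      · rw [hm]; push_cast; linarith
      · rw [hN]; push_cast; exact le_of_eq (by ring)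
    have a4 : 2 * (T.η ^ 2 * (3 * (k : ℝ) * C)) * Real.exp (-(t₂ ^ 2 /
        (2 * T.η ^ 2 * T.η ^ 2 * (3 * k * C ^ 2 / ((N : ℕ) : ℝ)))))
        ≤ 1 / (b : ℝ) ^ (Q' + 1) := by
      have hex : Real.exp (-(t₂ ^ 2 / (2 * T.η ^ 2 * T.η ^ 2 * (3 * k * C ^ 2 / ((N : ℕ) : ℝ)))))
          ≤ 1 / (b : ℝ) ^ (Q' + 2) := by
        refine le_trans ?_ hexp
        rw [Real.exp_le_exp, neg_le_neg_iff]
        have hkR : (0 : ℝ) < k := by exact_mod_cast (by omega : 0 < k)
        have := hok.η_pos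
        have : t₂ ^ 2 / (2 * T.η ^ 2 * T.η ^ 2 * (3 * k * C ^ 2 / ((N : ℕ) : ℝ)))
            = (b : ℝ) ^ 2 / (6 * k * C ^ 2) := by
          rw [ht₂def, hN]
          push_cast
          field_simp
          ring
        rw [this, le_div_iff₀ (by positivity)]
        nlinarith
      have h1 : T.η ^ 2 ≤ 1 := pow_le_one₀ hok.η_pos.le hok.η_le
      calc _ ≤ 2 * (1 * (3 * (k : ℝ) * C)) * (1 / (b : ℝ) ^ (Q' + 2)) := by gcongr
        _ = 6 * k * C * (1 / (b : ℝ) ^ (Q' + 2)) := by ring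
        _ ≤ 1 / (b : ℝ) ^ (Q' + 1) := const_div_pow_le hb1 hbk' le_rfl
    have := pow_inv_mono hb1 (show Q' + 1 ≤ Q' + 2 by omega)
    simp only [← mul_assoc] at a3 a4 ⊢
    linarith [show (0 : ℝ) ≤ 1 / (b : ℝ) ^ (Q' + 1) by positivity]

/-- Second order part of a block with `b ^ (4i)` pairs of environment on both sides. -/
theorem smear_quad (q : ℝ) {S β g Q β' Q' i K K₀ : ℕ} (hi1 : 3 * i + 3 ≤ g)
    (hi3 : 2 * i + 1 ≤ S + 3) (hβ : β' + 4 ≤ 2 * β + i) (hβ0 : 0 < β)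
    (hQ : g + β' + Q' + 4 * i + 8 ≤ Q) :
    ∀ᶠ b : ℕ in atTop, ∀ F : Fam, F.Good q (par S β g Q) b →
      F.HasWin q (par S β g Q) K₀ b → ∀ A B : Finset ℕ, ∀ s y : ℕ,
        b ^ (4 * i) ≤ s → b ^ (4 * i) ≤ y →
          Dom ((F.stage q (par S β g Q) b).U ^ s * (F.stage q (par S β g Q) b).quadBlock A B K
              * (F.stage q (par S β g Q) b).U ^ y)
            ((F.stage q (par S β g Q) b).U ^ (s + K + y))
            (968 * (K : ℝ) ^ 2 * (1 / (b : ℝ) ^ (β' + 1)))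
            ((90000 * (K : ℝ) ^ 2 + 100) * (1 / (b : ℝ) ^ (Q' + 1))) := by
  filter_upwards [smear_pair q (K := K) (K₀ := K₀) hi1 hi3 hβ hβ0 hQ,
    flat_asymp q (par S β g Q) (c := 2 * i) (by simp only [par]; omega)
    (by simp only [par]; omega), ev_nat_ge (4 * K + 2000)] with b hpair hfl hbN F hF hwin A B s y hs hy
  replace hpair := hpair F hF hwin
  have hb1 : (1 : ℝ) ≤ b := by exact_mod_cast (by omega : 1 ≤ b)
  have hb0 : (0 : ℝ) < b := lt_of_lt_of_le zero_lt_one hb1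
  have hb1000 : (1000 : ℝ) ≤ b := by exact_mod_cast (by omega : 1000 ≤ b)
  have hsmall : ∀ z : ℕ, 1 ≤ z → 1 / (b : ℝ) ^ z ≤ 1 / 1000 := fun z hz =>
    (pow_inv_mono hb1 hz).trans (by
      rw [pow_one]; exact one_div_le_one_div_of_le (by norm_num) hb1000)
  have hok := hF.ok
  set T := (F.stage q (par S β g Q) b) with hT
  set n1 := b ^ (4 * i) with hn1
  have hn1pos : 1 ≤ n1 := Nat.one_le_pow _ _ (by omega)
  set n := b ^ (2 * (2 * i) + 1) with hn
  have hn1n : 4 * n1 + 2 * K ≤ n := by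
    have : n = b * n1 := by rw [hn, hn1]; ring
    have : (4 + 2 * K) * n1 ≤ b * n1 := Nat.mul_le_mul_right _ (by omega)
    have h' : (4 + 2 * K) * n1 = 4 * n1 + 2 * K * n1 := by ring
    have : 2 * K ≤ 2 * K * n1 := Nat.le_mul_of_pos_right _ hn1pos
    omega
  set t := (b : ℝ) ^ (2 * i + 2) / (b : ℝ) ^ g with ht
  set E := 20 * ((b : ℝ) ^ (2 * (2 * i) + 1) / (b : ℝ) ^ Q) with hE
  have hflat : T.FlatUpTo n t E := hfl F hok
  have hE0 : 0 ≤ E := by positivity
  have hEQ : E ≤ 20 * (1 / (b : ℝ) ^ (Q' + 2)) := by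
    rw [hE]
    refine mul_le_mul_of_nonneg_left ?_ (by norm_num)
    simpa using mul_pow_div_le (C := 1) hb1 hb1 (x := 2 * (2 * i) + 1) (y := Q) (z := Q' + 2)
      (by omega)
  have hE50 : E ≤ 1 / 50 := by linarith [hsmall (Q' + 2) (by omega)]
  have ht20 : t ≤ 1 / 20 := by
    have h1 := mul_pow_div_le (C := 20) hb1 (by linarith) (x := 2 * i + 2) (y := g) (z := 0)
      (by omega)
    simp only [pow_zero, div_one] at h1
    rw [ht]; linarith
  have hη : T.η = 1 / (b : ℝ) ^ β := rfl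
  have hη4 : T.η ≤ 1 / 4 := by rw [hη]; linarith [hsmall β hβ0]
  -- the block
  have hblock := word_quad_dom (p := T.p) (r := T.r) ((hok.isProb_H).pow (4 * n1 + 2 * K)).1
    (by positivity) (by positivity) (altWord K) (patchWord A B K) (by simp)
    ((LinearMap.mulLeft ℝ (T.U ^ n1)).comp (LinearMap.mulRight ℝ (T.U ^ n1)))
    (fun x y z hxyz => hpair x y z (by rw [hxyz, length_altWord]))
  simp only [LinearMap.comp_apply, LinearMap.mulLeft_apply, LinearMap.mulRight_apply,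
    length_altWord, Nat.cast_mul, Nat.cast_ofNat] at hblock
  have hpowU := Stage.pow_U_dom hflat (K := 2 * n1 + K) (by omega)
  rw [show 2 * (2 * n1 + K) = 4 * n1 + 2 * K by ring] at hpowU
  have h2 := hblock.change (by positivity) hpowU
  have h3 := (h2.mulLeft (hok.isProb_U.pow (s - n1)) (hok.isProb_U.pow _)).mulRight
    (hok.isProb_U.pow (y - n1)) ((hok.isProb_U.pow _).mul (hok.isProb_U.pow _)) (by positivity)
  rw [← pow_add, ← pow_add, show s - n1 + (2 * n1 + K) + (y - n1) = s + K + y by omega] at h3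
  rw [show T.U ^ s * T.quadBlock A B K * T.U ^ y
      = T.U ^ (s - n1) * (T.U ^ n1 * (T.quadBlock A B K * T.U ^ n1)) * T.U ^ (y - n1) by
    conv_lhs => rw [← Nat.sub_add_cancel hs, ← Nat.add_sub_cancel' hy, pow_add, pow_add]
    simp only [mul_assoc]]
  refine h3.mono (hok.isProb_U.pow _).1 (le_of_eq (by ring)) ?_
  have hB1 : 1 / (b : ℝ) ^ (β' + 1) ≤ 1 / 1000 := hsmall _ (by omega)
  have hEQ' : E ≤ 20 * (1 / (b : ℝ) ^ (Q' + 1)) :=
    hEQ.trans (mul_le_mul_of_nonneg_left (pow_inv_mono hb1 (by omega)) (by norm_num))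
  calc (2 * (K : ℝ)) ^ 2 * (22000 * (1 / (b : ℝ) ^ (Q' + 1)))
        + (2 * (K : ℝ)) ^ 2 * (121 * (1 / (b : ℝ) ^ (β' + 1))) * E
      ≤ (2 * (K : ℝ)) ^ 2 * (22000 * (1 / (b : ℝ) ^ (Q' + 1)))
        + (2 * (K : ℝ)) ^ 2 * (121 * (1 / 1000)) * (20 * (1 / (b : ℝ) ^ (Q' + 1))) := by
        gcongr
    _ ≤ _ := by
        have : 0 ≤ (K : ℝ) ^ 2 * (1 / (b : ℝ) ^ (Q' + 1)) := by positivity
        have : 0 ≤ 1 / (b : ℝ) ^ (Q' + 1) := by positivity
        nlinarith

/-- The smearing step. -/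
theorem smear_step {q : ℝ} (h0 : 0 ≤ q) (h1 : q ≤ 1) {S β g β' g' i : ℕ} (hflat : S + 8 ≤ g)
    (hg2 : g' + 2 ≤ 2 * β) (hgb : g' + S + 9 ≤ g + β) (hgs : 2 * S + 14 ≤ g')
    (hi1 : 3 * i + 3 ≤ g) (hi2 : 4 * i + 1 ≤ 2 * S + 10) (hi3 : 2 * i + 1 ≤ S + 3)
    (hβ : β' + 4 ≤ 2 * β + i) (h : LvlW q S β g) : Lvl q (2 * S + 7) β' g' := by
  intro Qn
  set Q' := Qn + g' + 4 * S + 24 with hQ'def
  obtain ⟨Q, hQ, F, K₀, hF⟩ := h (g + Q' + β' + 4 * S + 4 * i + 32)
  set k := 2 * (Q' + 2) with hk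
  obtain ⟨K, A, A', B, B', C, hC, hdis, hne, -, hA, hA', hB, hB', -, -, -, -, hpat⟩ :=
    exists_pattern (G := FreeMonoid Bool) k
  refine ⟨Q', by omega, F.next q (par S β g Q) A A' B B' K (2 * S + 10), ?_⟩
  filter_upwards [hF, next_good h0 h1 (Q := Q) (β' := β') (Q' := Q') hflat hg2 hgb hgs (by omega)
      (by omega) hne hdis hA hA' hB hB' hC fun T D hT => (hpat T D hT).2.2,
    smear_quad q (S := S) (β := β) (g := g) (Q := Q) (β' := β') (Q' := Q') (i := i) (K := K)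
      (K₀ := K₀) hi1 hi3 hβ (by omega) (by omega),
    ev_ge (4 * C * (4 : ℝ) ^ (Q' + 2)), ev_ge (1936 * (K : ℝ) ^ 2),
    ev_ge (180000 * (K : ℝ) ^ 2 + 201), ev_nat_ge (4 * k + 12 * K + 1000)]
    with b hb hgood hquad hb1C hbη hbε hbN
  obtain ⟨hb, hwin⟩ := hb
  have hb1 : (1 : ℝ) ≤ b := by exact_mod_cast (by omega : 1 ≤ b)
  have hb0 : (0 : ℝ) < b := lt_of_lt_of_le zero_lt_one hb1
  have hok := hb.ok
  set M' := b ^ (2 * S + 10) with hM'
  have hbM' : b ≤ M' := Nat.le_self_pow (by omega) b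
  obtain ⟨e1, e2, e3⟩ := env_sizes (M := M') (K := K) (by omega)
  set s := (M' - K) / 2
  set y := M' - K - s
  set T := F.stage q (par S β g Q) b with hT
  have hn1 : 4 * b ^ (4 * i) ≤ M' := by
    calc 4 * b ^ (4 * i) ≤ b * b ^ (4 * i) := Nat.mul_le_mul_right _ (by omega)
      _ = b ^ (4 * i + 1) := by ring
      _ ≤ _ := Nat.pow_le_pow_right (by omega) hi2
  have hq1 := hquad F hb hwin A B s y (by omega) (by omega)
  have hq2 := hquad F hb hwin A' B' s y (by omega) (by omega)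
  rw [← hT, e1] at hq1 hq2
  have hlin := Stage.lin_diff (y := y) hok hA hA' hB hB'
    (fun T D hT => ⟨(hpat T D hT).1, (hpat T D hT).2.1⟩) (s := s) (m := b ^ (2 * S + 9))
    (by
      have : M' = b * b ^ (2 * S + 9) := by rw [hM']; ring
      have h4 : 4 * (k * b ^ (2 * S + 9)) ≤ b * b ^ (2 * S + 9) :=
        (Nat.mul_assoc 4 k _).symm.trans_le (Nat.mul_le_mul_right _ (by omega))
      omega)
    (by
      have : M' = b * b ^ (2 * S + 9) := by rw [hM']; ring
      have h5 : 8 * k * b ^ (2 * S + 9) ≤ 2 * b * b ^ (2 * S + 9) :=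
        Nat.mul_le_mul_right _ (by omega)
      simp only [Nat.mul_assoc] at h5
      omega)
  have a3 : 4 * C * (2 * nrm ((T.U - 1) * T.U ^ b ^ (2 * S + 9))) ^ k
      ≤ 1 / (b : ℝ) ^ (Q' + 1) := by
    refine pow_small (D := 2 ^ 2) hb1 (by linarith)
      (shift_small hb1 (x := 0) (y := 2 * S + 7) (z := 2 * S + 9) (nrm_nonneg _)
        (hb.smU _) ?_ (by norm_num) (by simp) (by omega))
      (by norm_num; linarith)
    push_cast; linarith
  have hlinD := (Dom.of_nrm (hok.isProb_U.pow M').1).mono (hok.isProb_U.pow M').1 le_rfl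
    (hlin.trans a3)
  refine hgood F hb ?_
  rw [← hT, show T.patched A B K s y - T.patched A' B' K s y
      = T.U ^ s * T.quadBlock A B K * T.U ^ y - T.U ^ s * T.quadBlock A' B' K * T.U ^ y
        + (T.U ^ s * linPart T.p T.r (altWord K) (patchWord A B K) * T.U ^ y
          - T.U ^ s * linPart T.p T.r (altWord K) (patchWord A' B' K) * T.U ^ y) by
    rw [← sub_sub_sub_cancel_right (T.patched A B K s y) _ (T.U ^ (s + K + y)),
      Stage.patched_sub, Stage.patched_sub]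
    abel]
  refine ((hq1.sub hq2).add hlinD).mono (hok.isProb_U.pow _).1 ?_ ?_
  · calc _ = 1936 * (K : ℝ) ^ 2 * (1 / (b : ℝ) ^ (β' + 1)) := by ring
      _ ≤ 1 / (b : ℝ) ^ β' := const_div_pow_le hb1 hbη le_rfl
  · calc _ = (180000 * (K : ℝ) ^ 2 + 201) * (1 / (b : ℝ) ^ (Q' + 1)) := by ring
      _ ≤ 1 / (b : ℝ) ^ Q' := const_div_pow_le hb1 hbε le_rfl

end Vale.Agent.P321
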