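import Vale.Agent.P321.Chan
import Vale.Agent.P321.Expand

/-!
Strings obtained by substituting two blocks for the letters of a word.
-/

namespace Vale.Agent.P321

open MonoidAlgebra Finset

/-- Substitute `P` for `false` and `R` for `true`. -/
def strWord (P R w : List Bool) : List Bool := (w.map fun b => bif b then R else P).flatten

/-- The word of a new letter: a patched block of `K` pairs in the middle of `M` pairs. -/
def levelWord (A B : Finset ℕ) (K M : ℕ) : List Bool :=
  altWord ((M - K) / 2) ++ (patchWord A B K ++ altWord (M - K - (M - K) / 2))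

lemma traceM_strWord (q : ℝ) (P R : List Bool) :
    ∀ w, traceM q (strWord P R w) = wval (traceM q P) (traceM q R) w
  | [] => by simp [strWord, traceM]
  | b :: w => by
    rw [show strWord P R (b :: w) = (bif b then R else P) ++ strWord P R w from rfl,
      traceM_append, traceM_strWord q P R w, wval_cons]
    cases b <;> rfl

lemma length_strWord {P R : List Bool} (h : P.length = R.length) :
    ∀ w, (strWord P R w).length = w.length * P.length
  | [] => by simp [strWord]
  | b :: w => by
    rw [show strWord P R (b :: w) = (bif b then R else P) ++ strWord P R w from rfl,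
      List.length_append, length_strWord h w, List.length_cons]
    cases b <;> simp [h] <;> ring

lemma strWord_inj {P R : List Bool} (h : P.length = R.length) (hne : P ≠ R) :
    ∀ v w : List Bool, v.length = w.length → strWord P R v = strWord P R w → v = w
  | [], [], _, _ => rfl
  | [], _ :: _, hl, _ => by simp at hl
  | _ :: _, [], hl, _ => by simp at hl
  | a :: v, b :: w, hl, he => by
    rw [show strWord P R (a :: v) = (bif a then R else P) ++ strWord P R v from rfl,
      show strWord P R (b :: w) = (bif b then R else P) ++ strWord P R w from rfl] at he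
    obtain ⟨h1, h2⟩ := List.append_inj he (by cases a <;> cases b <;> simp [h])
    simp only [List.length_cons, Nat.add_right_cancel_iff] at hl
    rw [strWord_inj h hne v w hl h2]
    cases a <;> cases b <;> first | rfl | exact absurd h1 hne | exact absurd h1.symm hne

lemma length_levelWord (A B : Finset ℕ) {K M : ℕ} (h : K ≤ M) :
    (levelWord A B K M).length = 2 * M := by
  simp [levelWord]; omega

lemma patchWord_inj {A A' B B' : Finset ℕ} :
    ∀ {K : ℕ}, patchWord A B K = patchWord A' B' K → ∀ i < K, (i ∈ A ↔ i ∈ A')
  | 0, _, i, hi => absurd hi (Nat.not_lt_zero i)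
  | K + 1, h, i, hi => by
    rw [patchWord_succ, patchWord_succ] at h
    obtain ⟨h1, h2⟩ := List.append_inj h (by simp)
    rcases Nat.lt_succ_iff_lt_or_eq.1 hi with hlt | rfl
    · exact patchWord_inj h1 i hlt
    · simp at h2
      exact h2.1

lemma levelWord_ne {A A' B B' : Finset ℕ} {K M : ℕ} (hA : A ⊆ range K) (hne : A.Nonempty)
    (hd : Disjoint A A') : levelWord A B K M ≠ levelWord A' B' K M := by
  intro h
  obtain ⟨-, h1⟩ := List.append_inj h rfl
  obtain ⟨h2, -⟩ := List.append_inj h1 (by simp)
  obtain ⟨i, hi⟩ := hne
  exact disjoint_left.1 hd hi ((patchWord_inj h2 i (mem_range.1 (hA hi))).1 hi)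

lemma wval_levelWord {G : Type*} [Monoid G] (S : Stage G) (A B : Finset ℕ) (K M : ℕ) :
    wval S.p S.r (levelWord A B K M)
      = S.patched A B K ((M - K) / 2) (M - K - (M - K) / 2) := by
  simp [levelWord, Stage.patched, wval_altWord, Stage.U, mul_assoc]

end Vale.Agent.P321
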