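import Vale.Agent.P321.Asymp
import Vale.Agent.P321.Strings

/-!
From one level to the next, as a function of the parameter `b`: common part and plain step.
-/

namespace Vale.Agent.P321

open MonoidAlgebra Filter Finset

/-- The exponents of a level whose sub-cell has smoothing exponent `S`. -/
def par (S β g Q : ℕ) : Par := ⟨S + 3, S, 2 * S + 7, β, g, Q⟩

/-- There are levels with exponents `S, β, g` and arbitrarily small error. -/
def Lvl (q : ℝ) (S β g : ℕ) : Prop :=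
  ∀ Q, ∃ Q', Q ≤ Q' ∧ ∃ F : Fam, ∀ᶠ b in atTop, F.Good q (par S β g Q') b

/-- There are such levels whose letters differ by a window of bounded width. -/
def LvlW (q : ℝ) (S β g : ℕ) : Prop :=
  ∀ Q, ∃ Q', Q ≤ Q' ∧ ∃ F : Fam, ∃ K : ℕ, ∀ᶠ b in atTop,
    F.Good q (par S β g Q') b ∧ F.HasWin q (par S β g Q') K b

lemma LvlW.lvl {q : ℝ} {S β g : ℕ} (h : LvlW q S β g) : Lvl q S β g := fun Q => by
  obtain ⟨Q', hQ, F, K, hF⟩ := h Q
  exact ⟨Q', hQ, F, hF.mono fun b hb => hb.1⟩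

/-- The family of the next level. -/
noncomputable def Fam.next (F : Fam) (q : ℝ) (π : Par) (A A' B B' : Finset ℕ) (K μ' : ℕ) : Fam where
  P b := strWord (F.P b) (F.R b) (levelWord A B K (b ^ μ'))
  R b := strWord (F.P b) (F.R b) (levelWord A' B' K (b ^ μ'))
  W b := (F.stage q π b).U

lemma next_p (F : Fam) (q : ℝ) (π π' : Par) (A A' B B' : Finset ℕ) (K μ' b : ℕ) :
    ((F.next q π A A' B B' K μ').stage q π' b).p
      = (F.stage q π b).patched A B K ((b ^ μ' - K) / 2) (b ^ μ' - K - (b ^ μ' - K) / 2) := by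
  rw [← wval_levelWord]
  exact traceM_strWord q _ _ _

lemma next_r (F : Fam) (q : ℝ) (π π' : Par) (A A' B B' : Finset ℕ) (K μ' b : ℕ) :
    ((F.next q π A A' B B' K μ').stage q π' b).r
      = (F.stage q π b).patched A' B' K ((b ^ μ' - K) / 2) (b ^ μ' - K - (b ^ μ' - K) / 2) := by
  rw [← wval_levelWord]
  exact traceM_strWord q _ _ _

/-- Sizes of the two environments of a patched block. -/
lemma env_sizes {M K : ℕ} (h : 4 * K + 4 ≤ M) :
    (M - K) / 2 + K + (M - K - (M - K) / 2) = M ∧ M ≤ 4 * ((M - K) / 2) ∧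
      M ≤ 4 * (M - K - (M - K) / 2) := by omega

/-- Each new letter is close to a power of the cell. -/
theorem letter_asymp (q : ℝ) {S β g Q g' Q' K : ℕ} (hflat : S + 8 ≤ g) (hg2 : g' + 2 ≤ 2 * β)
    (hgb : g' + S + 9 ≤ g + β) (hQ : g + Q' + 4 * S + 24 ≤ Q) {A B : Finset ℕ}
    (hA : A ⊆ range K) (hB : B ⊆ range K) {C : ℝ} (hC : 0 < C)
    (hpat : ∀ (T : ℕ → Meas) (D : ℝ),
      (∀ j < 2 * K, nrm ((fdiff^[2 * (Q' + 2)] T) j) ≤ D) →
      nrm (∑ i ∈ A, T (2 * i) - ∑ i ∈ B, T (2 * i + 1)) ≤ C * D) :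
    ∀ᶠ b : ℕ in atTop, ∀ F : Fam, F.Good q (par S β g Q) b →
      Dom ((F.stage q (par S β g Q) b).patched A B K ((b ^ (2 * S + 10) - K) / 2)
          (b ^ (2 * S + 10) - K - (b ^ (2 * S + 10) - K) / 2)
          - (F.stage q (par S β g Q) b).U ^ (b ^ (2 * S + 10)))
        ((F.stage q (par S β g Q) b).U ^ (b ^ (2 * S + 10)))
        (1 / (b : ℝ) ^ g') (1 / (b : ℝ) ^ Q') := by
  set k := 2 * (Q' + 2) with hk
  filter_upwards [flat_asymp q (par S β g Q) (c := S + 5) (by simp only [par]; omega)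
    (by simp only [par]; omega), ev_ge (2 * C * (4 : ℝ) ^ (Q' + 2)),
    ev_ge (64 * (K : ℝ) ^ 2 + 120 * K + 2100 * (K : ℝ) ^ 2 * 20 + 80 * K * 20 + 60 * K * 20 + 3),
    ev_nat_ge (4 * k + 12 * K + 1000)] with b hflatb hb1C hbC hbN F hF
  have hb1 : (1 : ℝ) ≤ b := by exact_mod_cast (by omega : 1 ≤ b)
  have hb0 : (0 : ℝ) < b := lt_of_lt_of_le zero_lt_one hb1
  have hok := hF.ok
  set M' := b ^ (2 * S + 10) with hM'
  have hbM' : b ≤ M' := Nat.le_self_pow (by omega) b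
  obtain ⟨e1, e2, e3⟩ := env_sizes (M := M') (K := K) (by omega)
  set s := (M' - K) / 2
  set y := M' - K - s
  have hfl := hflatb F hok
  simp only [par] at hfl
  have hfl' : (F.stage q (par S β g Q) b).FlatUpTo (2 * (s + K + y))
      ((b : ℝ) ^ (S + 5 + 2) / (b : ℝ) ^ g)
      (20 * ((b : ℝ) ^ (2 * (S + 5) + 1) / (b : ℝ) ^ Q)) := fun w hw => hfl w (hw.trans (by
    rw [e1, hM', show 2 * (S + 5) + 1 = (2 * S + 10) + 1 by ring, pow_succ, mul_comm]
    exact Nat.mul_le_mul_left _ (by omega)))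
  have hE0 : 0 ≤ (b : ℝ) ^ (2 * (S + 5) + 1) / (b : ℝ) ^ Q := by positivity
  have hE1 : (b : ℝ) ^ (2 * (S + 5) + 1) / (b : ℝ) ^ Q ≤ 1 / (b : ℝ) ^ (Q' + 1) := by
    simpa using mul_pow_div_le (C := 1) hb1 hb1 (x := 2 * (S + 5) + 1) (y := Q) (z := Q' + 1)
      (by omega)
  have hb1000 : (1000 : ℝ) ≤ b := by exact_mod_cast (by omega : 1000 ≤ b)
  have hsmall : ∀ z : ℕ, 1 / (b : ℝ) ^ (z + 1) ≤ 1 / 1000 := fun z =>
    (pow_inv_mono hb1 (by omega : 1 ≤ z + 1)).trans (by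
      rw [pow_one]; exact one_div_le_one_div_of_le (by norm_num) hb1000)
  have hη : (F.stage q (par S β g Q) b).η ≤ 1 / 4 := by
    simp only [Fam.stage, par]
    obtain ⟨z, hz⟩ : ∃ z, β = z + 1 := ⟨β - 1, by omega⟩
    rw [hz]
    linarith [hsmall z]
  have hεE : (F.stage q (par S β g Q) b).ε ≤ 20 * ((b : ℝ) ^ (2 * (S + 5) + 1) / (b : ℝ) ^ Q) := by
    simp only [Fam.stage, par]
    have : 1 / (b : ℝ) ^ Q ≤ (b : ℝ) ^ (2 * (S + 5) + 1) / (b : ℝ) ^ Q := by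
      gcongr
      exact one_le_pow₀ hb1
    linarith
  have ht : (b : ℝ) ^ (S + 5 + 2) / (b : ℝ) ^ g ≤ 1 / (b : ℝ) ^ 0 := by
    simpa using mul_pow_div_le (C := 1) hb1 hb1 (x := S + 5 + 2) (y := g) (z := 0) (by omega)
  have ht' : (b : ℝ) ^ (S + 5 + 2) / (b : ℝ) ^ g ≤ 1 / 20 := by
    have h1 := mul_pow_div_le (C := 20) hb1 (by linarith) (x := S + 5 + 2) (y := g) (z := 0)
      (by omega)
    simp only [pow_zero, div_one] at h1
    linarith
  have hM : (F.stage q (par S β g Q) b).M = b ^ (S + 3) := rfl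
  set m := b ^ (S + 3 + (2 * S + 9)) with hm
  have hkm : 4 * (k * m) ≤ b ^ (S + 3) * M' := by
    rw [hM', hm, ← pow_add, show S + 3 + (2 * S + 10) = S + 3 + (2 * S + 9) + 1 by ring,
      pow_succ _ (S + 3 + (2 * S + 9)), mul_comm (b ^ _) b, ← mul_assoc]
    exact Nat.mul_le_mul_right _ (by omega)
  have hmain := Stage.patched_dom hok hA hB hpat hfl' (by positivity) ht'
    (by linarith [hsmall Q']) hεE hη (m := m)
    (by
      rw [hM]
      have : b ^ (S + 3) * M' ≤ b ^ (S + 3) * (4 * s) := Nat.mul_le_mul_left _ e2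
      have h2 : b ^ (S + 3) * (4 * s) = 2 * (b ^ (S + 3) * (2 * s)) := by ring
      omega)
    (by
      rw [hM]
      have h1 : b ^ (S + 3) * M' ≤ b ^ (S + 3) * (4 * y) := Nat.mul_le_mul_left _ e3
      have h2 : b ^ (S + 3) * (4 * y) = 2 * (b ^ (S + 3) * (2 * y)) := by ring
      have h3 : b ^ (S + 3) * (4 * (2 * K + k)) ≤ b ^ (S + 3) * M' :=
        Nat.mul_le_mul_left _ (by omega)
      have h4 : b ^ (S + 3) * (4 * (2 * K + k)) = 4 * (b ^ (S + 3) * (2 * K + k)) := by ring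
      omega)
  rw [e1] at hmain
  refine hmain.mono (hok.isProb_U.pow _).1 ?_ ?_
  · simp only [Fam.stage, par]
    have a1 : (1 / (b : ℝ) ^ β) ^ 2 ≤ 1 / (b : ℝ) ^ (g' + 1) := by
      rw [div_pow, one_pow, ← pow_mul]
      exact pow_inv_mono hb1 (by omega)
    have a2 : (b : ℝ) ^ (S + 5 + 2) / (b : ℝ) ^ g * (1 / (b : ℝ) ^ β)
        ≤ 1 / (b : ℝ) ^ (g' + 1) := by
      rw [div_mul_div_comm, mul_one, ← pow_add]
      simpa using mul_pow_div_le (C := 1) hb1 hb1 (x := S + 5 + 2) (y := g + β) (z := g' + 1)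
        (by omega)
    calc 64 * (K : ℝ) ^ 2 * (1 / (b : ℝ) ^ β) ^ 2
          + 120 * K * ((b : ℝ) ^ (S + 5 + 2) / (b : ℝ) ^ g) * (1 / (b : ℝ) ^ β)
        ≤ (64 * (K : ℝ) ^ 2 + 120 * K) * (1 / (b : ℝ) ^ (g' + 1)) := by
          rw [add_mul, mul_assoc (120 * (K : ℝ))]
          gcongr
      _ ≤ 1 / (b : ℝ) ^ g' := const_div_pow_le hb1 (by
          nlinarith [sq_nonneg (K : ℝ), (Nat.cast_nonneg K : (0 : ℝ) ≤ K)]) le_rfl
  · simp only [Fam.stage, par]
    have a3 : 2 * C * (2 * ((b ^ (S + 3) : ℕ) : ℝ) * nrm ((F.W b - 1) * F.W b ^ m)) ^ k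
        ≤ 1 / (b : ℝ) ^ (Q' + 1) := by
      refine pow_small (D := 2 ^ 2) hb1 (by linarith)
        (shift_small hb1 (x := S + 3) (y := S) (z := S + 3 + (2 * S + 9)) (nrm_nonneg _)
          (hF.smW m) ?_ (by positivity) ?_ (by omega))
        (by norm_num; linarith)
      · rw [hm]; push_cast; linarith
      · push_cast; exact le_rfl
    have hη1 : 1 / (b : ℝ) ^ β ≤ 1 := by
      rw [div_le_one (by positivity)]; exact one_le_pow₀ hb1
    calc 2100 * (K : ℝ) ^ 2 * (20 * ((b : ℝ) ^ (2 * (S + 5) + 1) / (b : ℝ) ^ Q))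
          + (80 * K * (20 * ((b : ℝ) ^ (2 * (S + 5) + 1) / (b : ℝ) ^ Q))
            + 2 * C * (2 * ((b ^ (S + 3) : ℕ) : ℝ) * nrm ((F.W b - 1) * F.W b ^ m)) ^ k
            + 60 * K * ((b : ℝ) ^ (S + 5 + 2) / (b : ℝ) ^ g) * (1 / (b : ℝ) ^ β)
              * (20 * ((b : ℝ) ^ (2 * (S + 5) + 1) / (b : ℝ) ^ Q)))
        ≤ 2100 * (K : ℝ) ^ 2 * (20 * (1 / (b : ℝ) ^ (Q' + 1)))
          + (80 * K * (20 * (1 / (b : ℝ) ^ (Q' + 1))) + 1 / (b : ℝ) ^ (Q' + 1)
            + 60 * K * 1 * 1 * (20 * (1 / (b : ℝ) ^ (Q' + 1)))) := by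
          gcongr
          simpa using ht
      _ = (2100 * (K : ℝ) ^ 2 * 20 + 80 * K * 20 + 60 * K * 20 + 1)
            * (1 / (b : ℝ) ^ (Q' + 1)) := by ring
      _ ≤ 1 / (b : ℝ) ^ Q' := const_div_pow_le hb1 (by
          nlinarith [sq_nonneg (K : ℝ), (Nat.cast_nonneg K : (0 : ℝ) ≤ K)]) le_rfl

/-- The cell of a level is smoothed as soon as its sub-cell is. -/
theorem smU_of_smW (q : ℝ) {S β g Q : ℕ} (hg : S + 7 ≤ g) (hQ : g + 2 * S + 10 ≤ Q) :
    ∀ᶠ b : ℕ in atTop, ∀ F : Fam, (F.stage q (par S β g Q) b).Ok →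
      (∀ m : ℕ, nrm ((F.W b - 1) * F.W b ^ m) ≤ √((b : ℝ) ^ S / ((m : ℝ) + 1))) →
      ∀ m : ℕ, nrm (((F.stage q (par S β g Q) b).U - 1) * (F.stage q (par S β g Q) b).U ^ m)
        ≤ √((b : ℝ) ^ (2 * S + 7) / ((m : ℝ) + 1)) := by
  filter_upwards [thresh_asymp (g := g) (Q := Q) (c := S + 4) (by omega) (by omega),
    ev_nat_ge 1000] with b hth hb F hok hW m
  have hb1 : (1 : ℝ) ≤ b := by exact_mod_cast (by omega : 1 ≤ b)
  have hb0 : (0 : ℝ) < b := lt_of_lt_of_le zero_lt_one hb1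
  have hb1000 : (1000 : ℝ) ≤ b := by exact_mod_cast (by omega : 1000 ≤ b)
  set T := F.stage q (par S β g Q) b with hT
  set n := 2 * (b ^ (2 * S + 6) + 1) with hn
  have hp20 : 1 ≤ b ^ (2 * S + 6) := Nat.one_le_pow _ _ (by omega)
  have hn' : n ≤ b ^ (2 * (S + 4) + 1) := by
    rw [show 2 * (S + 4) + 1 = 2 * S + 6 + 3 by ring, pow_add _ (2 * S + 6) 3]
    have hbb : 4 ≤ b ^ 3 := le_trans (by omega : 4 ≤ b) (Nat.le_self_pow (by norm_num) b)
    calc n ≤ b ^ (2 * S + 6) * 4 := by omega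
      _ ≤ b ^ (2 * S + 6) * b ^ 3 := Nat.mul_le_mul_left _ hbb
  obtain ⟨t1, t2, t3⟩ := hth n (by omega) hn'
  have hE : 10 * ((b : ℝ) ^ (2 * (S + 4) + 1) / (b : ℝ) ^ Q) ≤ 1 / 20 := by
    have := mul_pow_div_le (C := 200) hb1 (by linarith) (x := 2 * (S + 4) + 1) (y := Q)
      (z := 0) (by omega)
    simp only [pow_zero, div_one] at this
    linarith
  have hsm := smoothing_step (U := T.W) (p' := T.p) (r' := T.r) (M := b ^ (S + 3))
    (K := b ^ (2 * S + 6)) hok.isProb_W hok.isProb_p hok.isProb_r hok.g_pos hok.small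
    (t := (b : ℝ) ^ (S + 4 + 2) / (b : ℝ) ^ g) t1
    t2 hok.dom_p hok.dom_r (t3.trans hE) ?_ m
  · refine hsm.trans ?_
    have h36 : √(36 : ℝ) = 6 := by
      rw [show (36 : ℝ) = 6 ^ 2 by norm_num, Real.sqrt_sq (by norm_num)]
    rw [← h36, ← Real.sqrt_mul (by norm_num)]
    refine Real.sqrt_le_sqrt ?_
    rw [mul_div_assoc']
    refine div_le_div_of_nonneg_right ?_ (by positivity)
    rw [show 2 * S + 7 = 2 * S + 6 + 1 by ring, pow_succ _ (2 * S + 6)]
    push_cast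
    have h1 : (1 : ℝ) ≤ (b : ℝ) ^ (2 * S + 6) := one_le_pow₀ hb1
    nlinarith
  · have h := shift_small (D := 2) hb1 (x := S + 3) (y := S)
      (m := 2 * b ^ (S + 3) * b ^ (2 * S + 6)) (z := S + 3 + (2 * S + 6))
      (s := ((2 * b ^ (S + 3) : ℕ) : ℝ)) (nrm_nonneg _) (hW _)
      (by
        push_cast
        rw [pow_add]
        have hp := mul_pos (pow_pos hb0 (S + 3)) (pow_pos hb0 (2 * S + 6))
        nlinarith only [hp])
      (by positivity) (by push_cast; exact le_rfl) (by omega)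
    have hx : (2 : ℝ) ^ 2 / b ≤ (1 / 2) ^ 2 := by
      rw [div_le_iff₀ hb0]; linarith
    exact (le_abs_self _).trans (abs_le_of_sq_le_sq (h.trans hx) (by norm_num))

/-- The next level is valid as soon as its two letters are close enough to each other. -/
theorem next_good {q : ℝ} (h0 : 0 ≤ q) (h1 : q ≤ 1) {S β g Q β' g' Q' K : ℕ} (hflat : S + 8 ≤ g)
    (hg2 : g' + 2 ≤ 2 * β) (hgb : g' + S + 9 ≤ g + β) (hgs : 2 * S + 14 ≤ g')
    (hQ : g + Q' + 4 * S + 24 ≤ Q) (hQ' : g' + 4 * S + 24 ≤ Q') {A A' B B' : Finset ℕ}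
    (hne : A.Nonempty) (hdis : Disjoint A A') (hA : A ⊆ range K) (hA' : A' ⊆ range K)
    (hB : B ⊆ range K) (hB' : B' ⊆ range K) {C : ℝ} (hC : 0 < C)
    (hpat : ∀ (T : ℕ → Meas) (D : ℝ),
      (∀ j < 2 * K, nrm ((fdiff^[2 * (Q' + 2)] T) j) ≤ D) →
      nrm (∑ i ∈ A, T (2 * i) - ∑ i ∈ B, T (2 * i + 1)) ≤ C * D ∧
      nrm (∑ i ∈ A', T (2 * i) - ∑ i ∈ B', T (2 * i + 1)) ≤ C * D) :
    ∀ᶠ b : ℕ in atTop, ∀ F : Fam, F.Good q (par S β g Q) b →
      Dom ((F.stage q (par S β g Q) b).patched A B K ((b ^ (2 * S + 10) - K) / 2)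
          (b ^ (2 * S + 10) - K - (b ^ (2 * S + 10) - K) / 2)
          - (F.stage q (par S β g Q) b).patched A' B' K ((b ^ (2 * S + 10) - K) / 2)
          (b ^ (2 * S + 10) - K - (b ^ (2 * S + 10) - K) / 2))
        ((F.stage q (par S β g Q) b).U ^ (b ^ (2 * S + 10)))
        (1 / (b : ℝ) ^ β') (1 / (b : ℝ) ^ Q') →
      (F.next q (par S β g Q) A A' B B' K (2 * S + 10)).Good q
        (par (2 * S + 7) β' g' Q') b := by
  filter_upwards [letter_asymp q hflat hg2 hgb hQ hA hB hC fun T D h => (hpat T D h).1,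
    letter_asymp q hflat hg2 hgb hQ hA' hB' hC fun T D h => (hpat T D h).2,
    smU_of_smW q (S := 2 * S + 7) (β := β') (g := g') (Q := Q') (by omega) (by omega),
    ev_nat_ge (4 * K + 1000)] with b hp hr hsmU hb F hF hd
  have hb1 : (1 : ℝ) ≤ b := by exact_mod_cast (by omega : 1 ≤ b)
  have hb0 : (0 : ℝ) < b := lt_of_lt_of_le zero_lt_one hb1
  have hb1000 : (1000 : ℝ) ≤ b := by exact_mod_cast (by omega : 1000 ≤ b)
  have hbM : b ≤ b ^ (2 * S + 10) := Nat.le_self_pow (by omega) b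
  have hsmall : ∀ z : ℕ, 1 ≤ z → 1 / (b : ℝ) ^ z ≤ 1 / 1000 := fun z hz =>
    (pow_inv_mono hb1 hz).trans (by
      rw [pow_one]; exact one_div_le_one_div_of_le (by norm_num) hb1000)
  have hok := hF.ok
  set π := par S β g Q
  set T := (F.next q π A A' B B' K (2 * S + 10)).stage q (par (2 * S + 7) β' g' Q') b with hT
  have hTp : T.p = _ := next_p F q π (par (2 * S + 7) β' g' Q') A A' B B' K (2 * S + 10) b
  have hTr : T.r = _ := next_r F q π (par (2 * S + 7) β' g' Q') A A' B B' K (2 * S + 10) b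
  have hTok : T.Ok :=
    { isProb_p := traceM_isProb h0 h1 _
      isProb_r := traceM_isProb h0 h1 _
      isProb_W := hok.isProb_U
      g_pos := by simp only [hT, Fam.stage, par]; positivity
      η_pos := by simp only [hT, Fam.stage, par]; positivity
      η_le := by
        simp only [hT, Fam.stage, par]
        rw [div_le_one (by positivity)]
        exact one_le_pow₀ hb1
      small := by
        simp only [hT, Fam.stage, par]
        linarith [hsmall g' (by omega), hsmall Q' (by omega)]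
      dom_p := by rw [hTp]; exact hp F hF
      dom_r := by rw [hTr]; exact hr F hF
      dom_d := by rw [hTp, hTr]; exact hd }
  have hlen : ∀ A B : Finset ℕ,
      (strWord (F.P b) (F.R b) (levelWord A B K (b ^ (2 * S + 10)))).length
        = 2 * b ^ (2 * S + 10) * (F.P b).length := fun A B => by
    rw [length_strWord hF.len_eq, length_levelWord A B (by omega)]
  refine ⟨hTok, hF.smU, ?_, (hlen A B).trans (hlen A' B').symm, ?_, ?_, fun heq => ?_⟩
  · exact hsmU _ hTok hF.smU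
  · exact lt_of_lt_of_eq (Nat.mul_pos (by omega) hF.len_ge) (hlen A B).symm
  · refine (hlen A B).trans_le ?_
    simp only [par]
    calc 2 * b ^ (2 * S + 10) * (F.P b).length ≤ b * b ^ (2 * S + 10) * b ^ (2 * S + 7) := by
          gcongr
          · omega
          · exact hF.len_le
      _ = b ^ (4 * S + 18) := by ring
      _ ≤ b ^ (2 * (2 * S + 7) + 7) := Nat.pow_le_pow_right (by omega) (by omega)
  · exact levelWord_ne hA hne hdis (strWord_inj hF.len_eq hF.ne _ _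
      (by rw [length_levelWord A B (by omega), length_levelWord A' B' (by omega)]) heq)

/-- The plain step: the new letters differ by a window of bounded width. -/
theorem plain_step {q : ℝ} (h0 : 0 ≤ q) (h1 : q ≤ 1) {S β g β' g' : ℕ} (hflat : S + 8 ≤ g)
    (hg2 : g' + 2 ≤ 2 * β) (hgb : g' + S + 9 ≤ g + β) (hgs : 2 * S + 14 ≤ g')
    (hβ : β' + 3 ≤ 2 * β) (h : Lvl q S β g) : LvlW q (2 * S + 7) β' g' := by
  intro Qn
  set Q' := Qn + g' + 4 * S + 24 with hQ'def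
  obtain ⟨Q, hQ, F, hF⟩ := h (g + Q' + β' + 4 * S + 24)
  set k := 2 * (Q' + 2) with hk
  obtain ⟨K, A, A', B, B', C, hC, hdis, hne, -, hA, hA', hB, hB', -, -, -, -, hpat⟩ :=
    exists_pattern (G := FreeMonoid Bool) k
  refine ⟨Q', by omega, F.next q (par S β g Q) A A' B B' K (2 * S + 10), K, ?_⟩
  filter_upwards [hF, next_good h0 h1 (Q := Q) (β' := β') (Q' := Q') hflat hg2 hgb hgs (by omega)
      (by omega) hne hdis hA hA' hB hB' hC fun T D hT => (hpat T D hT).2.2,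
    flat_asymp q (par S β g Q) (c := S + 5) (by simp only [par]; omega)
      (by simp only [par]; omega),
    ev_ge (4 * C * (4 : ℝ) ^ (Q' + 2)),
    ev_ge (128 * (K : ℝ) ^ 2 + 4200 * (K : ℝ) ^ 2 * 20 + 8400 * (K : ℝ) ^ 2 * 20 + 3),
    ev_nat_ge (4 * k + 12 * K + 1000)] with b hb hgood hflatb hb1C hbC hbN
  have hb1 : (1 : ℝ) ≤ b := by exact_mod_cast (by omega : 1 ≤ b)
  have hb0 : (0 : ℝ) < b := lt_of_lt_of_le zero_lt_one hb1
  have hok := hb.ok
  set M' := b ^ (2 * S + 10) with hM'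
  have hbM' : b ≤ M' := Nat.le_self_pow (by omega) b
  obtain ⟨e1, e2, e3⟩ := env_sizes (M := M') (K := K) (by omega)
  set s := (M' - K) / 2 with hs
  set y := M' - K - s with hy
  have hfl := hflatb F hok
  simp only [par] at hfl
  have hfl' : (F.stage q (par S β g Q) b).FlatUpTo (2 * K)
      ((b : ℝ) ^ (S + 5 + 2) / (b : ℝ) ^ g)
      (20 * ((b : ℝ) ^ (2 * (S + 5) + 1) / (b : ℝ) ^ Q)) := fun w hw => hfl w (hw.trans (by
    have := Nat.le_self_pow (n := 2 * (S + 5) + 1) (by omega) b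
    omega))
  have hE : ∀ z, z ≤ Q' + 1 ∨ z ≤ β' + 1 →
      (b : ℝ) ^ (2 * (S + 5) + 1) / (b : ℝ) ^ Q ≤ 1 / (b : ℝ) ^ z := fun z hz => by
    simpa using mul_pow_div_le (C := 1) hb1 hb1 (x := 2 * (S + 5) + 1) (y := Q) (z := z) (by omega)
  have hb1000 : (1000 : ℝ) ≤ b := by exact_mod_cast (by omega : 1000 ≤ b)
  have hsmall : ∀ z : ℕ, 1 ≤ z → 1 / (b : ℝ) ^ z ≤ 1 / 1000 := fun z hz =>
    (pow_inv_mono hb1 hz).trans (by
      rw [pow_one]; exact one_div_le_one_div_of_le (by norm_num) hb1000)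
  have hεE : (F.stage q (par S β g Q) b).ε ≤ 20 * ((b : ℝ) ^ (2 * (S + 5) + 1) / (b : ℝ) ^ Q) := by
    simp only [Fam.stage, par]
    have : 1 / (b : ℝ) ^ Q ≤ (b : ℝ) ^ (2 * (S + 5) + 1) / (b : ℝ) ^ Q := by
      gcongr
      exact one_le_pow₀ hb1
    linarith [show (0 : ℝ) ≤ (b : ℝ) ^ (2 * (S + 5) + 1) / (b : ℝ) ^ Q by positivity]
  obtain ⟨D₁, hD0, hD1, hD2⟩ := Stage.patched_window hok hA hA' hB hB'
    (fun T D hT => ⟨(hpat T D hT).1, (hpat T D hT).2.1⟩) hfl'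
    (by linarith [hE (Q' + 1) (Or.inl le_rfl), hsmall (Q' + 1) (by omega)]) hεE
    (by simp only [Fam.stage, par]; linarith [hsmall β (by omega)])
    (s := s) (y := y) (m := b ^ (2 * S + 9))
    (by
      have : M' = b * b ^ (2 * S + 9) := by rw [hM']; ring
      have h4 : 4 * (k * b ^ (2 * S + 9)) ≤ b * b ^ (2 * S + 9) :=
        (Nat.mul_assoc 4 k _).symm.trans_le (Nat.mul_le_mul_right _ (by omega))
      omega)
    (by
      have : M' = b * b ^ (2 * S + 9) := by rw [hM']; ring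
      have h4 : 8 * (k * b ^ (2 * S + 9)) ≤ 2 * (b * b ^ (2 * S + 9)) := by
        have h5 : 8 * k * b ^ (2 * S + 9) ≤ 2 * b * b ^ (2 * S + 9) :=
          Nat.mul_le_mul_right _ (by omega)
        simpa only [Nat.mul_assoc] using h5
      omega)
  simp only [Fam.stage, par] at hD1 hD2
  have hη : 128 * (K : ℝ) ^ 2 * (1 / (b : ℝ) ^ β) ^ 2
      + 4200 * (K : ℝ) ^ 2 * (20 * ((b : ℝ) ^ (2 * (S + 5) + 1) / (b : ℝ) ^ Q))
      ≤ 1 / (b : ℝ) ^ β' := by
    have a1 : (1 / (b : ℝ) ^ β) ^ 2 ≤ 1 / (b : ℝ) ^ (β' + 1) := by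
      rw [div_pow, one_pow, ← pow_mul]
      exact pow_inv_mono hb1 (by omega)
    have hEb := hE (β' + 1) (Or.inr le_rfl)
    calc _ ≤ 128 * (K : ℝ) ^ 2 * (1 / (b : ℝ) ^ (β' + 1))
          + 4200 * (K : ℝ) ^ 2 * (20 * (1 / (b : ℝ) ^ (β' + 1))) := by
          gcongr
      _ = (128 * (K : ℝ) ^ 2 + 4200 * (K : ℝ) ^ 2 * 20) * (1 / (b : ℝ) ^ (β' + 1)) := by ring
      _ ≤ 1 / (b : ℝ) ^ β' := const_div_pow_le hb1 (by nlinarith [sq_nonneg (K : ℝ)]) le_rfl
  have hclose : 8400 * (K : ℝ) ^ 2 * (20 * ((b : ℝ) ^ (2 * (S + 5) + 1) / (b : ℝ) ^ Q))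
      + 4 * C * (2 * nrm (((F.stage q (par S β g Q) b).U - 1)
        * (F.stage q (par S β g Q) b).U ^ b ^ (2 * S + 9))) ^ k ≤ 1 / (b : ℝ) ^ Q' := by
    have a3 : 4 * C * (2 * nrm (((F.stage q (par S β g Q) b).U - 1)
        * (F.stage q (par S β g Q) b).U ^ b ^ (2 * S + 9))) ^ k ≤ 1 / (b : ℝ) ^ (Q' + 1) := by
      refine pow_small (D := 2 ^ 2) hb1 (by linarith)
        (shift_small hb1 (x := 0) (y := 2 * S + 7) (z := 2 * S + 9) (nrm_nonneg _)
          (hb.smU _) ?_ (by norm_num) (by simp) (by omega))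
        (by norm_num; linarith)
      push_cast; linarith
    have hEq := hE (Q' + 1) (Or.inl le_rfl)
    calc _ ≤ 8400 * (K : ℝ) ^ 2 * (20 * (1 / (b : ℝ) ^ (Q' + 1)))
          + 1 / (b : ℝ) ^ (Q' + 1) := by
          gcongr
      _ = (8400 * (K : ℝ) ^ 2 * 20 + 1) * (1 / (b : ℝ) ^ (Q' + 1)) := by ring
      _ ≤ 1 / (b : ℝ) ^ Q' := const_div_pow_le hb1 (by nlinarith [sq_nonneg (K : ℝ)]) le_rfl
  set U := (F.stage q (par S β g Q) b).U with hUdef
  have hU : IsProb U := hok.isProb_U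
  have hD1' : AbsLE D₁ ((1 / (b : ℝ) ^ β') • U ^ K) := fun z => (hD1 z).trans (by
    simp only [coeff_smul, Finsupp.smul_apply, smul_eq_mul]
    exact mul_le_mul_of_nonneg_right hη ((hU.pow K).1.nonneg z))
  have hmain : Dom ((F.stage q (par S β g Q) b).patched A B K s y
      - (F.stage q (par S β g Q) b).patched A' B' K s y) (U ^ M')
      (1 / (b : ℝ) ^ β') (1 / (b : ℝ) ^ Q') := by
    refine ⟨U ^ s * D₁ * U ^ y, ?_, hD2.trans hclose⟩
    have := ((hU.pow s).1.mul hD1').mul (hU.pow y).1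
    rwa [mul_smul_comm, smul_mul_assoc, ← pow_add, ← pow_add, e1] at this
  refine ⟨hgood F hb hmain, D₁, s, K, y, ⟨e1, hD1', hD0, ?_⟩, le_rfl, ?_, ?_⟩
  · rw [next_p, next_r]
    exact hD2.trans hclose
  · exact e2
  · exact e3

end Vale.Agent.P321
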